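import Crest.Agent.X212.Wd38.Wall

/-!
# X212 / Wd38, part Cmp (helper38): comparison of two words

* `Shp.Sk` : knots and junctions agree on a window up to a shift; `Cr` : corresponding points;
* `Lc` : a partial diffeomorphism is the comparison over a window; `exists_cm`;
* `mid` : the identification of marks, `twId` : the twist.
-/

set_option autoImplicit false
set_option linter.unusedSectionVars false

open Set Filter Topology Function Metric TopologicalSpace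
open scoped ContDiff Manifold
open Crest.Agent.R208.F (Ext)
open Crest.GeometryTopology.DehnSurgery

noncomputable section

namespace Crest.Agent.X212.Wd38

open Crest.Agent.X212.Glue52 Crest.Agent.X212.Rod53 Crest.Agent.X212.Int54 Crest.Agent.X212.Orx52
  Crest.Agent.X212.M Crest.Agent.X212.Cyf70 Crest.Agent.X212.An
open Crest.Agent.X212.Cyl58 hiding ld_id ld_congr ld_of_comp ld_comp

/-- GLUING of partial diffeomorphisms -/
theorem exists_pd {X X' : Mf 4} [Nonempty X.M] [Nonempty X'.M] {ι : Type}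
    (φ : ι → PartialDiffeomorph X.I X'.I X.M X'.M ∞)
    (h : ∀ i j, ∀ x ∈ (φ i).source, ∀ y ∈ (φ j).source, φ i x = φ j y ↔ x = y) :
    ∃ ψ : PartialDiffeomorph X.I X'.I X.M X'.M ∞, ψ.source = ⋃ i, (φ i).source ∧
      ψ.target = ⋃ i, (φ i).target ∧ ∀ i, ∀ x ∈ (φ i).source, ψ x = φ i x := by
  obtain ⟨ψ, h1, h2, h3, -⟩ := exists_pd_of_cover (A := fun i => (⟨_, (φ i).open_source⟩ : Opens X.M))
    (IA := fun _ => X.I) (f := fun _ => Subtype.val) (g := fun i p => φ i p.1) (fun _ => ld_val _)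
    (fun i p => (ld_val _ p).comp _ _ (ldp (φ i) p.2)) fun i j p q => (h i j _ p.2 _ q.2).symm
  refine ⟨ψ, h1.trans (iUnion_congr fun _ => Subtype.range_coe), h2.trans (iUnion_congr fun i => ?_),
    fun i x hx => h3 i ⟨x, hx⟩⟩
  rw [← (φ i).image_source_eq_target, image_eq_range]
  rfl

variable {Γ : Nm}

namespace Shp

variable {w w' : Shp Γ} {d x y a b a' b' j : ℤ}

/-- knots and junctions agree on the window `[x, y]` up to the shift `d` -/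
structure Sk (w w' : Shp Γ) (d x y : ℤ) : Prop where
  lo : w'.l ≤ x + d
  hi : y + d ≤ w'.r
  lo' : w.l ≤ x
  hi' : y ≤ w.r
  kn : ∀ j, x ≤ j → j < y → w'.kn (j + d) = w.kn j
  jn : ∀ j J, x < j → j < y → (w'.s (j + d) = .jn J ↔ w.s j = .jn J)

theorem rod_iff : (∃ τ, w.s j = .rod τ) ↔ ∀ J, w.s j ≠ .jn J := by cases w.s j <;> simp

theorem Sk.symm (h : Sk w w' d x y) : Sk w' w (-d) (x + d) (y + d) :=
  ⟨by linarith [h.lo'], by linarith [h.hi'], h.lo, h.hi,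
    fun j a b => by rw [← h.kn _ (by omega) (by omega), neg_add_cancel_right],
    fun j J a b => by rw [← h.jn _ _ (by omega) (by omega), neg_add_cancel_right]⟩

theorem Sk.rod (h : Sk w w' d x y) (h1 : x < j) (h2 : j < y) (k : ∃ τ, w.s j = .rod τ) :
    ∃ τ, w'.s (j + d) = .rod τ := rod_iff.2 fun J e => rod_iff.1 k J ((h.jn j J h1 h2).1 e)

theorem Sk.rg (h : Sk w w' d x y) (k : w.Rg a b) (h1 : x ≤ a) (h2 : b ≤ y) : w'.Rg (a + d) (b + d) :=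
  ⟨by linarith [h.lo], by linarith [k.lt], by linarith [h.hi], fun j p q => by
    simpa using h.rod (j := j - d) (by omega) (by omega) (k.fr _ (by omega) (by omega))⟩

theorem Sk.mono (h : Sk w w' d x y) (h1 : x ≤ a) (h2 : b ≤ y) : Sk w w' d a b :=
  ⟨by linarith [h.lo], by linarith [h.hi], h.lo'.trans h1, h2.trans h.hi',
    fun j p q => h.kn j (by omega) (by omega), fun j J p q => h.jn j J (by omega) (by omega)⟩

theorem Agr.mono (h : w.Agr w' d x y) (h1 : x ≤ a) (h2 : a < b) (h3 : b ≤ y) : w.Agr w' d a b :=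
  ⟨h1.eq_or_lt.elim (fun e => e ▸ h.lo) fun e => congrArg _ (h.mid a e (by omega)),
    fun j p q => h.mid j (by omega) (by omega),
    h3.eq_or_lt.elim (fun e => e ▸ h.hi) fun e => congrArg _ (h.mid b (by omega) e)⟩

theorem Agr.sk (h : w.Agr w' d x y) (h1 : w.l ≤ x) (h2 : y ≤ w.r) (h3 : w'.l ≤ x + d) (h4 : y + d ≤ w'.r) :
    Sk w w' d x y :=
  ⟨h3, h4, h1, h2, fun j a b => congrArg Prod.fst (h.mono a (lt_add_one j) b).lo,
    fun j J a b => by rw [h.mid j a b]⟩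

theorem Agr.bw (h : w.Agr w' d a b) (h1 : a ≤ j) (h2 : j ≤ b) :
    w.bw a b j = w'.bw (a + d) (b + d) (j + d) := by
  rcases h1.eq_or_lt with rfl | e
  · rw [bw_le le_rfl, bw_le le_rfl, h.lo]
  · rw [bw_mid e h2, bw_mid (by omega) (by omega), (h.mono le_rfl e h2).hi]

theorem Agr.v (hw : w.OK) (hw' : w'.OK) (h : w.Agr w' d a b) (k : w.Rg a b) (k' : w'.Rg (a + d) (b + d)) {t : ℝ}
    (ht : t ∈ II a b) : w.v a b t = w'.v (a + d) (b + d) (t + d) :=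
  v_congr hw hw' k k' (fun _ => h.bw) (II_sub _ _ ht)

theorem ag_slot (hw : w.OK) (hw' : w'.OK) (k : w.Rg a b) (k' : w'.Rg a' b')
    (e : w.bw a b j = w'.bw a' b' (j + d)) {t : ℝ} (ht : t ∈ II j j) : t ∈ Ag (w.v a b) (w'.v a' b') d :=
  Ag.of_open (isOpen_II j j) (fun _ hs => by rw [k.v_slot hw hs, k'.v_slot hw' (add_mem_II.2 hs), e]) ht

theorem Sur.sk (hw : w.OK) (hw' : w'.OK) (h : w.Sur w' x y) : Sk w w' 0 w.l w.r := by
  refine ⟨by rw [h.l, add_zero], by rw [h.r, add_zero], le_rfl, le_rfl, fun j a b => ?_, fun j J a b => ?_⟩ <;>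
    rw [add_zero]
  · by_cases e : x ≤ j ∧ j < y
    · rw [h.rg.kn_eq hw e.1 e.2, h.rg'.kn_eq hw' e.1 e.2, Shp.kn, Shp.kn, h.eq x (.inl le_rfl)]
    · rw [Shp.kn, Shp.kn, h.eq j (by omega)]
  · by_cases e : x < j ∧ j < y
    · exact iff_of_false (rod_iff.1 (h.rg'.fr j e.1 e.2) J) (rod_iff.1 (h.rg.fr j e.1 e.2) J)
    · rw [h.eq j (by omega)]

end Shp

variable {C : Cx Γ} {w w' : Shp Γ} {hw : w.OK} {hw' : w'.OK} {X X' : TP V4} (R : Rz C hw X) (R' : Rz C hw' X')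
  {d x y a b a' b' α β α' β' : ℤ} {eL eR : Prop}

theorem Cx.pC_add (C : Cx Γ) {j j' d : ℤ} (e : j' = j + d) (u : (mF C.kd Γ.cap).M) (t : ℝ) :
    (C.pC j' (u, t + d) : C.X0.M) = C.pC j (u, t) := by
  rw [C.pC_apply, C.pC_apply, e]
  congr 2
  push_cast
  ring

theorem Cx.cap_add (C : Cx Γ) (j d : ℤ) (p : C.X0.M) : (C.cap (j + d)).τ p = (C.cap j).τ p + d := by
  change _ + (((j + d : ℤ) : ℝ) + 1 / 2) = _ + _ + _
  push_cast
  exact (add_assoc _ _ _).symm.trans (by ring_nf)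

/-- corresponding points -/
inductive Cr (d x y : ℤ) (eL eR : Prop) : X.P.M → X'.P.M → Prop
  | B {a b α β : ℤ} (h : w.Rg a b) (h' : w'.Rg α β) (e : α = a + d) (e' : β = b + d) (h1 : x ≤ a) (h2 : b ≤ y)
      {p : C.XR w a b} {p' : C.XR w' α β} (t : C.tm p ∈ II a b) (l : NR d p p') :
      Cr d x y eL eR (R.B h p) (R'.B h' p')
  | kL (e : eL) {p : C.X0.M} (t : (C.cap w.l).τ p < w.l + 3 / 4) : Cr d x y eL eR (R.kL p) (R'.kL p)
  | kR (e : eR) {p : C.X0.M} (t : w.r + 1 / 4 < (C.cap w.r).τ p) : Cr d x y eL eR (R.kR p) (R'.kR p)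

variable (w w' d x y eL eR) in
/-- the hypotheses of a comparison -/
structure Hc : Prop where
  sk : w.Sk w' d x y
  l : eL → w'.l = w.l + d
  r : eR → w'.r = w.r + d

variable {R R'}

theorem Hc.symm (H : Hc w w' d x y eL eR) : Hc w' w (-d) (x + d) (y + d) eL eR :=
  ⟨H.sk.symm, fun e => by linarith [H.l e], fun e => by linarith [H.r e]⟩

theorem Hc.capL (H : Hc w w' d x y eL eR) (e : eL) {p : C.X0.M} (t : (C.cap w.l).τ p < w.l + 3 / 4) :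
    (C.cap w'.l).τ p < w'.l + 3 / 4 := by
  rw [H.l e, C.cap_add]; push_cast; linarith

theorem Hc.capR (H : Hc w w' d x y eL eR) (e : eR) {p : C.X0.M} (t : w.r + 1 / 4 < (C.cap w.r).τ p) :
    w'.r + 1 / 4 < (C.cap w'.r).τ p := by
  rw [H.r e, C.cap_add]; push_cast; linarith

theorem mem_II_nr {p : C.XR w a b} {p' : C.XR w' α β} (l : NR d p p') {i j : ℤ} :
    C.tm p' ∈ II (i + d) (j + d) ↔ C.tm p ∈ II i j := C.tm_nr l ▸ add_mem_II

namespace Cr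

variable {z : X.P.M} {z' z'' : X'.P.M}

theorem symm (H : Hc w w' d x y eL eR) (h : Cr R R' d x y eL eR z z') :
    Cr R' R (-d) (x + d) (y + d) eL eR z' z := by
  cases h with
  | B h h' e e' h1 h2 t l =>
    subst e e'
    exact .B h' h (by ring) (by ring) (by omega) (by omega) ((mem_II_nr l).2 t) (l.symm.cast (Int.cast_neg d).symm)
  | kL e t => exact .kL e (H.capL e t)
  | kR e t => exact .kR e (H.capR e t)

theorem time (H : Hc w w' d x y eL eR) (h : Cr R R' d x y eL eR z z') : X'.τ z' = X.τ z + d := by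
  cases h with
  | B h h' e e' h1 h2 t l =>
    subst e e'
    rw [(R.B h).tm _ t, (R'.B h').tm _ ((mem_II_nr l).2 t)]
    exact l.time
  | kL e t => rw [R.kL.tm _ t, R'.kL.tm _ (H.capL e t), H.l e, C.cap_add]
  | kR e t => rw [R.kR.tm _ t, R'.kR.tm _ (H.capR e t), H.r e, C.cap_add]

theorem time_mem (h : Cr R R' d x y eL eR z z') :
    X.τ z ∈ II x y ∨ (eL ∧ X.τ z < w.l + 3 / 4) ∨ (eR ∧ w.r + 1 / 4 < X.τ z) := by
  cases h with
  | B h _ _ _ h1 h2 t => exact .inl (II_mono h1 h2 ((R.B h).mem t))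
  | kL e t => exact .inr (.inl ⟨e, R.kL.mem t⟩)
  | kR e t => exact .inr (.inr ⟨e, R.kR.mem t⟩)

theorem at_jn {j : ℤ} {J : Γ.J} (h : w.Rg a j) (k : w.Rg j b) (e : w.s j = .jn J) {p : C.XR w a j} {q : C.XR w j b}
    (tp : C.tm p ∈ II a j) (tq : C.tm q ∈ II j b) (l : R.B h p = R.B k q) :
    ∃ u, ∃ t ∈ II j j, p = C.pL (τ := Γ.src J) hw h (congrArg Sl.l e) (u, t) ∧
      q = C.pR (τ := Γ.tgt J) hw k (congrArg Sl.r e) (C.g J u, t) := by
  have t : C.tm p = C.tm q := ((R.B h).tm p tp).symm.trans (l ▸ (R.B k).tm q tq)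
  have t' : C.tm p ∈ II j j := ⟨(t ▸ tq).1, tp.2⟩
  obtain ⟨u, hu⟩ := (C.pL (τ := Γ.src J) hw h (congrArg Sl.l e)).exists_cyl t'
  refine ⟨u, _, t', hu.symm, (R.B k).inj tq (II_mono le_rfl k.lt.le ((C.pR hw k _).mem (x := (_, _)) t')) ?_⟩
  rw [R.jn h k e u _ t', ← l]
  exact congrArg _ hu.symm

/-- a corresponding point is seen in every chart -/
theorem ex (H : Hc w w' d x y eL eR) (r : Cr R R' d x y eL eR z z') (h : w.Rg a b) (h' : w'.Rg (a + d) (b + d))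
    (h1 : x ≤ a) (h2 : b ≤ y) {p : C.XR w a b} (tp : C.tm p ∈ II a b) (e : R.B h p = z) :
    ∃ p', NR d p p' ∧ R'.B h' p' = z' := by
  cases r with
  | @B a' b' _ _ k k' e1 e2 k1 k2 q q' tq l =>
    subst e1 e2
    have lt := h.lt
    have lt' := k.lt
    by_cases o : w.Ov a b a' b'
    · have n := R.nr_of_eq h k o tp tq e
      have o' : w'.Ov (a' + d) (b' + d) (a + d) (b + d) :=
        ⟨fun c => H.sk.rod (by omega) (by omega) (o.2 (by omega)),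
          fun c => H.sk.rod (by omega) (by omega) (o.1 (by omega))⟩
      have t1 := (mem_II_nr l).2 tq
      have t2 := (mem_II_nr l).2 ((C.mem_nr n).2 tp)
      have u := o'.hull k' h' t1 t2
      obtain ⟨s, hs⟩ := C.exists_up hw' u (min_le_left _ _) k'.lt (le_max_left _ _) t1
      obtain ⟨p', hp'⟩ := C.exists_dn hw' u (min_le_right _ _) h'.lt (le_max_right _ _) ((C.mem_nr hs).2 t2)
      have m := hs.trans0 hp'
      exact ⟨p', (n.trans0 l).trans0' m, (R'.eq_nr k' h' o' t1 ((C.mem_nr m).2 t2) m).symm⟩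
    · simp only [Shp.Ov, Shp.rod_iff, not_and_or, not_forall, not_not, exists_prop] at o
      rcases o with ⟨rfl, J, c⟩ | ⟨rfl, J, c⟩
      · obtain ⟨u, t, ht, rfl, rfl⟩ := at_jn h k c tp tq e
        have c' := (H.sk.jn _ J (by omega) (by omega)).2 c
        refine ⟨C.pL (τ := Γ.src J) hw' h' (congrArg Sl.l c') (u, t + d), C.nr_pt hw hw' h h' rfl _ _ _ _ u ht, ?_⟩
        rw [← R'.jn h' k' c' u _ (add_mem_II.2 ht)]
        exact congrArg _ ((C.nr_pt hw hw' k k' rfl _ _ _ _ _ ht).uq l)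
      · obtain ⟨u, t, ht, rfl, rfl⟩ := at_jn k h c tq tp e.symm
        have c' := (H.sk.jn _ J (by omega) (by omega)).2 c
        refine ⟨C.pR (τ := Γ.tgt J) hw' h' (congrArg Sl.r c') (_, t + d), C.nr_pt hw hw' h h' rfl _ _ _ _ _ ht, ?_⟩
        rw [R'.jn k' h' c' u _ (add_mem_II.2 ht)]
        exact congrArg _ ((C.nr_pt hw hw' k k' rfl _ _ _ _ _ ht).uq l)
  | @kL c q tq =>
    have t : C.tm p = (C.cap w.l).τ q := ((R.B h).tm p tp).symm.trans (e ▸ R.kL.tm q tq)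
    have t' : C.tm p < w.l + 3 / 4 := t ▸ tq
    obtain rfl : a = w.l := h.lo.antisymm' (II_le tp (x' := a) ⟨tp.1, t'⟩)
    obtain ⟨u, hu⟩ := (C.pR hw h hw.lr).exists_cyl (show C.tm p ∈ II w.l w.l from ⟨tp.1, t'⟩)
    have m := R.cL h u _ ⟨tp.1, t'⟩
    have m' := R.kL.inj ((C.pC w.l).mem (x := (u, C.tm p)) ⟨tp.1, t'⟩).2 tq (m.symm.trans (hu.symm ▸ e))
    revert h'
    rw [← H.l c]
    intro h'
    have n : NR d (C.pR hw h hw.lr (u, C.tm p) : C.XR w _ _) (C.pR hw' h' hw'.lr (u, C.tm p + d) : C.XR w' _ _) :=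
      C.nr_pt hw hw' h h' (H.l c) _ _ _ _ u ⟨tp.1, t'⟩
    exact ⟨_, (congrArg (NR d · _) hu).mp n, (R'.cL h' u _ (H.l c ▸ add_mem_II.2 ⟨tp.1, t'⟩)).trans
      (congrArg R'.kL ((C.pC_add (H.l c) u _).trans m'))⟩
  | @kR c q tq =>
    have t : C.tm p = (C.cap w.r).τ q := ((R.B h).tm p tp).symm.trans (e ▸ R.kR.tm q tq)
    have t' : w.r + 1 / 4 < C.tm p := t ▸ tq
    obtain rfl : b = w.r := h.hi.antisymm (II_le (y := b) ⟨t', tp.2⟩ tp)
    obtain ⟨u, hu⟩ := (C.pL hw h hw.rl).exists_cyl (show C.tm p ∈ II w.r w.r from ⟨t', tp.2⟩)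
    have m := R.cR h u _ ⟨t', tp.2⟩
    have m' := R.kR.inj ((C.pC w.r).mem (x := (u, C.tm p)) ⟨t', tp.2⟩).1 tq (m.symm.trans (hu.symm ▸ e))
    revert h'
    rw [← H.r c]
    intro h'
    have n : NR d (C.pL hw h hw.rl (u, C.tm p) : C.XR w _ _) (C.pL hw' h' hw'.rl (u, C.tm p + d) : C.XR w' _ _) :=
      C.nr_pt hw hw' h h' (H.r c) _ _ _ _ u ⟨t', tp.2⟩
    exact ⟨_, (congrArg (NR d · _) hu).mp n, (R'.cR h' u _ (H.r c ▸ add_mem_II.2 ⟨t', tp.2⟩)).trans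
      (congrArg R'.kR ((C.pC_add (H.r c) u _).trans m'))⟩

theorem uq (H : Hc w w' d x y eL eR) (r : Cr R R' d x y eL eR z z') (r' : Cr R R' d x y eL eR z z'') : z' = z'' := by
  have key : ∀ {z' z''}, Cr R R' d x y eL eR z z' → ∀ {a b α β} (h : w.Rg a b) (h' : w'.Rg α β), α = a + d →
      β = b + d → x ≤ a → b ≤ y → ∀ {p : C.XR w a b} {p' : C.XR w' α β}, C.tm p ∈ II a b → NR d p p' →
      R.B h p = z → R'.B h' p' = z'' → z' = z'' := by
    rintro z' _ r a b _ _ h h' rfl rfl h1 h2 p p' t l e rfl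
    obtain ⟨q, k, rfl⟩ := r.ex H h h' h1 h2 t e
    rw [l.uq k]
  have lt : (w.l : ℝ) + 1 ≤ w.r := by exact_mod_cast hw.lt
  generalize e : z = z0 at r'
  cases r' with
  | B h h' e1 e2 h1 h2 t l => exact key r h h' e1 e2 h1 h2 t l e.symm rfl
  | kL c t =>
    cases r with
    | B h h' e1 e2 h1 h2 t' l => exact (key (e ▸ .kL c t) h h' e1 e2 h1 h2 t' l rfl rfl).symm
    | kL _ t' => rw [R.kL.inj t' t e]
    | kR _ t' => linarith [mem_Ioi.1 (R.kR.mem t'), mem_Iio.1 (e ▸ R.kL.mem t)]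
  | kR c t =>
    cases r with
    | B h h' e1 e2 h1 h2 t' l => exact (key (e ▸ .kR c t) h h' e1 e2 h1 h2 t' l rfl rfl).symm
    | kL _ t' => linarith [mem_Iio.1 (R.kL.mem t'), mem_Ioi.1 (e ▸ R.kR.mem t)]
    | kR _ t' => rw [R.kR.inj t' t e]

end Cr

variable (R R' d x y) in
/-- `ψ` is the comparison over the window `[x, y]` -/
structure Lc (ψ : PartialDiffeomorph X.mf.I X'.mf.I X.P.M X'.P.M ∞) : Prop where
  sk : w.Sk w' d x y
  tm : ∃ l : ℝ → ℝ, StrictMono l ∧ (∀ s ∈ II x y, l s = s + d) ∧ ∀ z ∈ ψ.source, X'.τ (ψ z) = l (X.τ z)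
  ex : ∀ {a b} (h : w.Rg a b) (h' : w'.Rg (a + d) (b + d)), x ≤ a → b ≤ y → ∀ {p}, C.tm p ∈ II a b →
    R.B h p ∈ ψ.source → ∃ p', NR d p p' ∧ R'.B h' p' = ψ (R.B h p)
  mem : ∀ {a b} (h : w.Rg a b), x ≤ a → b ≤ y → ∀ {p}, C.tm p ∈ II a b →
    p ∈ ag (C.T _) (w.v a b) (w'.v (a + d) (b + d)) d → R.B h p ∈ ψ.source

variable (R R' d x y eL eR) in
/-- the comparison -/
structure Cm (ψ : PartialDiffeomorph X.mf.I X'.mf.I X.P.M X'.P.M ∞) : Prop extends Lc R R' d x y ψ where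
  rl : ∀ z ∈ ψ.source, Cr R R' d x y eL eR z (ψ z)
  mem' : ∀ {a b} (h' : w'.Rg (a + d) (b + d)), x ≤ a → b ≤ y → ∀ {p'}, C.tm p' ∈ II (a + d) (b + d) →
    p' ∈ ag (C.T _) (w'.v (a + d) (b + d)) (w.v a b) (-d) → R'.B h' p' ∈ ψ.target
  sL : eL → ∀ z, X.τ z < w.l + 3 / 4 → z ∈ ψ.source
  sR : eR → ∀ z, w.r + 1 / 4 < X.τ z → z ∈ ψ.source
  tL : eL → ∀ z, X'.τ z < w'.l + 3 / 4 → z ∈ ψ.target
  tR : eR → ∀ z, w'.r + 1 / 4 < X'.τ z → z ∈ ψ.target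
  pos : Pos X.P.I X'.P.I ψ ψ.source R.O R'.O

section Ex

variable {A A' : TP V4} {J J' : Set ℝ} (k : TIso A X J) (k' : TIso A' X' J')
  (f : PartialDiffeomorph A.P.I A'.P.I A.P.M A'.P.M ∞)

/-- a partial diffeomorphism through two charts -/
def cj : PartialDiffeomorph X.mf.I X'.mf.I X.P.M X'.P.M ∞ := k.φ.symm.trans (f.trans k'.φ)

variable {k k' f}

theorem cj_mem {p : A.P.M} (h : A.τ p ∈ J) (h1 : p ∈ f.source) (h2 : A'.τ (f p) ∈ J') :
    k p ∈ (cj k k' f).source ∧ cj k k' f (k p) = k' (f p) := by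
  have e := k.symm_apply h
  exact ⟨⟨k.mem_tgt (k.mem h), by
    change k.symm (k p) ∈ f.source ∧ f (k.symm (k p)) ∈ k'.φ.source
    rw [e]; exact ⟨h1, k'.mem_src h2⟩⟩, congrArg (fun s => k' (f s)) e⟩

theorem cj_src {z : X.P.M} (h : z ∈ (cj k k' f).source) :
    ∃ p, A.τ p ∈ J ∧ p ∈ f.source ∧ A'.τ (f p) ∈ J' ∧ k p = z :=
  have t : X.τ z ∈ J := k.tgt.le h.1
  ⟨_, k.symm.mem t, h.2.1, k'.src.le h.2.2, k.apply_symm t⟩

theorem cj_pos {o : A.P.M → Ext A.P.E} {o' : A'.P.M → Ext A'.P.E} {O : X.P.M → Ext X.P.E} {O' : X'.P.M → Ext X'.P.E}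
    (h : TPos k o O) (h' : TPos k' o' O') (hf : Pos A.P.I A'.P.I f f.source o o') :
    Pos X.P.I X'.P.I (cj k k' f) (cj k k' f).source O O' :=
  (Pos.comp h' (hf.mono inter_subset_left) (fun _ => k'.ld) (t := f.source ∩ f ⁻¹' (A'.τ ⁻¹' J'))
    (fun _ s => ldp f s.1) fun _ s => s.2).comp (f := k' ∘ f) (g := k.symm)
    (Pos.mono h.symm fun _ s => k.tgt.le s.1) (fun _ s => (ldp f s.1).comp _ _ (k'.ld s.2))
    (fun _ s => ldp k.φ.symm s.1) fun _ s => ⟨s.2.1, k'.src.le s.2.2⟩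

end Ex

/-- EXISTENCE of the comparison -/
theorem exists_cm (H : Hc w w' d x y eL eR) : ∃ ψ, Cm R R' d x y eL eR ψ := by
  have := R.con
  have := R'.con
  let i0 := (Diffeomorph.refl C.X0.I C.X0.M ∞).toPartialDiffeomorph
  have T : ∀ {a b}, w.Rg a b → x ≤ a → b ≤ y → C.T (w.kn a) = C.T (w'.kn (a + d)) := fun h h1 h2 =>
    congrArg C.T (H.sk.kn _ h1 (h.lt.trans_le h2)).symm
  let φ : {p : ℤ × ℤ // w.Rg p.1 p.2 ∧ x ≤ p.1 ∧ p.2 ≤ y} ⊕ PLift eL ⊕ PLift eR →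
      PartialDiffeomorph X.mf.I X'.mf.I X.P.M X'.P.M ∞ := fun i => match i with
    | .inl p => cj (R.B p.2.1) (R'.B (H.sk.rg p.2.1 p.2.2.1 p.2.2.2)) (fs (T p.2.1 p.2.2.1 p.2.2.2) d _ _)
    | .inr (.inl _) => cj R.kL R'.kL i0
    | .inr (.inr _) => cj R.kR R'.kR i0
  have r : ∀ i, ∀ z ∈ (φ i).source, Cr R R' d x y eL eR z (φ i z) := by
    rintro (p | e | e) z hz <;> obtain ⟨q, h1, h2, h3, rfl⟩ := cj_src hz <;> rw [(cj_mem h1 h2 h3).2]
    exacts [.B _ _ rfl rfl p.2.2.1 p.2.2.2 h1 (nr_ff (T p.2.1 p.2.2.1 p.2.2.2) h2), .kL e.1 h1, .kR e.1 h1]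
  obtain ⟨ψ, h1, h2, h3⟩ := exists_pd φ fun i j z hz z' hz' =>
    ⟨fun e => ((r i z hz).symm H).uq H.symm (e ▸ (r j z' hz').symm H), fun e => (r i z hz).uq H (e ▸ r j z' hz')⟩
  have r' : ∀ z ∈ ψ.source, Cr R R' d x y eL eR z (ψ z) := fun z hz => by
    obtain ⟨i, hi⟩ := mem_iUnion.1 (h1 ▸ hz)
    exact h3 i z hi ▸ r i z hi
  have s : ∀ i, (φ i).source ⊆ ψ.source := fun i => h1 ▸ subset_iUnion (fun i => (φ i).source) i
  have m : ∀ {a b} (h : w.Rg a b), x ≤ a → b ≤ y → ∀ {p}, C.tm p ∈ II a b →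
      p ∈ ag (C.T _) (w.v a b) (w'.v (a + d) (b + d)) d → R.B h p ∈ ψ.source := fun h k1 k2 p t g =>
    s (.inl ⟨(_, _), h, k1, k2⟩) (cj_mem t g ((mem_II_nr (nr_ff (T h k1 k2) g)).2 t)).1
  have sL : eL → ∀ p, (C.cap w.l).τ p < w.l + 3 / 4 → R.kL p ∈ ψ.source := fun e p t =>
    s (.inr (.inl ⟨e⟩)) (cj_mem (k := R.kL) (k' := R'.kL) (f := i0) t trivial (H.capL e t)).1
  have sR : eR → ∀ p, w.r + 1 / 4 < (C.cap w.r).τ p → R.kR p ∈ ψ.source := fun e p t =>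
    s (.inr (.inr ⟨e⟩)) (cj_mem (k := R.kR) (k' := R'.kR) (f := i0) t trivial (H.capR e t)).1
  refine ⟨ψ, ⟨H.sk, ⟨(· + d), fun _ _ k => by linarith, fun _ _ => rfl, fun z hz => (r' z hz).time H⟩,
    fun h h' k1 k2 p t g => (r' _ g).ex H h h' k1 k2 t rfl, m⟩, r', fun {a b} h' k1 k2 p' t g => ?_,
    fun e z t => ?_, fun e z t => ?_, fun e z t => ?_, fun e z t => ?_, fun z hz => ?_⟩
  · have h : w.Rg a b := by simpa using H.sk.symm.rg h' (by omega) (by omega)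
    obtain ⟨p, l⟩ := exists_NR (T h k1 k2).symm g
    have l' := l.symm.cast (neg_neg _)
    have t' := (mem_II_nr l').1 t
    have g' := m h k1 k2 t' (by simpa using l.mem_ag (T h k1 k2).symm g)
    exact (r' _ g').uq H (.B h h' rfl rfl k1 k2 t' l') ▸ ψ.map_source g'
  · obtain ⟨p, a, rfl⟩ := R.kL.surj t
    exact sL e p (a ▸ t)
  · obtain ⟨p, a, rfl⟩ := R.kR.surj t
    exact sR e p (a ▸ t)
  · obtain ⟨p, a, rfl⟩ := R'.kL.surj t
    have t' := H.symm.capL e (a ▸ t)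
    exact (r' _ (sL e p t')).uq H (.kL e t') ▸ ψ.map_source (sL e p t')
  · obtain ⟨p, a, rfl⟩ := R'.kR.surj t
    have t' := H.symm.capR e (a ▸ t)
    exact (r' _ (sR e p t')).uq H (.kR e t') ▸ ψ.map_source (sR e p t')
  · obtain ⟨i, hi⟩ := mem_iUnion.1 (h1 ▸ hz)
    refine Pos.congr (f := φ i) ?_ (φ i).open_source (h3 i) z hi
    have o : Pos C.X0.I C.X0.I i0 univ (-C.o0) (-C.o0) := pos_id.2 (oriOn (ori_neg C.ori) _).same
    rcases i with p | e | e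
    exacts [cj_pos (R.O_spec.B _) (R'.O_spec.B _) (pos_ff (T p.2.1 p.2.2.1 p.2.2.2)
      (C.ok_spec (H.sk.kn _ p.2.2.1 (p.2.1.lt.trans_le p.2.2.2)).symm) (C.ok_spec rfl)),
      cj_pos R.O_spec.kL R'.O_spec.kL o, cj_pos R.O_spec.kR R'.O_spec.kR o]

/-! ### walls under a comparison -/

/-- the identity along an equality of types -/
def cY (kd : Γ.ι → Ext52.KD) {τ τ' : WT Γ.ι} (e : τ = τ') :
    (mY kd τ).M ≃ₘ^∞⟮(mY kd τ).I, (mY kd τ').I⟯ (mY kd τ').M := e ▸ Diffeomorph.refl _ _ ∞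

/-- the feet are matched -/
def Bs.Mt (w w' : Shp Γ) (d x y : ℤ) : Bs → Prop
  | .sA a b | .rA a b | .lA a b => x ≤ a ∧ b ≤ y ∧ (w'.s (a + d)).r = (w.s a).r ∧ (w'.s (b + d)).l = (w.s b).l
  | .sS a | .yS a => x ≤ a ∧ a < y ∧ (w'.s (a + d)).r = (w.s a).r

/-- the sphere of the twist is matched -/
def Tw.Mt (w w' : Shp Γ) (d x y : ℤ) (t : Tw) : Prop :=
  t.OK w ∧ x < t.x ∧ t.y < y ∧ w.Agr w' d (t.x - 1) (t.y + 1)

/-- the wall is matched -/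
def Wl.Mt (w w' : Shp Γ) (d x y : ℤ) (a : Wl) : Prop := a.b.Mt w w' d x y ∧ ∀ t ∈ a.tw, t.Mt w w' d x y

theorem Bs.Mt.ty {b : Bs} (h : b.Mt w w' d x y) : b.ty w = (b.sh d).ty w' := by
  cases b <;> simp only [Bs.ty, Bs.sh]
  exacts [by rw [h.2.2.1, h.2.2.2], by rw [h.2.2]]

theorem Bs.Mt.ok (s : w.Sk w' d x y) {b : Bs} (h : b.Mt w w' d x y) (k : b.OK w) : (b.sh d).OK w' := by
  cases b
  iterate 3 exact ⟨s.rg k.1 h.1 h.2.1, by rw [h.2.2.1, h.2.2.2]; exact k.2⟩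
  · exact ⟨by linarith [s.lo, h.1], by linarith [s.hi, h.2.1], by rw [h.2.2]; exact k.2.2⟩
  · exact ⟨by linarith [s.lo, h.1], by linarith [s.hi, h.2.1]⟩

theorem Tw.Mt.ok (s : w.Sk w' d x y) {t : Tw} (h : t.Mt w w' d x y) : (t.sh d).OK w' := by
  obtain ⟨k, h1, h2, g⟩ := h
  have := k.le
  refine ⟨?_, by simpa [Tw.sh] using k.le, k.uni, k.ne, ?_, fun j p q => ?_, ?_⟩ <;> simp only [Tw.sh] at *
  · rw [add_sub_right_comm, add_right_comm]; exact s.rg k.rg (by omega) (by omega)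
  · rw [Shp.lf, add_sub_right_comm, g.lo]; exact k.l
  · rw [← sub_add_cancel j d, Shp.rt, (g.mono le_rfl (by omega) (by omega)).hi]
    exact k.m _ (by omega) (by omega)
  · rw [Shp.rt, add_right_comm, g.hi]; exact k.r

theorem Bs.r0_sh {b : Bs} (h : b.arc) (d : ℤ) : (b.sh d).r0 = b.r0 := by
  cases b
  iterate 3 simp [Bs.sh, Bs.r0]
  all_goals exact h.elim

theorem Bs.ρ_sh {b b' : Bs} {d : ℝ} (h : b'.r0 = b.r0 + d) (s : ℝ) : b'.ρ s = b.ρ s + d := by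
  simp only [Bs.ρ, Rod53.sig, h]; ring

theorem NR.tau' {T T' : Tb (𝓡 3) S3} {v v' : ℝ → Z2} {a b a' : Z2} {n f : ℕ} {c c' k k' R R' r r' d : ℝ} (e : T' = T)
    (S' : Tau19.Sph v' a b a' n c k R) (S : Tau19.Sph v a b a' n c' k' R') (e1 : c' = c + d) (e2 : k' = k)
    (e3 : R' = R) (e4 : r' = r) (h : ∀ x ∈ Ioo (c - R) (c + R), v' x = v (x + d)) (hn : n * f = 2) (hr hr')
    {p : Rod53.X T' v'} {q : Rod53.X T v} (l : NR d p q) :
    NR d (S'.tau T' hn (r := r) hr p) (S.tau T hn (r := r') hr' q) := by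
  subst e1 e2 e3 e4
  exact NR.tau e S' S h hn hr l

namespace Lc

variable {ψ : PartialDiffeomorph X.mf.I X'.mf.I X.P.M X'.P.M ∞} (L : Lc R R' d x y ψ) {z : X.P.M} {S : Set ℝ}
include L

theorem T (h : w.Rg a b) (h1 : x ≤ a) (h2 : b ≤ y) (e : α = a + d) : C.T (w.kn a) = C.T (w'.kn α) :=
  e ▸ congrArg C.T (L.sk.kn _ h1 (h.lt.trans_le h2)).symm

theorem lt (hz : z ∈ ψ.source) {s : ℝ} (hs : s ∈ II x y) :
    (X'.τ (ψ z) < s + d ↔ X.τ z < s) ∧ (X'.τ (ψ z) ≤ s + d ↔ X.τ z ≤ s) := by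
  obtain ⟨l, l1, l2, l3⟩ := L.tm
  rw [l3 z hz, ← l2 s hs]
  exact ⟨l1.lt_iff_lt, l1.le_iff_le⟩

theorem time (hz : z ∈ ψ.source) (h : X.τ z ∈ II x y ∨ X'.τ (ψ z) ∈ II (x + d) (y + d)) :
    X'.τ (ψ z) = X.τ z + d := by
  obtain ⟨l, l1, l2, l3⟩ := L.tm
  rcases h with h | h
  · rw [l3 z hz, l2 _ h]
  · have := l2 (X'.τ (ψ z) - d) (add_mem_II.1 (by rwa [sub_add_cancel]))
    rw [sub_add_cancel] at this
    rw [← l1.injective (this.trans (l3 z hz)), sub_add_cancel]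

theorem ex' (h : w.Rg a b) (h' : w'.Rg α β) (e : α = a + d) (e' : β = b + d) (h1 : x ≤ a) (h2 : b ≤ y)
    {p : C.XR w a b} (t : C.tm p ∈ II a b) (m : R.B h p ∈ ψ.source) :
    ∃ p' : C.XR w' α β, NR d p p' ∧ R'.B h' p' = ψ (R.B h p) := by
  subst e e'
  exact L.ex h h' h1 h2 t m

theorem app (h : w.Rg a b) (h' : w'.Rg α β) (e : α = a + d) (e' : β = b + d) (h1 : x ≤ a) (h2 : b ≤ y)
    {p : C.XR w a b} {p' : C.XR w' α β} (t : C.tm p ∈ II a b) (m : R.B h p ∈ ψ.source) (l : NR d p p') :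
    ψ (R.B h p) = R'.B h' p' := by
  obtain ⟨q, k, e⟩ := L.ex' h h' e e' h1 h2 t m
  rw [← e, l.uq k]

theorem D (e : α = a + d) (e' : β = b + d) (h1 : x ≤ a) (h2 : b ≤ y) (hz : z ∈ ψ.source) :
    ψ z ∈ R'.D α β S ↔ z ∈ R.D a b S := by
  subst e e'
  refine ⟨fun k => ?_, ?_⟩
  · have h : w.Rg a b := by simpa using L.sk.symm.rg k.1 (by omega) (by omega)
    have t := R'.D_II k
    rw [L.time hz (.inr (II_mono (by omega) (by omega) t)), add_mem_II] at t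
    obtain ⟨p, u, rfl⟩ := (R.B h).surj t
    have t' : C.tm p ∈ II a b := (show C.tm p = _ from u) ▸ t
    obtain ⟨q, l, e⟩ := L.ex h k.1 h1 h2 t' hz
    rw [← e, R'.mem_D k.1 k.1 (Rz.ov_of_le k.1 le_rfl le_rfl) ((mem_II_nr l).2 t'), cc_add] at k
    exact ⟨h, p, t', (l.disc (L.T h h1 h2 rfl)).1 k.2, rfl⟩
  · rintro ⟨h, p, t, k, rfl⟩
    obtain ⟨q, l, e⟩ := L.ex h (L.sk.rg h h1 h2) h1 h2 t hz
    exact ⟨_, q, (mem_II_nr l).2 t, cc_add a b d ▸ (l.disc (L.T h h1 h2 rfl)).2 k, e⟩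

theorem II_sub (g : w.Agr w' d a b) (h : w.Rg a b) (h1 : x ≤ a) (h2 : b ≤ y) : X.τ ⁻¹' II a b ⊆ ψ.source :=
  fun z t => by
    obtain ⟨p, u, rfl⟩ := (R.B h).surj t
    have t' : C.tm p ∈ II a b := (show C.tm p = _ from u) ▸ t
    exact L.mem h h1 h2 t' (.inr (Ag.of_open (isOpen_II a b) (fun _ => g.v hw hw' h (L.sk.rg h h1 h2)) t'))

theorem K_sub {t : Tw} (h : t.Mt w w' d x y) : R.K t ⊆ ψ.source :=
  fun _ k => L.II_sub h.2.2.2 h.1.rg (by linarith [h.2.1]) h.2.2.1 (R.D_II k)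

theorem tw {t : Tw} (h : t.Mt w w' d x y) (hz : z ∈ ψ.source) : ψ (R.tw t z) = R'.tw (t.sh d) (ψ z) := by
  have e1 : (t.sh d).x - 1 = t.x - 1 + d := add_sub_right_comm _ _ _
  have e2 : (t.sh d).y + 1 = t.y + 1 + d := add_right_comm _ _ _
  have h1 : x ≤ t.x - 1 := by linarith [h.2.1]
  have e3 : (((t.sh d).y : ℝ) - (t.sh d).x + 1) = t.y - t.x + 1 := by simp [Tw.sh]
  have e4 : (t.sh d).r = t.r := by rw [Tw.r, e3, Tw.r]
  by_cases k : z ∈ R.K t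
  · have k' := (R.tw_mem (.inl subset_rfl)).2 k
    obtain ⟨_, p, u, k, rfl⟩ := k
    have o := h.ok L.sk
    obtain ⟨q, l, e⟩ := L.ex' h.1.rg o.rg e1 e2 h1 h.2.2.1 u hz
    have k2 : C.tau hw h.1 p ∈ (C.T _).disc _ (cc (t.x - 1) (t.y + 1)) (Iic t.r) :=
      ((h.1.sph hw).tau_mem _ _ _ (.inl ((h.1.sph hw).K_subset _ (Tw.r_mem h.1.le).2))).2 k
    rw [R.tw_B h.1 u] at k' ⊢
    rw [← e, R'.tw_B o (by rw [C.tm_nr l, e1, e2, add_mem_II]; exact u)]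
    refine L.app _ _ e1 e2 h1 h.2.2.1 (C.tm_disc k2 fun _ hs => lt_of_le_of_lt hs t.r_lt) (L.K_sub h k')
      (NR.tau' (L.T h.1.rg h1 h.2.2.1 e1) _ _ (by rw [e1, e2, cc_add]) (by rw [e3]) (by rw [e3]) e4
        (fun s hs => ?_) _ _ _ l)
    · have := h.2.2.2.v hw hw' h.1.rg (L.sk.rg h.1.rg h1 h.2.2.1) (t := s) (by
        unfold cc at hs; push_cast at hs
        exact ⟨by push_cast; linarith [hs.1], by push_cast; linarith [hs.2]⟩)
      rwa [e1, e2]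
  · rw [R.tw_off z k, R'.tw_off _ fun m => k ((L.D e1 e2 h1 h.2.2.1 hz).1 (e4 ▸ m))]

theorem tws_mem {l : List Tw} (h : ∀ t ∈ l, t.Mt w w' d x y) : R.tws l z ∈ ψ.source ↔ z ∈ ψ.source :=
  R.tws_mem fun t ht => .inl (L.K_sub (h t ht))

theorem tws {l : List Tw} (h : ∀ t ∈ l, t.Mt w w' d x y) (hz : z ∈ ψ.source) :
    ψ (R.tws l z) = R'.tws (l.map (·.sh d)) (ψ z) := by
  induction l with
  | nil => rfl
  | cons t l ih =>
    have h' : ∀ t ∈ l, t.Mt w w' d x y := fun t ht => h t (by simp [ht])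
    exact (L.tw (h t (by simp)) ((L.tws_mem h').2 hz)).trans (congrArg _ (ih h'))

theorem sd {b : Bs} (h : b.Mt w w' d x y) (k : b.OK w) (k' : (b.sh d).OK w') (s : Bool) (hz : z ∈ ψ.source) :
    ψ z ∈ (R'.nk _ k').S s ↔ z ∈ (R.nk b k).S s := by
  have key : ∀ a : ℤ, x ≤ a → a < y → (X'.τ (ψ z) < ((a + d : ℤ) : ℝ) + 1 / 2 ↔ X.τ z < a + 1 / 2) ∧
      (X'.τ (ψ z) ≤ ((a + d : ℤ) : ℝ) + 1 / 2 ↔ X.τ z ≤ a + 1 / 2) := fun a p q => by
    rw [Int.cast_add, add_right_comm]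
    exact L.lt hz (II_mono p q.le (half_mem a))
  cases s
  · rw [(R'.spec_nk _ k').f, (R.spec_nk _ k).f]
    cases b
    iterate 3 rw [Bs.r0_sh (by trivial) d]; exact L.D rfl rfl h.1 h.2.1 hz
    all_goals exact (key _ h.1 h.2.1).1
  · rw [(R'.spec_nk _ k').t, (R.spec_nk _ k).t]
    refine not_congr ?_
    cases b
    iterate 3 rw [Bs.r0_sh (by trivial) d]; exact L.D rfl rfl h.1 h.2.1 hz
    all_goals exact (key _ h.1 h.2.1).2

theorem feet (h : w.Rg a b) (h1 : x ≤ a) (h2 : b ≤ y) (e : (w'.s (a + d)).r = (w.s a).r)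
    (e' : (w'.s (b + d)).l = (w.s b).l) {β : Bs} (r : β.r0 = (b - a) / 2) (s : ℝ) :
    cc a b - β.ρ s ∈ Ag (w.v a b) (w'.v (a + d) (b + d)) d ∧ cc a b + β.ρ s ∈ Ag (w.v a b) (w'.v (a + d) (b + d)) d :=
  have h' := L.sk.rg h h1 h2
  ⟨Shp.ag_slot hw hw' h h' (by rw [Shp.bw_le le_rfl, Shp.bw_le le_rfl, e]) (Shp.Rg.feet r s).1,
    Shp.ag_slot hw hw' h h' (by rw [Shp.bw_ge h.lt le_rfl, Shp.bw_ge h'.lt le_rfl, e']) (Shp.Rg.feet r s).2⟩

theorem arc (h : w.Rg a b) (h' : w'.Rg (a + d) (b + d)) (h1 : x ≤ a) (h2 : b ≤ y) (e : (w'.s (a + d)).r = (w.s a).r)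
    (e' : (w'.s (b + d)).l = (w.s b).l) {β : Bs} (r : β.r0 = (b - a) / 2) {Y : Mf 3} [CompactSpace Y.M]
    [ConnectedSpace Y.M] (A : AN (C.T (w.kn a)) (w.v a b) Y (cc a b) β.ρ) (p : Y.M × ℝ) {q}
    (l : NR d (A.j p) q) : R.B h (A.j p) ∈ ψ.source ∧ ψ (R.B h (A.j p)) = R'.B h' q := by
  have t : C.tm (A.j p) ∈ II a b :=
    mem_II_of_le (((C.T _).abs_time_le _ _).trans_eq (A.mem p).2) (r ▸ (β.ρ_mem _).2)
  have m := L.mem h h1 h2 t ((em _).imp_right fun k => by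
    have := ((C.T _).rr_axis (c := cc a b) k).2
    rw [(A.mem p).2] at this
    replace this := (abs_eq (this ▸ abs_nonneg _)).1 this.symm
    rcases this with c | c
    · rw [sub_eq_iff_eq_add'.1 c]; exact (L.feet h h1 h2 e e' r _).2
    · rw [sub_eq_iff_eq_add'.1 c]; exact (L.feet h h1 h2 e e' r _).1)
  exact ⟨m, L.app h h' rfl rfl h1 h2 t m l⟩

theorem P (h1 : x ≤ a) (h2 : a < y) {τ : Γ.ι × Z2} (e : (w.s a).r = τ) (e' : (w'.s (a + d)).r = τ) (k1 k2 k1' k2')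
    (u : (mF C.kd τ).M) {t : ℝ} (ht : t ∈ II a a) :
    R.P k1 k2 e (u, t) ∈ ψ.source ∧ ψ (R.P k1 k2 e (u, t)) = R'.P k1' k2' e' (u, t + d) := by
  have h := Shp.rg_one k1 k2
  have t1 := (C.pR hw h e).mem (x := (u, t)) ht
  have t2 := II_mono le_rfl (lt_add_one a).le t1
  have m := L.mem h h1 h2 t2 (.inr (Shp.ag_slot hw hw' h (L.sk.rg h h1 h2)
    (by rw [Shp.bw_le le_rfl, Shp.bw_le le_rfl, e, e']) t1))
  have h' := Shp.rg_one k1' k2'
  have n : NR d (C.pR hw h e (u, t) : C.XR w _ _) (C.pR hw' h' e' (u, t + d) : C.XR w' _ _) :=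
    C.nr_pt hw hw' h h' rfl _ _ _ _ u ht
  exact ⟨m, L.app h h' rfl (add_right_comm _ _ _) h1 h2 t2 m n⟩

theorem nk {b : Bs} (h : b.Mt w w' d x y) (k : b.OK w) (k' : (b.sh d).OK w') (u : (mY C.kd (b.ty w)).M) (s : ℝ) :
    (R.nk b k).j (u, s) ∈ ψ.source ∧ ψ ((R.nk b k).j (u, s)) = (R'.nk _ k').j (cY C.kd h.ty u, s) := by
  have ρ : ∀ {b : Bs}, b.arc → (b.sh d).ρ = b.ρ := fun h => by unfold Bs.ρ; rw [Bs.r0_sh h]
  cases b with
  | sA a b =>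
    refine L.arc k.1 k'.1 h.1 h.2.1 h.2.2.1 h.2.2.2 (β := .sA a b) rfl ((C.T _).sA k.2
      (k.1.arc hw rfl (PM.refl _) (PM.refl _)) (Bs.ρ_mono _)) (u, s) ?_
    have : ∀ {α β α' β' c' ρ'} (hu : Uni α β) (hu' : Uni α' β'), α' = α → β' = β → c' = cc a b + d →
        ρ' = (Bs.sA a b).ρ → Tb.Arc (w.v a b) α β (cc a b) (Bs.sA a b).ρ → NR d ((C.T (w.kn a)).sb (w.v a b) hu (cc a b)
          (Bs.sA a b).ρ (u, s)) ((C.T (w'.kn (a + d))).sb (w'.v (a + d) (b + d)) hu' c' ρ' (u, s)) := by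
      rintro _ _ _ _ _ _ hu _ rfl rfl rfl rfl A
      exact NR.sb (L.T k.1 h.1 h.2.1 rfl) (L.feet k.1 h.1 h.2.1 h.2.2.1 h.2.2.2 rfl) hu A _
    exact this k.2 k'.2 (congrArg _ h.2.2.1) (congrArg _ h.2.2.2) (cc_add _ _ _) (ρ (b := .sA a b) trivial)
      (k.1.arc hw rfl (PM.refl _) (PM.refl _))
  | rA a b =>
    refine L.arc k.1 k'.1 h.1 h.2.1 h.2.2.1 h.2.2.2 (β := .rA a b) rfl ((C.T _).rA (uni_pz (k.1.prl hw))
      (k.1.arc hw rfl (PM.refl _) k.2) (Bs.ρ_mono _)) (u, s) ?_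
    have : ∀ {α α' c' ρ'} (hu : Uni α (pz α)) (hu' : Uni α' (pz α')), α' = α → c' = cc a b + d →
        ρ' = (Bs.rA a b).ρ → Tb.Arc (w.v a b) α α (cc a b) (Bs.rA a b).ρ → NR d ((C.T (w.kn a)).rb (w.v a b) hu (cc a b)
          (Bs.rA a b).ρ (u, s)) ((C.T (w'.kn (a + d))).rb (w'.v (a + d) (b + d)) hu' c' ρ' (u, s)) := by
      rintro _ _ _ _ hu _ rfl rfl rfl A
      exact NR.rb (L.T k.1 h.1 h.2.1 rfl) (L.feet k.1 h.1 h.2.1 h.2.2.1 h.2.2.2 rfl) hu A _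
    exact this (uni_pz (k.1.prl hw)) (uni_pz (k'.1.prl hw')) (congrArg _ h.2.2.1) (cc_add _ _ _)
      (ρ (b := .rA a b) trivial) (k.1.arc hw rfl (PM.refl _) k.2)
  | lA a b =>
    have A : Tb.Arc (w.v a b) (lz (w.s a).r.2 (w.s b).l.2).1.1 (lz (w.s a).r.2 (w.s b).l.2).1.2 (cc a b)
        (Bs.lA a b).ρ := by
      rw [lz_eq ⟨k.1.prl hw, k.1.prr hw, k.2⟩]; exact k.1.arc hw rfl (PM.refl _) (PM.refl _)
    refine L.arc k.1 k'.1 h.1 h.2.1 h.2.2.1 h.2.2.2 (β := .lA a b) rfl ((C.T _).lA (lz _ _).2 A (Bs.ρ_mono _))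
      (u, s) ?_
    have : ∀ {α β α' β' c' ρ'} (E : WT.lens α β = .lens α' β') (u : (mY C.kd (.lens α β)).M), α' = α → β' = β →
        c' = cc a b + d → ρ' = (Bs.lA a b).ρ → Tb.Arc (w.v a b) (lz α β).1.1 (lz α β).1.2 (cc a b) (Bs.lA a b).ρ →
        Tb.Arc (w'.v (a + d) (b + d)) (lz α' β').1.1 (lz α' β').1.2 c' ρ' →
        NR d ((C.T (w.kn a)).lb (w.v a b) (lz α β).2 (cc a b) (Bs.lA a b).ρ (u, s))
          ((C.T (w'.kn (a + d))).lb (w'.v (a + d) (b + d)) (lz α' β').2 c' ρ' (cY C.kd E u, s)) := by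
      rintro _ _ _ _ _ _ _ u rfl rfl rfl rfl A A'
      exact NR.lb (L.T k.1 h.1 h.2.1 rfl) (L.feet k.1 h.1 h.2.1 h.2.2.1 h.2.2.2 rfl) _ A A' _
    exact this h.ty u (congrArg _ h.2.2.1) (congrArg _ h.2.2.2) (cc_add _ _ _) (ρ (b := .lA a b) trivial) A
      (by rw [lz_eq ⟨k'.1.prl hw', k'.1.prr hw', k'.2⟩]; exact k'.1.arc hw' rfl (PM.refl _) (PM.refl _))
  | sS a =>
    have : ∀ {τ τ'} (e : (w.s a).r = τ) (e' : (w'.s (a + d)).r = τ') p q p' q', τ' = τ →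
        R.P k.1 k.2.1 e (sD C.kd τ p q u, (Bs.sS a).ρ s) ∈ ψ.source ∧ ψ (R.P k.1 k.2.1 e (sD C.kd τ p q u,
          (Bs.sS a).ρ s)) = R'.P k'.1 k'.2.1 e' (sD C.kd τ' p' q' u, (Bs.sS a).ρ s + d) := by
      rintro _ _ e e' p q _ _ rfl
      exact L.P h.1 h.2.1 e e' _ _ _ _ _ (Bs.ρ_II rfl s)
    rw [← Bs.ρ_sh (b' := .sS (a + d)) (by simp [Bs.r0]; ring)] at this
    exact this rfl rfl _ _ _ _ h.2.2
  | yS a =>
    have : ∀ {τ τ'} (e : (w.s a).r = τ) (e' : (w'.s (a + d)).r = τ') (E : WT.fil τ = .fil τ')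
        (u : (mF C.kd τ).M), τ' = τ → R.P k.1 k.2 e (u, (Bs.yS a).ρ s) ∈ ψ.source ∧
        ψ (R.P k.1 k.2 e (u, (Bs.yS a).ρ s)) = R'.P k'.1 k'.2 e' (cY C.kd E u, (Bs.yS a).ρ s + d) := by
      rintro _ _ e e' _ u rfl
      exact L.P h.1 h.2.1 e e' _ _ _ _ _ (Bs.ρ_II rfl s)
    rw [← Bs.ρ_sh (b' := .yS (a + d)) (by simp [Bs.r0]; ring)] at this
    exact this rfl rfl h.ty u h.2.2

theorem bn {a a' : Wl} (e : a' = a.sh d) (h : a.Mt w w' d x y) (k : a.b.OK w) (k' : a'.b.OK w')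
    (E : a.b.ty w = a'.b.ty w') : (∀ p, (R.bn a k).j p ∈ ψ.source ∧
      ψ ((R.bn a k).j p) = (R'.bn a' k').j (cY C.kd E p.1, p.2)) ∧
    ∀ s, ∀ z ∈ ψ.source, ψ z ∈ (R'.bn a' k').wall.sd s ↔ z ∈ (R.bn a k).wall.sd s := by
  subst e
  refine ⟨fun p => ?_, fun s z hz => ?_⟩
  · have := L.nk h.1 k k' p.1 p.2
    exact ⟨(L.tws_mem h.2).2 this.1, (L.tws h.2 this.1).trans (congrArg _ this.2)⟩
  · obtain ⟨z, rfl⟩ := (R.tws a.tw).surjective z
    have m := (L.tws_mem h.2).1 hz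
    exact ((L.tws h.2 m).symm ▸ R'.bn_sd _ k').trans ((L.sd h.1 k k' s m).trans (R.bn_sd a k).symm)

end Lc

/-! ### identifications of marks -/

section Mid

variable (R R') {κ A A' A₀ : Type} [Fintype κ] (G : Tab C.kd κ) {W : A → Wl} (hW : ∀ a, (W a).b.OK w)
  {W' : A' → Wl} (hW' : ∀ a, (W' a).b.OK w') (ψ : PartialDiffeomorph X.mf.I X'.mf.I X.P.M X'.P.M ∞)
  (f : A₀ ↪ A) (f' : A₀ ↪ A')

/-- an identification whose maps of cross sections are identities -/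
def mid0 (hψ : Pos X.P.I X'.P.I ψ ψ.source R.O R'.O) (E : ∀ a, (W (f a)).b.ty w = (W' (f' a)).b.ty w')
    (h : ∀ a, (∀ p, (R.bn _ (hW (f a))).j p ∈ ψ.source ∧
      ψ ((R.bn _ (hW (f a))).j p) = (R'.bn _ (hW' (f' a))).j (cY C.kd (E a) p.1, p.2)) ∧ ∀ s, ∀ z ∈ ψ.source,
        ψ z ∈ (R'.bn _ (hW' (f' a))).wall.sd s ↔ z ∈ (R.bn _ (hW (f a))).wall.sd s) :
    MId (R.mark G W hW) (R'.mark G W' hW') A₀ where
  ψ := ψ
  f := f
  f' := f'
  g a := cY C.kd (E a)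
  sub a := by rintro _ ⟨p, rfl⟩; exact ((h a).1 p).1
  jj a p := ((h a).1 p).2
  sd a := (h a).2
  pin a := iff_of_eq (congrArg (· = WT.sph) (E a).symm)
  gY a k := by
    have : ∀ {τ τ'} (e : τ = τ') y, Dr59.mf (mY C.kd τ).I (mY C.kd τ').I (cY C.kd e) y (Met55.atx (G.g τ).e y k) =
        Met55.atx (G.g τ').e (cY C.kd e y) k := by
      rintro τ _ rfl y
      exact DFunLike.congr_fun (Dr59.mf_id (I := (mY C.kd τ).I) y) _
    exact this (E a)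
  th a _ := by
    have : ∀ {τ τ'} (e : τ = τ') y, thY C.kd τ' (cY C.kd e y) = thY C.kd τ y := by
      rintro τ _ rfl y
      rfl
    exact this (E a)
  ori := same_symm hψ.neg

/-- the matched walls lie in windows of comparison -/
def Win : Prop := ∀ a, ∃ d x y, Lc R R' d x y ψ ∧ (W (f a)).Mt w w' d x y ∧ W' (f' a) = (W (f a)).sh d

/-- THE IDENTIFICATION of marks -/
def mid (hψ : Pos X.P.I X'.P.I ψ ψ.source R.O R'.O) (h : Win R R' (W := W) (W' := W') ψ f f') :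
    MId (R.mark G W hW) (R'.mark G W' hW') A₀ :=
  mid0 R R' G hW hW' ψ f f' hψ (fun a => let ⟨_, _, _, _, m, e⟩ := h a; e ▸ m.1.ty)
    fun a => let ⟨_, _, _, L, m, e⟩ := h a; L.bn e m _ _ _

theorem sd_of_fix {X : Mf 4} [PreconnectedSpace X.M] (N : Band X) {f : X.M → X.M} (hf : Continuous f)
    (hi : Injective f) (h : ∀ p, f (N.j p) = N.j p) (b : Bool) : MapsTo f (N.wall.sd b) (N.wall.sd b) := by
  have m : N.j (Classical.arbitrary _, M.pm b) ∈ N.wall.sd b := N.j_mem_sd.2 (by rw [pm_mul_pm]; exact one_pos)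
  refine mapsTo_iff_image_subset.2 (N.wall.subset_sd ((N.wall.conn b).image _ hf.continuousOn)
    (disjoint_left.2 ?_) ⟨_, m, h _⟩ m)
  rintro _ ⟨z, hz, rfl⟩ c
  obtain ⟨y, e⟩ := N.mem_core.1 c
  exact N.mem_core.2 ⟨y, hi ((h _).trans e)⟩ b hz

theorem Rz.pos_tw (t : Tw) : Pos X.P.I X.P.I (R.tw t) univ R.O R.O := by
  have := R.con
  obtain ⟨z, hz⟩ := R.exists_half le_rfl hw.lt.le
  have o := oriOn R.O_spec.ori univ
  refine pos_of_pt isPreconnected_univ o o (fun y _ => (R.tw t).isLocalDiffeomorph y) (mapsTo_univ _ _) (mem_univ z)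
    ((pos_id.2 (o.mono (subset_univ _)).same).congr' ?_)
  rintro z' (rfl : z' = _)
  filter_upwards [(isOpen_lt X.cont continuous_const).mem_nhds (show X.τ z' < w.l + 3 / 4 by linarith)] with y hy
  refine R.tw_off y fun k => ?_
  have : (w.l : ℝ) ≤ (t.x - 1 : ℤ) := by exact_mod_cast k.1.lo
  push_cast at this
  linarith [(R.K_time k).1]

/-- THE TWIST as an identification of marks -/
def twId {W' : A' → Wl} (hW' : ∀ a, (W' a).b.OK w) (t : Tw)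
    (h : ∀ a, W' (f' a) = (W (f a)).twist t ∨ W' (f' a) = W (f a) ∧ Wl.Clr t (W (f a))) :
    MId (R.mark G W hW) (R.mark G W' hW') A₀ :=
  mid0 R R G hW hW' (R.tw t).toPartialDiffeomorph f f' (R.pos_tw t)
    (fun a => (h a).elim (fun e => e ▸ rfl) fun e => e.1 ▸ rfl) fun a => by
      have := R.con
      have key : ∀ {a a' : Wl} k k' (E : a.b.ty w = a'.b.ty w), a' = a.twist t ∨ a' = a ∧ Wl.Clr t a →
          (∀ p, R.tw t ((R.bn a k).j p) = (R.bn a' k').j (cY C.kd E p.1, p.2)) ∧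
          ∀ s z, R.tw t z ∈ (R.bn a' k').wall.sd s ↔ z ∈ (R.bn a k).wall.sd s := by
        rintro a _ k k' E (rfl | ⟨rfl, c⟩)
        · refine ⟨fun _ => rfl, fun s z => ?_⟩
          obtain ⟨z, rfl⟩ := (R.tws a.tw).surjective z
          exact (R.bn_sd (a.twist t) k').trans (R.bn_sd a k).symm
        · have e : ∀ p, R.tw t ((R.bn _ k).j p) = (R.bn _ k).j p := fun p =>
            R.tw_off _ (disjoint_right.1 (R.K_clr c) (R.range_bn _ k ▸ mem_range_self p))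
          refine ⟨e, fun s z => ⟨fun m => ?_, fun m => sd_of_fix _ (R.tw t).continuous (R.tw t).injective e s m⟩⟩
          simpa using sd_of_fix _ (R.tw t).symm.continuous (R.tw t).symm.injective
            (fun p => by conv_lhs => rw [← e p, Diffeomorph.symm_apply_apply]) s m
      have k := key (hW _) (hW' _) ((h a).elim (fun e => e ▸ rfl) fun e => e.1 ▸ rfl) (h a)
      exact ⟨fun p => ⟨trivial, k.1 p⟩, fun s z _ => k.2 s z⟩

theorem twId_glob {W' : A' → Wl} (hW' : ∀ a, (W' a).b.OK w) (t : Tw) (h) :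
    (twId R G hW f f' hW' t h).Glob := ⟨rfl, rfl⟩

end Mid

/-! ### sources and targets -/

theorem Shp.Agr.symm (h : w.Agr w' d x y) : w'.Agr w (-d) (x + d) (y + d) :=
  ⟨by rw [add_neg_cancel_right, h.lo], fun j a b => by rw [← h.mid _ (by omega) (by omega), neg_add_cancel_right],
    by rw [add_neg_cancel_right, h.hi]⟩

theorem Shp.Sur.symm (h : w.Sur w' x y) : w'.Sur w x y :=
  ⟨h.l.symm, h.r.symm, h.rg', h.rg, fun j k => (h.eq j k).symm⟩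

theorem Shp.Sur.hc (hw : w.OK) (hw' : w'.OK) (h : w.Sur w' x y) : Hc w w' 0 w.l w.r True True :=
  ⟨h.sk hw hw', fun _ => by rw [h.l, add_zero], fun _ => by rw [h.r, add_zero]⟩

variable {ψ : PartialDiffeomorph X.mf.I X'.mf.I X.P.M X'.P.M ∞}

theorem Lc.II_all (L : Lc R R' d x y ψ) (g : w.Agr w' d a b) (h : a < b) (h1 : x ≤ a) (h2 : b ≤ y) :
    X.τ ⁻¹' II a b ⊆ ψ.source := fun z t => by
  obtain ⟨j, p, q, k⟩ := exists_II h t
  exact L.II_sub (g.mono p (lt_add_one j) q) (Shp.rg_one (by linarith [L.sk.lo']) (by linarith [L.sk.hi']))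
    (by omega) (by omega) k

/-- the inverse comparison -/
theorem Cm.symm (H : Hc w w' d x y eL eR) (c : Cm R R' d x y eL eR ψ) :
    Cm R' R (-d) (x + d) (y + d) eL eR ψ.symm := by
  have r : ∀ z ∈ ψ.target, Cr R' R (-d) (x + d) (y + d) eL eR z (ψ.symm z) := fun z hz => by
    have := (c.rl _ (ψ.map_target hz)).symm H
    rwa [show ψ (ψ.toPartialEquiv.symm z) = z from ψ.right_inv hz] at this
  refine ⟨⟨H.sk.symm, ⟨(· + (-d : ℤ)), fun _ _ k => by linarith, fun _ _ => rfl, fun z hz => (r z hz).time H.symm⟩,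
    fun h h' k1 k2 p t g => (r _ g).ex H.symm h h' k1 k2 t rfl, fun {a b} h k1 k2 p t g => ?_⟩, r,
    fun {a b} h k1 k2 p t g => c.mem h (by omega) (by omega) t ?_, c.tL, c.tR, c.sL, c.sR, ?_⟩
  · obtain ⟨a, rfl⟩ : ∃ i, a = i + d := ⟨a - d, by ring⟩
    obtain ⟨b, rfl⟩ : ∃ i, b = i + d := ⟨b - d, by ring⟩
    exact c.mem' h (by omega) (by omega) t (by simpa using g)
  · simpa using g
  · exact (Pos.symm c.pos subset_rfl).mono ψ.image_source_eq_target.ge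

theorem Cm.src (c : Cm R R' d w.l w.r True True ψ) (g : w.Agr w' d w.l w.r) : ψ.source = univ :=
  eq_univ_of_forall fun z => by
    rcases Rz.cover hw (X.τ z) with h | h | ⟨j, h1, h2, h⟩
    exacts [c.sL trivial z h, c.sR trivial z h, c.II_all g hw.lt le_rfl le_rfl (II_mono h1 h2 h)]

theorem Cm.tgt (H : Hc w w' d w.l w.r True True) (c : Cm R R' d w.l w.r True True ψ) (g : w.Agr w' d w.l w.r) :
    ψ.target = univ := by
  have c' := c.symm H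
  have g' := g.symm
  rw [← H.l trivial, ← H.r trivial] at c' g'
  exact c'.src g'

/-- the domain of a surgery -/
theorem Cm.sur (c : Cm R R' 0 w.l w.r True True ψ) (g : w.Sur w' x y) {z : X.P.M}
    (hz : z ∉ R.D x y (Iic ((y - x) / 2 - 1 / 4))) : z ∈ ψ.source := by
  have ag1 : ∀ j, j + 1 ≤ x ∨ y ≤ j → w.Agr w' 0 j (j + 1) := fun j k =>
    ⟨by rw [add_zero, g.eq j (by omega)], fun _ _ _ => by omega, by rw [add_zero, g.eq _ (by omega)]⟩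
  rcases Rz.cover hw (X.τ z) with h | h | ⟨j, h1, h2, h⟩
  · exact c.sL trivial z h
  · exact c.sR trivial z h
  by_cases t : X.τ z ∈ II x y
  · obtain ⟨p, u, rfl⟩ := (R.B g.rg).surj t
    have t' : C.tm p ∈ II x y := (show C.tm p = _ from u) ▸ t
    refine c.mem g.rg g.rg.lo g.rg.hi t' ((em _).imp_right fun k => ?_)
    have k1 := (C.T _).rr_axis (c := cc x y) k
    have k2 : ((y : ℝ) - x) / 2 - 1 / 4 < |C.tm p - cc x y| := lt_of_not_ge fun m => hz ⟨g.rg, p, t', ⟨k1.1, k1.2.trans_le m⟩, rfl⟩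
    have r' := c.sk.rg g.rg g.rg.lo g.rg.hi
    unfold cc at k2
    rcases lt_abs.1 k2 with m | m
    · exact Shp.ag_slot hw hw' g.rg r' (j := y) (by
        rw [Shp.bw_ge g.rg.lt le_rfl, Shp.bw_ge r'.lt le_rfl, add_zero, g.eq y (.inr le_rfl)]) ⟨by linarith, t'.2⟩
    · exact Shp.ag_slot hw hw' g.rg r' (j := x) (by
        rw [Shp.bw_le le_rfl, Shp.bw_le le_rfl, add_zero, g.eq x (.inl le_rfl)]) ⟨t'.1, by linarith⟩
  · refine c.II_sub (ag1 j ?_) (Shp.rg_one h1 h2) h1 h2 h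
    rw [II, mem_Ioo, not_and_or, not_lt, not_lt] at t
    refine t.imp (fun m => ?_) fun m => ?_
    · exact_mod_cast (by linarith [h.1] : (j : ℝ) < x)
    · exact Int.lt_add_one_iff.1 (by exact_mod_cast (by linarith [h.2] : (y : ℝ) < (j + 1 : ℤ)))

end Crest.Agent.X212.Wd38
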