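import Crest.Agent.X212.Wd38.Cf

/-!
# X212 / Wd38, part Tl (helper38): states with a certified toric tail, the steps of a walk
-/

set_option autoImplicit false
noncomputable section

namespace Crest.Agent.X212.Wd38

open Crest.Agent.X212.Rod53 Crest.Agent.X212.Nm96 Finset Cn

variable {Γ : Nm} {P : Pm Γ} {F F' : Fm Γ} {T : WTh Γ} {n n' : Wt} {z s t t' : ℤ} {τ σ : Finset Bs} {v v' : ℝ × ℝ}
  {a b e : Bs} {d : ℕ} {c : Cn}

/-- the reserve at the right end -/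
def vR (P : Pm Γ) : ℝ × ℝ := (15 / 4 - P.M, 9 - P.M)

/-- frame and line; nothing is frozen left of `t` -/
structure Bas (P : Pm Γ) (F : Fm Γ) (n : Wt) (z t : ℤ) : Prop where
  ok : F.OK P
  ls : F.ls = ∅
  lok : F.LOK P n
  p1 : P1 F.w
  lo : F.w.l ≤ t
  hi : (F.Cut t ∧ t ≤ z ∧ F.Cut z) ∨ (t = F.w.r + 1 ∧ z = F.w.l - 1)
  fz : ∀ a ∈ F.fz, t ≤ a.lo

/-- a cell of the tail -/
structure Tl (P : Pm Γ) (F : Fm Γ) (n : Wt) (z t : ℤ) (v : ℝ × ℝ) (τ : Finset Bs) : Prop where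
  ok : ∀ a ∈ τ, t < a.lo ∧ a.pin ∧ a.OK F.w
  far : ∀ a ∈ τ, ∀ b ∈ τ, a ≠ b → a.Far b
  fz : ∀ a ∈ τ, ∀ b ∈ F.fz, a.Far b
  win : t ≤ F.w.r → F.Win z 0 n τ t (F.w.r + 1) v (vR P)
  top : t = F.w.r + 1 → v = vR P

/-- a chain of the tail -/
structure Ch (P : Pm Γ) (F : Fm Γ) (n : Wt) (z t : ℤ) (v : ℝ × ℝ) (d : ℕ) (c : Cn) : Prop where
  pre : Fm.Pre d c
  cell : ∀ p ∈ c.support, p.1 = n ∧ (∀ a ∈ p.2, a.tw = []) ∧ Tl P F n z t v (p.2.image Wl.b)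

theorem cut_lt (ok : F.OK P) (h : F.Cut t) : F.w.l ≤ t ∧ t < F.w.r := (ok.fz _ h.1).1

theorem Bas.cw (B : Bas P F n z t) : Cw F (F.w.l - 1) t z :=
  ⟨B.ls, B.ok.w, B.p1, by have := B.lo; omega, .inl rfl, B.hi.imp (fun h => ⟨h.1, h.2.1⟩) id⟩

theorem okn_of_pin {w : Shp Γ} (h : a.pin) : a.OKn w n := by cases a <;> trivial

theorem ok_congr {w w' : Shp Γ} (h : a.OK w) (l : w'.l = w.l) (r : w'.r = w.r)
    (e : ∀ j, a.lo ≤ j → w'.s j = w.s j) : a.OK w' := by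
  have R : ∀ {x y}, w.Rg x y → (∀ j, x ≤ j → w'.s j = w.s j) → w'.Rg x y := fun k e =>
    ⟨l ▸ k.lo, k.lt, r ▸ k.hi, fun j p q => e j p.le ▸ k.fr j p q⟩
  cases a <;> simp only [Bs.OK, Bs.lo] at *
  · exact ⟨R h.1 e, by rw [e _ le_rfl, e _ h.1.lt.le]; exact h.2⟩
  · exact ⟨R h.1 e, by rw [e _ le_rfl, e _ h.1.lt.le]; exact h.2⟩
  · exact ⟨R h.1 e, by rw [e _ le_rfl, e _ h.1.lt.le]; exact h.2⟩
  · rwa [l, r, e _ le_rfl]
  · rwa [l, r]

/-- gluing a window to the tail -/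
theorem Tl.glue (h : Tl P F n z t v τ) (ls : F.ls = ∅) (st : s ≤ t) (tz : t ≤ z) (tr : t ≤ F.w.r)
    (ok : ∀ a ∈ σ, a.lo ≤ a.hi ∧ a.hi < t) (W : F.Win z 0 n (σ ∪ τ) s t v' v) :
    F.Win z 0 n (σ ∪ τ) s (F.w.r + 1) v' (vR P) := by
  refine W.trans ((h.win tr).congr ⟨rfl, rfl, fun _ _ _ => rfl, fun _ _ _ => rfl, fun _ _ _ => rfl, rfl,
    fun _ _ _ => id⟩ (Finset.ext fun a => ?_) fun a k => ?_) st (by omega) tz tr (fun a k => ?_) (by simp [ls, wn])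
  · simp only [mem_wn, mem_union]
    exact and_congr_left fun q => or_iff_right fun k => by have := ok a k; omega
  · have := wf_of_ok (h.ok a (mem_wn.1 k).1).2.2
    have := this.1.1; have := mem_wn.1 k; omega
  · rcases mem_union.1 (mem_wn.1 k).1 with k | k
    · exact ⟨(ok a k).1, .inl (ok a k).2⟩
    · exact ⟨(wf_of_ok (h.ok a k).2.2).1.1, .inr (h.ok a k).1⟩

theorem wn_left (h : Tl P F n z t v τ) {B : Finset Bs} (hB : B ⊆ wn s t (σ ∪ τ)) : B ⊆ σ := fun a k =>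
  (mem_union.1 (mem_wn.1 (hB k)).1).resolve_right fun q => by
    have := (h.ok a q).1; have := mem_wn.1 (hB k); omega

theorem far_union (h : Tl P F n z t v τ) (ok : ∀ a ∈ σ, a.hi < t) (far : ∀ a ∈ σ, ∀ b ∈ σ, a ≠ b → a.Far b) :
    ∀ a ∈ σ ∪ τ, ∀ b ∈ σ ∪ τ, a ≠ b → a.Far b := fun a ha b hb e => by
  rcases mem_union.1 ha with p | p <;> rcases mem_union.1 hb with q | q
  exacts [far a p b q e, .inl ((ok a p).trans (h.ok b q).1), .inr (.inl ((ok b q).trans (h.ok a p).1)),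
    h.far a p b q e]

theorem Bas.tor (B : Bas P F n z t) (h : Tl P F n z t v τ) (ok : ∀ a ∈ σ, a.OK F.w ∧ a.OKn F.w n ∧ a.hi < t)
    (far : ∀ a ∈ σ, ∀ b ∈ σ, a ≠ b → a.Far b)
    (br : ∀ A ⊆ σ, (∀ a ∈ A, a.pin) → Br F z n (σ ∪ τ) A (F.w.l - 1) t v) : F.Tor P n (σ ∪ τ) := by
  have o : ∀ a ∈ σ ∪ τ, a.OK F.w ∧ a.OKn F.w n := fun a k => (mem_union.1 k).elim
    (fun k => ⟨(ok a k).1, (ok a k).2.1⟩) fun k => ⟨(h.ok a k).2.2, okn_of_pin (h.ok a k).2.1⟩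
  have f := far_union h (fun a k => (ok a k).2.2) far
  obtain ⟨v', W⟩ := head B.cw fun A hA => br A (wn_left h hA)
  refine ⟨o, f, fun a k b q => (mem_union.1 k).elim (fun k => .inl ((ok a k).2.2.trans_le (B.fz b q)))
    fun k => h.fz a k b q, by simp [B.ls], ?_⟩
  rcases B.hi with ⟨k1, k2, k3⟩ | ⟨k1, k2⟩
  · exact (h.glue B.ls B.cw.lt.le k2 (cut_lt B.ok k1).2.le
      (fun a k => ⟨(wf_of_ok (ok a k).1).1.1, (ok a k).2.2⟩) W).numC le_rfl zero_le_one (fun a k => (o a k).1) f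
      (by simp [B.ls]) (.inr k3) (cut_lt B.ok k3).2.le le_rfl le_rfl
  · rw [h.top k1, k1] at W
    exact W.numC le_rfl zero_le_one (fun a k => (o a k).1) f (by simp [B.ls]) (.inl k2)
      (by have := B.ok.w.lt; omega) le_rfl le_rfl

/-- a wall left of the tail -/
structure Lw (F : Fm Γ) (n : Wt) (z t : ℤ) (v : ℝ × ℝ) (a : Bs) : Prop where
  ok : a.OK F.w
  okn : a.OKn F.w n
  hi : a.hi < t
  br : a.pin → ∀ σ, Br F z n σ {a} (F.w.l - 1) t v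

section gc
variable (B : Bas P F n z t) (C : Ch P F n z t v d c) {p : Wt × Finset Wl} (hp : p ∈ c.support)
include C hp

theorem Ch.notMem (h : a.OK F.w) (k : a.hi < t) : (a : Wl) ∉ p.2 := fun q => by
  have := ((C.cell p hp).2.2.ok _ (mem_image_of_mem Wl.b q)).1
  have := (wf_of_ok h).1.1
  simp only at *; omega

include B

theorem Ch.gc0 : F.GC P p.1 p.2 := by
  obtain ⟨e, tw, h⟩ := C.cell p hp
  rw [e]
  refine gc_tor B.ok B.lok tw (empty_union (image Wl.b p.2) ▸ B.tor h (by simp) (by simp) fun A hA _ => ?_)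
  rw [subset_empty.1 hA]; exact br_nil

theorem Ch.gc1 (ha : Lw F n z t v a) : F.GC P p.1 (insert ↑a p.2) := by
  obtain ⟨e, tw, h⟩ := C.cell p hp
  rw [e]
  refine gc_tor B.ok B.lok (by simpa using tw) ?_
  rw [image_insert, insert_eq]
  refine B.tor h (by simpa using ⟨ha.ok, ha.okn, ha.hi⟩) (by simp) fun A hA k => ?_
  rcases subset_singleton_iff.1 hA with rfl | rfl
  exacts [br_nil, ha.br (k _ (mem_singleton_self _)) _]

omit C hp in
theorem Tl.gc2 {W : Finset Wl} (tw : ∀ a ∈ W, a.tw = []) (h : Tl P F n z t v (W.image Wl.b))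
    (ha : Lw F n z t v a) (hb : Lw F n z t v b) (far : a.Far b)
    (br : a.pin → b.pin → ∀ σ, Br F z n σ {a, b} (F.w.l - 1) t v) :
    F.GC P n (insert ↑a (insert ↑b W)) := by
  refine gc_tor B.ok B.lok (by simpa using tw) ?_
  rw [image_insert, image_insert, show ∀ X : Finset Bs, insert a (insert b X) = {a, b} ∪ X by simp]
  refine B.tor h (by simpa using ⟨⟨ha.ok, ha.okn, ha.hi⟩, hb.ok, hb.okn, hb.hi⟩) ?_ fun A hA k => ?_
  · have : b.Far a := by unfold Bs.Far at *; tauto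
    simp [far, this]
  · by_cases i : a ∈ A <;> by_cases j : b ∈ A
    · rw [hA.antisymm (by simp [insert_subset_iff, i, j])]; exact br (k a i) (k b j) _
    · rw [show A = {a} from eq_singleton_iff_unique_mem.2 ⟨i, fun x q =>
        (mem_insert.1 (hA q)).resolve_right fun r => j (mem_singleton.1 r ▸ q)⟩]
      exact ha.br (k a i) _
    · rw [show A = {b} from eq_singleton_iff_unique_mem.2 ⟨j, fun x q =>
        mem_singleton.1 ((mem_insert.1 (hA q)).resolve_left fun r => i (r ▸ q))⟩]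
      exact hb.br (k b j) _
    · rw [show A = ∅ from eq_empty_of_forall_notMem fun x q => (mem_insert.1 (hA q)).elim (fun r => i (r ▸ q))
        fun r => j (mem_singleton.1 r ▸ q)]
      exact br_nil

end gc

theorem Ch.cl (B : Bas P F n z t) (C : Ch P F n z t v d c) : F.Cl P d c := C.pre.cl B.ls fun _ hp => C.gc0 B hp

theorem Ch.jo (B : Bas P F n z t) (C : Ch P F n z t v d c) (ha : Lw F n z t v a) (h : a.pin) : F.Jo P c a :=
  ⟨h, fun _ hp => ⟨C.notMem hp ha.ok ha.hi, C.gc1 B hp ha⟩⟩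

theorem Ch.clJ (B : Bas P F n z t) (C : Ch P F n z t v d c) (ha : Lw F n z t v a) (h : a.pin)
    (hb : Lw F n z t v b) (h' : b.pin) : F.Cl P (d + 1) (J a b c) := C.pre.clJ B.ls (C.jo B ha h) (C.jo B hb h')

/-! ### transport -/

theorem Tl.tr (h : Tl P F n z t v τ) (ls : F.ls = ∅) (ls' : F'.ls = ∅) (l : F'.w.l = F.w.l) (r : F'.w.r = F.w.r)
    (e : Aq F.w F'.w n n' (t ≤ ·)) (f : F.fz ⊆ F'.fz) (f' : ∀ a ∈ F'.fz, a ∈ F.fz ∨ a.hi ≤ t) :
    Tl P F' n' z t v τ :=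
  ⟨fun a k => ⟨(h.ok a k).1, (h.ok a k).2.1, ok_congr (h.ok a k).2.2 l r fun j q =>
      (e j ((h.ok a k).1.le.trans q)).1⟩, h.far,
    fun a k b q => (f' b q).elim (h.fz a k b) fun i => .inr (.inl (i.trans_lt (h.ok a k).1)),
    fun q => r ▸ (h.win (r ▸ q)).congr ⟨l, r, fun j a _ => (e j a).1, fun j a _ => (e j a).2.1,
      fun j a _ => (e j a).2.2, by rw [ls, ls'], fun _ _ _ k => f k⟩ rfl fun a k => by
        have := wf_of_ok (h.ok a (mem_wn.1 k).1).2.2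
        have := this.1.1; have := mem_wn.1 k; omega,
    fun q => h.top (r ▸ q)⟩

theorem Ch.tr (C : Ch P F n z t v d c) (g : Wt → Wt) (ls : F.ls = ∅) (ls' : F'.ls = ∅) (l : F'.w.l = F.w.l)
    (r : F'.w.r = F.w.r) (e : Aq F.w F'.w n (g n) (t ≤ ·)) (f : F.fz ⊆ F'.fz)
    (f' : ∀ a ∈ F'.fz, a ∈ F.fz ∨ a.hi ≤ t) : Ch P F' (g n) z t v d (c.mp g id ∅) :=
  ⟨C.pre.mp g, fun q hq => by
    obtain ⟨p, hp, rfl⟩ := mem_mp hq
    obtain ⟨a1, a2, a3⟩ := C.cell p hp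
    simpa only [image_id, union_empty] using ⟨congrArg g a1, a2, a3.tr ls ls' l r e f f'⟩⟩

theorem Bas.tr (B : Bas P F n z t) {w : Shp Γ} (ok : w.OK) (nok : n'.OK w P.Λ) (p1 : P1 w) (l : w.l = F.w.l)
    (r : w.r = F.w.r) (e : ∀ j, t ≤ j → w.s j = F.w.s j) (mL : n'.mL = n.mL) (mR : n'.mR = n.mR) :
    Bas P { F with w := w } n' z t :=
  have cut : ∀ y, F.Cut y → Fm.Cut { F with w := w } y := fun y k => ⟨k.1, e y (B.fz _ k.1) ▸ k.2⟩
  ⟨⟨ok, fun a k => ⟨ok_congr (B.ok.fz a k).1 l r fun j q => e j ((B.fz a k).trans q), (B.ok.fz a k).2⟩,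
    by simp [B.ls], by simp [B.ls], by simp [B.ls]⟩, B.ls, ⟨nok, mL.trans B.lok.mL, mR.trans B.lok.mR,
    by simp [B.ls]⟩, p1, l ▸ B.lo, B.hi.imp (fun k => ⟨cut _ k.1, k.2.1, cut _ k.2.2⟩)
    fun k => ⟨r ▸ k.1, l ▸ k.2⟩, B.fz⟩

/-- one more frozen slice -/
def frz (F : Fm Γ) (y : ℤ) : Fm Γ := { F with fz := insert (.yS y) F.fz }

theorem frz_ok (ok : F.OK P) (ls : F.ls = ∅) {y : ℤ} (h : F.w.l ≤ y) (h' : y < F.w.r) : (frz F y).OK P :=
  ⟨ok.w, fun a k => (mem_insert.1 k).elim (fun e => e ▸ ⟨⟨h, h'⟩, y, rfl⟩) (ok.fz a), ok.ls,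
    by simp [frz, ls], ok.ll⟩

theorem frz_cut {y : ℤ} (h : F.Cut t) : (frz F y).Cut t := ⟨mem_insert_of_mem h.1, h.2⟩

/-- the tail grows by one wall -/
theorem Tl.ins (h : Tl P F n z t v τ) (ls : F.ls = ∅) (st : s ≤ t) (tz : t ≤ z) (tr : t ≤ F.w.r) (lo : s < a.lo)
    (hi : a.hi < t) (pin : a.pin) (ok : a.OK F.w) (fz : ∀ b ∈ F.fz, a.Far b)
    (W : ∀ σ, wn s t σ = {a} → F.Win z 0 n σ s t v' v) : Tl P F n z s v' (insert a τ) := by
  have wf := (wf_of_ok ok).1.1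
  rw [insert_eq]
  refine ⟨fun b k => (mem_union.1 k).elim (fun k => mem_singleton.1 k ▸ ⟨lo, pin, ok⟩)
    fun k => ⟨st.trans_lt (h.ok b k).1, (h.ok b k).2⟩, far_union h (by simpa using hi) (by simp),
    fun b k => (mem_union.1 k).elim (fun k => mem_singleton.1 k ▸ fz) (h.fz b),
    fun _ => h.glue ls st tz tr (by simpa using ⟨wf, hi⟩) (W _ (Finset.ext fun b => ?_)), fun k => by omega⟩
  simp only [mem_wn, mem_union, mem_singleton]
  exact ⟨fun k => k.1.resolve_right fun q => by have := (h.ok b q).1; omega, fun k => by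
    subst k; exact ⟨.inl rfl, lo.le, by omega⟩⟩

/-- the conditions for a new wall of the tail -/
structure Nw (F : Fm Γ) (n : Wt) (z s t : ℤ) (v' v : ℝ × ℝ) (a : Bs) : Prop where
  lo : s < a.lo
  hi : a.hi < t
  pin : a.pin
  ok : a.OK F.w
  fz : ∀ b ∈ F.fz, a.Far b
  win : ∀ σ, wn s t σ = {a} → F.Win z 0 n σ s t v' v

theorem Ch.J (C : Ch P F n z t v d c) (ls : F.ls = ∅) (st : s ≤ t) (tz : t ≤ z) (tr : t ≤ F.w.r)
    (ha : Nw F n z s t v' v a) (hb : Nw F n z s t v' v b) : Ch P F n z s v' (d + 1) (J a b c) :=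
  ⟨C.pre.J ha.pin hb.pin (fun _ hp => C.notMem hp ha.ok ha.hi) fun _ hp => C.notMem hp hb.ok hb.hi, fun q hq => by
    obtain ⟨p, hp, rfl | rfl⟩ := mem_J hq <;> obtain ⟨a1, a2, a3⟩ := C.cell p hp <;>
      refine ⟨a1, by simpa using a2, ?_⟩ <;> rw [image_insert]
    exacts [a3.ins ls st tz tr ha.lo ha.hi ha.pin ha.ok ha.fz ha.win,
      a3.ins ls st tz tr hb.lo hb.hi hb.pin hb.ok hb.fz hb.win]⟩

/-! ### the axioms, cell by cell -/

structure Ax0 (P : Pm Γ) (T : WTh Γ) : Prop where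
  add : T.Add P
  stk : ∀ (F : Fm Γ) d e, F.OK P → F.Sf (d + 1) e → (∀ p ∈ e.support, F.GC P p.1 p.2) → F.Cl P d e.bd →
    T.Z F d e.bd = 0
  frz : T.Frz P
  twi : T.Twi P
  can : T.Can P
  rf : ∀ (F F' : Fm Γ) x y (e e' : Bs) g d c, F'.w.Sur F.w x y → F'.fz = F.fz →
    F.ls = {l ∈ F'.ls | ¬(x < l.lo ∧ l.hi < y)} → (∀ j, x < j → j ≤ y → F.w.s j = .rod (F.w.s x).r) →
    Chg F.ls 0 x y g → (∀ a ∈ c.walls, a.Out x y ∧ a.b.Far (.rA x y)) → F.Cl P d c →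
    (∀ p ∈ c.support, F.GC P p.1 (insert ↑(Bs.rA x y) p.2) ∧ F'.RS (g p.1) x y e e' ∧
      F'.GC P (g p.1) (p.2 ∪ {↑(Bs.rA x y), ↑e}) ∧ F'.GC P (g p.1) (p.2 ∪ {↑(Bs.rA x y), ↑e'})) →
    F'.Cl P (d + 1) (c.mp g id {↑e} + c.mp g id {↑e'}) →
    T.Z F' (d + 1) (c.mp g id {↑e} + c.mp g id {↑e'}) = T.Z F d c
  nv : T.Nv P

namespace Ax0

variable (H : Ax0 P T) (B : Bas P F n z t) (C : Ch P F n z t v d c)
include H B C

theorem split (ha : Lw F n z t v a) (hb : Lw F n z t v b) (he : Lw F n z t v e) (pa : a.pin) (pb : b.pin)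
    (pe : e.pin) : T.Z F (d + 1) (J a e c) = T.Z F (d + 1) (J a b c) + T.Z F (d + 1) (J b e c) := by
  rw [← J_add (a : Wl) b e, H.add _ _ _ _ (C.clJ B ha pa hb pb) (C.clJ B hb pb he pe)]

theorem two (ha : Lw F n z t v a) (hb : Lw F n z t v b) (pa : a.pin) (pb : b.pin) (far : a.Far b)
    (br : ∀ σ, Br F z n σ {a, b} (F.w.l - 1) t v) : T.Z F (d + 1) (J a b c) = 0 := by
  have hab : (a : Wl) ≠ b := fun q => by
    have := lo_ne (wf_of_ok ha.ok).1 (wf_of_ok hb.ok).1 far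
    rw [show a = b from congrArg Wl.b q] at this; omega
  have na := fun p hp => C.notMem (p := p) hp ha.ok ha.hi
  have nb := fun p hp => C.notMem (p := p) hp hb.ok hb.hi
  have e := bd_jj C.pre.bd hab na nb
  have key : ∀ q ∈ (jn a (jn b c)).support, ∃ p ∈ c.support, q = (p.1, insert ↑a (insert ↑b p.2)) :=
    fun q hq => by
      obtain ⟨p', hp', rfl⟩ := mem_jn hq
      obtain ⟨p, hp, rfl⟩ := mem_jn hp'
      exact ⟨p, hp, rfl⟩
  rw [← e]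
  refine H.stk F _ _ B.ok ⟨fun q hq => ?_, by simp [B.ls]⟩ (fun q hq => ?_) (e ▸ C.clJ B ha pa hb pb) <;>
    obtain ⟨p, hp, rfl⟩ := key q hq
  · refine ⟨?_, fun x hx => .inl ?_⟩
    · rw [card_insert_of_notMem (by simp [hab, na p hp]), card_insert_of_notMem (nb p hp), (C.pre.mem p hp).1]
    · rcases mem_insert.1 hx with rfl | hx
      · exact pa
      · exact (mem_insert.1 hx).elim (· ▸ pb) ((C.pre.mem p hp).2 x)
  · obtain ⟨k0, k1, k2⟩ := C.cell p hp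
    exact k0 ▸ k2.gc2 B k1 ha hb far fun _ _ => br

/-- **a turn** -/
theorem turn {κ : Γ.ι} {u : ℕ → ℤ} {V : ℕ → Z2} {m : ℕ → ℤ} {N : ℕ} (h : Tn F.w n κ u V m N) (ht : u (N + 1) < t)
    (B' : Bas P { F with w := F.w.put κ u V N } (n.put u m N) z t)
    (rs : Fm.RS { F with w := F.w.put κ u V N } (n.put u m N) (u 0) (u (N + 1)) a b)
    (ha : Lw { F with w := F.w.put κ u V N } (n.put u m N) z t v a)
    (hb : Lw { F with w := F.w.put κ u V N } (n.put u m N) z t v b) :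
    T.Z { F with w := F.w.put κ u V N } (d + 1) (J a b (c.mp (Wt.put u m N) id ∅)) = T.Z F d c := by
  have r0 := h.rd _ le_rfl h.lt.le
  have r1 := h.rd _ h.lt.le le_rfl
  have C' := C.tr (F' := { F with w := F.w.put κ u V N }) (Wt.put u m N) B.ls B.ls rfl rfl
    ((put_ag n).mono fun j q => .inr (ht.le.trans q)) Subset.rfl fun _ => .inl
  obtain ⟨_, _, _, _, _, _, -, -, -, -, -, -, -, -, a1, a2, a3, a4, b1, b2, b3, b4, -⟩ := id rs
  have R : Lw F n z t v (.rA (u 0) (u (N + 1))) :=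
    ⟨⟨h.sur.rg', .inl (by rw [r0.1, r1.1]; rfl)⟩, ⟨fun _ => r1.2.1.trans r0.2.2.symm, fun q =>
      (Pr.ne_neg (B.ok.w.pr _ h.lo.le (h.lt.trans h.hi).le).2 (by rw [r0.1, r1.1] at *; exact q)).elim⟩, ht, False.elim⟩
  have s0 := h.pt.rd 0 N.zero_le _ le_rfl (by have := h.pt.lt 0; omega)
  have s1 := h.rdN _ le_rfl le_rfl
  have R' : Lw { F with w := F.w.put κ u V N } (n.put u m N) z t v (.rA (u 0) (u (N + 1))) :=
    ⟨⟨h.sur.rg, .inl (by rw [s0.1, s1.1]; rfl)⟩, ⟨fun _ => s1.2.1.trans s0.2.2.symm, fun q =>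
      (Pr.ne_neg (B'.ok.w.pr _ h.lo.le (h.lt.trans h.hi).le).2 (by rw [s0.1, s1.1] at *; exact q)).elim⟩, ht,
      False.elim⟩
  have e : c.mp (Wt.put u m N) id {↑a} + c.mp (Wt.put u m N) id {↑b} = J a b (c.mp (Wt.put u m N) id ∅) := by
    rw [mp_one, mp_one, Cn.J]
  have G : ∀ {a : Bs}, Lw { F with w := F.w.put κ u V N } (n.put u m N) z t v a → a.arc → u 0 < a.lo →
      a.hi < u (N + 1) → ∀ p ∈ c.support, Fm.GC P { F with w := F.w.put κ u V N } (Wt.put u m N p.1)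
        (p.2 ∪ {↑(Bs.rA (u 0) (u (N + 1))), ↑a}) := fun ha x y y' p hp => by
    obtain ⟨k0, k1, k2⟩ := C.cell p hp
    rw [k0, union_comm, insert_union, ← insert_eq]
    exact (k2.tr (F' := { F with w := F.w.put κ u V N }) B.ls B.ls rfl rfl ((put_ag n).mono fun j q =>
      .inr (ht.le.trans q)) Subset.rfl fun _ => .inl).gc2 B' k1 R' ha (.inr (.inr (.inl ⟨trivial, y, y', x⟩)))
      False.elim
  rw [← e]
  refine H.rf F _ _ _ a b _ d c h.sur rfl (by simp [B.ls]) (fun j x y => by rw [r0.1]; exact (h.rd j x.le y).1)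
    (B.ls ▸ put_chg) (fun w hw => ?_) (C.cl B) (fun p hp => ⟨C.gc1 B hp R, (C.cell p hp).1 ▸ rs,
      G ha a1 a3 a4 p hp, G hb b1 b3 b4 p hp⟩) (e ▸ C'.clJ B' ha a2 hb b2)
  obtain ⟨p, hp, k⟩ := mem_walls.1 hw
  obtain ⟨-, k1, k2⟩ := C.cell p hp
  obtain ⟨i1, -, i2⟩ := k2.ok _ (mem_image_of_mem Wl.b k)
  have := (wf_of_ok i2).1.1
  exact ⟨⟨.inr (by omega), .inr (by omega), by simp [k1 w k]⟩, .inr (.inl (ht.trans i1))⟩

omit B C in
/-- freezing -/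
theorem frz1 {y : ℤ} (h : F.Cl P d c) (h' : (Wd38.frz F y).Cl P d c) : T.Z (Wd38.frz F y) d c = T.Z F d c :=
  (H.frz F _ d c (subset_insert _ _) h h').symm

end Ax0

end Crest.Agent.X212.Wd38
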