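import Crest.Agent.X212.Wd38.Cmp
import Crest.Agent.X212.Cyl58.Int

/-!
# X212 / Wd38, part Str (helper38): passages, splicing (stretch, cancellation), the entry

* `splice` : three pieces, the middle one a product with a change of time;
* `R.Ps x y g M` : from the left part of the slot `x` to the right part of the slot `y` the word is a product with
  monodromy `g`; `Spl`, `exists_spl` : words that differ in a passage; `Shp.St`, `exists_st`, `exists_can`;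
* `exists_entry` : `X0` is the manifold of the empty word.
-/

set_option autoImplicit false
set_option linter.unusedSectionVars false

open Set Filter Topology Function Metric TopologicalSpace
open scoped ContDiff Manifold
open Crest.Agent.R208.F (Ext)
open Crest.GeometryTopology.DehnSurgery

noncomputable section

namespace Crest.Agent.X212.Wd38

open Crest.Agent.X212.Glue52 Crest.Agent.X212.Rod53 Crest.Agent.X212.Int54 Crest.Agent.X212.Orx52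
  Crest.Agent.X212.M Crest.Agent.X212.Cyf70 Crest.Agent.X212.An
open Crest.Agent.X212.Cyl58 hiding ld_id ld_congr ld_of_comp ld_comp

section Gen

variable {X X' : TP V4} {Y : Pc E3} [CompactSpace Y.M] [T2Space Y.M] [SecondCountableTopology Y.M] [Nonempty Y.M]
  (l : ℝ ≃ₘ^∞⟮𝓘(ℝ, ℝ), 𝓘(ℝ, ℝ)⟯ ℝ)

/-- `φ` covers the change of time `l` over `s` -/
structure Ovr (φ : PartialDiffeomorph X.P.I X'.P.I X.P.M X'.P.M ∞) (s s' : Set ℝ) (O : X.P.M → Ext X.P.E)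
    (O' : X'.P.M → Ext X'.P.E) : Prop where
  src : φ.source = X.τ ⁻¹' s
  tgt : φ.target = X'.τ ⁻¹' s'
  tm : ∀ z, X.τ z ∈ s → X'.τ (φ z) = l (X.τ z)
  pos : Pos X.P.I X'.P.I φ (X.τ ⁻¹' s) O O'

variable {l} {φ φ' : PartialDiffeomorph X.P.I X'.P.I X.P.M X'.P.M ∞} {s s' J J' : Set ℝ} {O : X.P.M → Ext X.P.E}
  {O' : X'.P.M → Ext X'.P.E} {a b : ℝ} {c : Y.M → Ext Y.E}

/-- the corresponding isomorphism of timed pieces -/
def Ovr.k (h : Ovr l φ s s' O O') (e : ∀ t, l t ∈ s' ↔ t ∈ s) : TIso (X.re l.toHomeomorph) X' s' :=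
  ⟨φ, h.src.trans (Set.ext fun _ => (e _).symm), h.tgt, fun z hz => h.tm z ((e _).1 hz)⟩

theorem tpos_cylRe (hl : Up l univ) (hJ : IsOpen J) (hc : Ori Y.I c) : TPos (cylRe (Y := Y) l hJ) (pr c oR) (pr c oR) :=
  ((pos_id.2 (oriOn hc univ).same).prodMap (pos_deriv (fun _ => hl.hasDerivAt) fun x hx => (hl x hx).2)
    (fun y _ => ld_id y) fun z _ => l.isLocalDiffeomorph z).mono fun _ _ => ⟨trivial, trivial⟩

theorem exists_prod (hl : Up l univ) (hJ : IsOpen J) (e : ∀ t, l t ∈ J' ↔ t ∈ J)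
    (M : TIso (cylT Y) X J) (M' : TIso (cylT Y) X' J') (hc : Ori Y.I c) (p : TPos M (pr c oR) O)
    (p' : TPos M' (pr c oR) O') : IsOpen J' ∧ ∃ N : TIso (X.re l.toHomeomorph) X' J',
      (∀ q, ∀ t ∈ J, N (M (q, t)) = M' (q, l t)) ∧ TPos N O O' := by
  have e' : l.toHomeomorph.symm ⁻¹' J = J' := Set.ext fun t => by
    rw [mem_preimage, ← e]
    exact iff_of_eq (congrArg (· ∈ J') (l.apply_symm_apply t))
  have hJ' : IsOpen J' := e' ▸ hJ.preimage l.toHomeomorph.symm.continuous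
  exact ⟨hJ', ((M.re l.toHomeomorph).cast e').symm.trans ((cylRe l hJ').trans M'), fun q t ht =>
    congrArg (fun u => M' (cylRe l hJ' u)) (M.symm_apply (x := (q, t)) ht),
    ((p.re _).cast e').symm.trans ((tpos_cylRe hl hJ' hc).trans p')⟩

/-- SPLICING -/
theorem splice (hl : Up l univ) (hab : a ≤ b) (hJ : IsOpen J) (cov : Icc a b ⊆ J) (e : ∀ t, l t ∈ J' ↔ t ∈ J)
    (M : TIso (cylT Y) X J) (M' : TIso (cylT Y) X' J') (hc : Ori Y.I c) (p : TPos M (pr c oR) O)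
    (p' : TPos M' (pr c oR) O') (h : Ovr l φ (Iio a) (Iio (l a)) O O') (h' : Ovr l φ' (Ioi b) (Ioi (l b)) O O')
    (eL : ∀ q, ∀ t ∈ J, t < a → φ (M (q, t)) = M' (q, l t)) (eR : ∀ q, ∀ t ∈ J, b < t → φ' (M (q, t)) = M' (q, l t)) :
    ∃ ψ : X.P.M ≃ₘ^∞⟮X.P.I, X'.P.I⟯ X'.P.M, (∀ z, X'.τ (ψ z) = l (X.τ z)) ∧ (∀ z, X.τ z < a → ψ z = φ z) ∧
      (∀ z, b < X.τ z → ψ z = φ' z) ∧ (∀ q, ∀ t ∈ J, ψ (M (q, t)) = M' (q, l t)) ∧ Pos X.P.I X'.P.I ψ univ O O' := by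
  have m := hl.strictMono
  obtain ⟨hJ', N, hN, pN⟩ := exists_prod hl hJ e M M' hc p p'
  have k1 : ∀ {k : X.P.M → X'.P.M} {s : Set ℝ}, (∀ q, ∀ t ∈ J, t ∈ s → k (M (q, t)) = M' (q, l t)) →
      ∀ z, X.τ z ∈ s → l (X.τ z) ∈ J' → k z = N z := fun k z a b => by
    obtain ⟨q, hq⟩ := M.exists_cyl ((e _).1 b)
    rw [← hq, k q _ ((e _).1 b) a, hN q _ ((e _).1 b)]
  obtain ⟨K, a1, a2⟩ := TIso.exists_glue₂ isOpen_Iio hJ' rfl (h.k fun _ => m.lt_iff_lt) N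
    fun z u v => k1 (s := Iio a) eL z (m.lt_iff_lt.1 u) v
  obtain ⟨K', b1, b2⟩ := TIso.exists_glue₂ (L := univ) (isOpen_Iio.union hJ') isOpen_Ioi
    (eq_univ_of_forall fun t => by
      obtain ⟨t, rfl⟩ := l.surjective t
      rcases lt_or_ge t a with u | u
      · exact .inl (.inl (m u))
      · exact (le_or_gt t b).imp (fun v => .inr ((e t).2 (cov ⟨u, v⟩))) fun v => m v)
    K (h'.k fun _ => m.lt_iff_lt) fun z u v => by
      have u' := u.resolve_left fun w => (hab.trans_lt (m.lt_iff_lt.1 v)).not_gt (m.lt_iff_lt.1 w)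
      exact (a2 z u').trans (k1 (s := Ioi b) eR z (m.lt_iff_lt.1 v) u').symm
  have c1 : ∀ z, X.τ z < a → K' z = φ z := fun z u => (b1 z (.inl (m u))).trans (a1 z (m u))
  have c2 : ∀ z, b < X.τ z → K' z = φ' z := fun z u => b2 z (m u)
  have c3 : ∀ z, X.τ z ∈ J → K' z = N z := fun z u => (b1 z (.inr ((e _).2 u))).trans (a2 z ((e _).2 u))
  refine ⟨K'.toDiffeo, fun z => K'.tm z trivial, c1, c2, fun q t ht => (c3 _ (M.mem (x := (q, t)) ht)).trans (hN q t ht),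
    fun z _ => ?_⟩
  rcases lt_or_ge (X.τ z) a with u | u
  · exact h.pos.congr (isOpen_Iio.preimage X.cont) c1 z u
  rcases le_or_gt (X.τ z) b with v | v
  · exact Pos.congr (pN.mono fun _ w => (e _).2 w) (hJ.preimage X.cont) c3 z (cov ⟨u, v⟩)
  · exact h'.pos.congr (isOpen_Ioi.preimage X.cont) c2 z v

theorem mem_Ioo_of {l : ℝ → ℝ} (m : StrictMono l) {a b a' b' : ℝ} (h : l a = a') (h' : l b = b') (t : ℝ) :
    l t ∈ Ioo a' b' ↔ t ∈ Ioo a b := h ▸ h' ▸ and_congr m.lt_iff_lt m.lt_iff_lt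

end Gen

variable {Γ : Nm}

namespace Cx

variable (C : Cx Γ) {w : Shp Γ} {x y : ℤ} {τ : Γ.ι × Z2}

/-- diffeomorphisms of fillings -/
abbrev Df (τ τ' : Γ.ι × Z2) : Type := (mF C.kd τ).M ≃ₘ^∞⟮𝓡 3, 𝓡 3⟯ (mF C.kd τ').M

/-- `g × id` -/
def cg {τ τ' : Γ.ι × Z2} (g : C.Df τ τ') {J : Set ℝ} (hJ : IsOpen J) : TIso (C.cy τ) (C.cy τ') J :=
  cylIso (Y := (mF C.kd τ).pc) (Y' := (mF C.kd τ').pc) g hJ

theorem tpos_cg {τ τ' : Γ.ι × Z2} {g : C.Df τ τ'} (h : Pos (𝓡 3) (𝓡 3) g univ (oY C.kd τ) (oY C.kd τ')) {J : Set ℝ}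
    (hJ : IsOpen J) : TPos (C.cg g hJ) (C.oc τ) (C.oc τ') := tpos_cylIso hJ h

/-- the monodromy of a slot -/
inductive Mo : Sl Γ → ∀ τ τ', C.Df τ τ' → Prop
  | rod (σ : Γ.ι × Z2) : Mo (.rod σ) σ σ (Diffeomorph.refl _ _ _)
  | jn (J : Γ.J) : Mo (.jn J) (Γ.src J) (Γ.tgt J) (C.g J)

/-- `J'` is the inverse junction -/
def Inv (J J' : Γ.J) : Prop := ∃ g, C.Mo (.jn J') (Γ.tgt J) (Γ.src J) g ∧ ∀ q, g (C.g J q) = q

variable {C} in
theorem Mo.spec {s : Sl Γ} {τ τ' g} (h : C.Mo s τ τ' g) :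
    s.l = τ ∧ s.r = τ' ∧ Pos (𝓡 3) (𝓡 3) g univ (oY C.kd τ) (oY C.kd τ') := by
  cases h
  exacts [⟨rfl, rfl, pos_id.2 (oriOn (ori_oF _ _) univ).same⟩, ⟨rfl, rfl, C.pos _⟩]

/-- the product region over a constant range -/
def pw (hw : w.OK) (h : w.Rg x y) (τ : Γ.ι × Z2) (e : τ.1 = w.kn x) (e' : ∀ j, x ≤ j → j ≤ y → w.bw x y j = τ.2) :
    TIso (C.cy τ) (C.tp w x y) (II x y) :=
  Fl.tiso (Y := (mF C.kd τ).pc) (C.F τ e) (w.loc x y) (uni_s _) (isOpen_II x y) (by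
    rw [sa_fd (e' x le_rfl h.lt.le ▸ (h.isWd hw).prim x), h.v_eq hw]
    exact (II_sub x y).trans (Ioo_subset_Jr' fun k a b => e' k a b ▸ PM.refl _))

theorem tpos_pw (hw : w.OK) (h : w.Rg x y) (e : τ.1 = w.kn x) (e') :
    TPos (C.pw hw h τ e e') (C.oc τ) (C.ok w x y) :=
  (C.ok_spec e.symm).tiso (Y := (mF C.kd τ).pc) (C.F τ e) _ _ _ _ (ori_oF _ _) (pos_ie _ _)

end Cx

variable {C : Cx Γ} {w w' : Shp Γ} {hw : w.OK} {hw' : w'.OK} {X X' : TP V4} {x y a b d d' : ℤ}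
  {τ τ' τ'' : Γ.ι × Z2}

namespace Rz

variable (R : Rz C hw X)

theorem slot {g : C.Df τ τ'} (m : C.Mo (w.s x) τ τ' g) (h : w.Rg a x) (h' : w.Rg x b) (q : (mF C.kd τ).M) {t : ℝ}
    (ht : t ∈ II x x) : R.B h' (C.pR hw h' m.spec.2.1 (g q, t)) = R.B h (C.pL hw h m.spec.1 (q, t)) := by
  generalize m.spec.2.1 = e1, m.spec.1 = e2
  generalize e : w.s x = s at m
  cases m with
  | rod =>
    have := h.lt
    have := h'.lt
    exact R.eq_nr h' h ⟨fun _ => by omega, fun _ => ⟨_, e⟩⟩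
      (II_mono le_rfl h'.lt.le ((C.pR hw h' e1).mem (x := (q, t)) ht))
      (II_mono h.lt.le le_rfl ((C.pL hw h e2).mem (x := (q, t)) ht)) (C.nr_pt0 hw hw h' h _ _ _ _ q ht)
  | jn => exact R.jn h h' e q t ht

/-- a passage with monodromy `g` -/
structure Ps (x y : ℤ) (g : C.Df τ τ') (M : TIso (C.cy τ) X (II x y)) : Prop where
  lo : w.l < x
  le : x ≤ y
  hi : y < w.r
  el : (w.s x).l = τ
  er : (w.s y).r = τ'
  pos : TPos M (C.oc τ) R.O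
  gp : Pos (𝓡 3) (𝓡 3) g univ (oY C.kd τ) (oY C.kd τ')
  l : ∀ {a} (h : w.Rg a x) q, ∀ t ∈ II x x, M (q, t) = R.B h (C.pL hw h el (q, t))
  r : ∀ {b} (h : w.Rg y b) q, ∀ t ∈ II y y, M (q, t) = R.B h (C.pR hw h er (g q, t))

theorem ps_one {g : C.Df τ τ'} (m : C.Mo (w.s x) τ τ' g) (h1 : w.l < x) (h2 : x < w.r) : ∃ M, R.Ps x x g M := by
  refine ⟨(C.cg g (isOpen_II _ _)).trans (R.P h1.le h2 m.spec.2.1), h1, le_rfl, h2, m.spec.1, m.spec.2.1,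
    (C.tpos_cg m.spec.2.2 _).trans (R.tpos_P _ _ _), m.spec.2.2, fun h q t ht => ?_, fun h q t ht => ?_⟩
  · exact R.slot m h (Shp.rg_one h1.le h2) q ht
  · exact R.P_eq h le_rfl h.lt m.spec.2.1 _ _ (g q) ht

variable {R}

theorem Ps.snoc {g : C.Df τ τ'} {g' : C.Df τ' τ''} {M} (P : R.Ps x y g M) (m : C.Mo (w.s (y + 1)) τ' τ'' g')
    (h2 : y + 1 < w.r) : ∃ M', R.Ps x (y + 1) (g.trans g') M' := by
  have le : (x : ℝ) ≤ y := by exact_mod_cast P.le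
  have h := Shp.rg_one (P.lo.le.trans P.le) P.hi
  have e : ∀ j, y ≤ j → j ≤ y + 1 → w.bw y (y + 1) j = τ'.2 := fun j u v => by
    rcases u.eq_or_lt with rfl | k
    exacts [(Shp.bw_le le_rfl).trans (congrArg _ P.er), (Shp.bw_ge h.lt k).trans (congrArg _ m.spec.1)]
  let N := (C.cg g (isOpen_II _ _)).trans ((C.pw hw h τ' (congrArg _ P.er).symm e).trans (R.B h))
  obtain ⟨K, a1, a2⟩ := TIso.exists_glue₂ (L := II x (y + 1)) (isOpen_II x y) (isOpen_II y (y + 1))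
    (by rw [II, II, Ioo_union_Ioo' (by linarith) (by push_cast; linarith),
      min_eq_left (by linarith), max_eq_right (by push_cast; linarith), II]) M N
    fun p u v => P.r h p.1 p.2 ⟨v.1, u.2⟩
  refine ⟨K, P.lo, by linarith [P.le], h2, P.el, m.spec.2.1, tpos_of_loc fun t ht => ?_,
    m.spec.2.2.comp P.gp (fun z _ => g'.isLocalDiffeomorph z) (fun z _ => g.isLocalDiffeomorph z) (mapsTo_univ _ _),
    fun k q t ht => (a1 (q, t) (II_mono le_rfl P.le ht)).trans (P.l k q t ht),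
    fun k q t ht => (a2 (q, t) (II_mono h.lt.le le_rfl ht)).trans (R.slot m h k _ ht).symm⟩
  rcases lt_or_ge t (y + 3 / 4) with u | u
  · exact ⟨_, isOpen_II _ _, ⟨ht.1, u⟩, M, P.pos, a1⟩
  · exact ⟨_, isOpen_II _ _, ⟨by linarith, ht.2⟩, N,
      (C.tpos_cg P.gp _).trans ((C.tpos_pw _ _ _ _).trans (R.O_spec.B h)), a2⟩

theorem Ps.rods {g : C.Df τ τ'} {M} (P : R.Ps x y g M) {z : ℤ} (h1 : y ≤ z) (h2 : z < w.r)
    (h : ∀ j, y < j → j ≤ z → w.s j = .rod τ') : ∃ M', R.Ps x z g M' := by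
  induction z, h1 using Int.leInduction with
  | base => exact ⟨M, P⟩
  | succ z k ih =>
    obtain ⟨M', P'⟩ := ih (by omega) fun j u v => h j u (by omega)
    exact P'.snoc (g' := Diffeomorph.refl _ _ _) (h _ (by omega) le_rfl ▸ .rod _) h2

variable (R)

theorem ps_rods (h0 : w.l < x) (h1 : x ≤ y) (h2 : y < w.r) (h : ∀ j, x ≤ j → j ≤ y → w.s j = .rod τ) :
    ∃ M, R.Ps x y (Diffeomorph.refl _ _ _ : C.Df τ τ) M :=
  let ⟨_, P⟩ := R.ps_one (h x le_rfl h1 ▸ .rod τ) h0 (h1.trans_lt h2)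
  P.rods h1 h2 fun j u => h j u.le

theorem ps_can {J J' : Γ.J} (i : C.Inv J J') (h0 : w.l < x) (h1 : x < y) (h2 : y < w.r) (e : w.s x = .jn J)
    (e' : w.s y = .jn J') (h : ∀ j, x < j → j < y → w.s j = .rod (Γ.tgt J)) :
    ∃ M, R.Ps x y (Diffeomorph.refl _ _ _ : C.Df (Γ.src J) (Γ.src J)) M := by
  obtain ⟨g, m, k⟩ := i
  obtain ⟨y, rfl⟩ : ∃ z, y = z + 1 := ⟨y - 1, by ring⟩
  obtain ⟨_, P⟩ := R.ps_one (e ▸ Cx.Mo.jn J : C.Mo (w.s x) _ _ (C.g J)) h0 (h1.trans h2)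
  obtain ⟨_, P⟩ := P.rods (z := y) (by omega) (by omega) fun j u v => h j u (by omega)
  exact (Diffeomorph.ext k : (C.g J).trans g = Diffeomorph.refl _ _ _) ▸ P.snoc (e' ▸ m) h2

end Rz

variable {R : Rz C hw X} {R' : Rz C hw' X'} {ψ φ : PartialDiffeomorph X.mf.I X'.mf.I X.P.M X'.P.M ∞}

theorem Lc.of_eq (L : Lc R R' d x y φ) (s : ψ.source = univ) (h : ∀ z, X.τ z ∈ II x y → z ∈ φ.source ∧ ψ z = φ z)
    {l : ℝ → ℝ} (m : StrictMono l) (e : ∀ s ∈ II x y, l s = s + d) (t : ∀ z, X'.τ (ψ z) = l (X.τ z)) :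
    Lc R R' d x y ψ :=
  ⟨L.sk, ⟨l, m, e, fun z _ => t z⟩, fun k k' a b _ u _ =>
    have v := h _ (II_mono a b ((R.B k).mem u))
    v.2 ▸ L.ex k k' a b u v.1, fun _ _ _ _ _ _ => s ▸ trivial⟩

theorem Cm.srcL (c : Cm R R' d w.l x True False ψ) (g : w.Agr w' d w.l x) (h : w.l < x) :
    ψ.source = X.τ ⁻¹' Iio (x + 3 / 4) := by
  have h' : (w.l : ℝ) < x := by exact_mod_cast h
  refine Subset.antisymm (fun z hz => ?_) fun z hz => ?_
  · rcases (c.rl z hz).time_mem with k | k | k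
    exacts [k.2, show X.τ z < _ by linarith [k.2], k.1.elim]
  · exact (lt_or_ge (X.τ z) (w.l + 3 / 4)).elim (c.sL trivial z) fun k =>
      c.II_all g h le_rfl le_rfl ⟨by linarith, hz⟩

theorem Cm.srcR (c : Cm R R' d y w.r False True ψ) (g : w.Agr w' d y w.r) (h : y < w.r) :
    ψ.source = X.τ ⁻¹' Ioi (y + 1 / 4) := by
  have h' : (y : ℝ) < w.r := by exact_mod_cast h
  refine Subset.antisymm (fun z hz => ?_) fun z hz => ?_
  · rcases (c.rl z hz).time_mem with k | k | k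
    exacts [k.1, k.1.elim, show _ < X.τ z by linarith [k.2]]
  · exact (lt_or_ge ((w.r : ℝ) + 1 / 4) (X.τ z)).elim (c.sR trivial z) fun k =>
      c.II_all g h le_rfl le_rfl ⟨hz, by linarith⟩

theorem Cm.tgtL (H : Hc w w' d w.l x True False) (c : Cm R R' d w.l x True False ψ) (g : w.Agr w' d w.l x)
    (h : w.l < x) : ψ.target = X'.τ ⁻¹' Iio ((x + d : ℤ) + 3 / 4) := by
  have c' := c.symm H
  have g' := g.symm
  rw [← H.l trivial] at c' g'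
  exact c'.srcL g' (by linarith [H.l trivial])

theorem Cm.tgtR (H : Hc w w' d y w.r False True) (c : Cm R R' d y w.r False True ψ) (g : w.Agr w' d y w.r)
    (h : y < w.r) : ψ.target = X'.τ ⁻¹' Ioi ((y + d : ℤ) + 1 / 4) := by
  have c' := c.symm H
  have g' := g.symm
  rw [← H.r trivial] at c' g'
  exact c'.srcR g' (by linarith [H.r trivial])

/-- the words agree left of the slot `x` (shift `d`) and right of the slot `y` (shift `d'`) -/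
structure Shp.Out (w w' : Shp Γ) (d d' x y : ℤ) : Prop where
  l : w'.l = w.l + d
  r : w'.r = w.r + d'
  aL : w.Agr w' d w.l x
  aR : w.Agr w' d' y w.r

variable (R R') in
/-- `ψ` is the splice -/
structure Spl (d d' x y : ℤ) (M : TIso (C.cy τ) X (II x y)) (M' : TIso (C.cy τ) X' (II (x + d) (y + d')))
    (ψ : X.mf.M ≃ₘ^∞⟮X.mf.I, X'.mf.I⟯ X'.mf.M) : Prop where
  L : Lc R R' d w.l x ψ.toPartialDiffeomorph
  Rt : Lc R R' d' y w.r ψ.toPartialDiffeomorph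
  cL : ∀ z, X.τ z < x + 3 / 4 → Cr R R' d w.l x True False z (ψ z)
  cR : ∀ z, y + 1 / 4 < X.τ z → Cr R R' d' y w.r False True z (ψ z)
  mid : ∃ l : ℝ ≃ₘ^∞⟮𝓘(ℝ, ℝ), 𝓘(ℝ, ℝ)⟯ ℝ, Up l univ ∧ (∀ t ≤ (x : ℝ) + 3 / 4, l t = t + d) ∧
    (∀ t, (y : ℝ) + 1 / 4 ≤ t → l t = t + d') ∧ (∀ z, X'.τ (ψ z) = l (X.τ z)) ∧
    ∀ q, ∀ t ∈ II x y, ψ (M (q, t)) = M' (q, l t)
  pos : Pos X.P.I X'.P.I ψ univ R.O R'.O

/-- EXISTENCE of the splice -/
theorem exists_spl (o : w.Out w' d d' x y) {g : C.Df τ τ'} {M M'} (P : R.Ps x y g M)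
    (P' : R'.Ps (x + d) (y + d') g M') (h : x < y) (h' : x + d < y + d') : ∃ ψ, Spl R R' d d' x y M M' ψ := by
  have k : (x : ℝ) + 1 ≤ y := by exact_mod_cast h
  have k' : (x : ℝ) + d + 1 ≤ y + d' := by exact_mod_cast h'
  have := P.lo; have := P.hi; have := P'.lo; have := P'.hi
  have HL : Hc w w' d w.l x True False :=
    ⟨o.aL.sk le_rfl (by omega) o.l.le (by omega), fun _ => o.l, False.elim⟩
  have HR : Hc w w' d' y w.r False True :=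
    ⟨o.aR.sk (by omega) le_rfl (by omega) o.r.ge, False.elim, fun _ => o.r⟩
  obtain ⟨φ, c⟩ := exists_cm (R := R) (R' := R') HL
  obtain ⟨φ', c'⟩ := exists_cm (R := R) (R' := R') HR
  obtain ⟨l, l1, l2, l3⟩ := exists_diffeo_shift (a := x + 3 / 4) (b := y + 1 / 4) (c := d) (d := d')
    (by linarith) (by linarith)
  have s := c.srcL o.aL P.lo
  have s' := c'.srcR o.aR P.hi
  have r : w.Rg (x - 1) x := ⟨by omega, by omega, by omega, fun _ _ _ => by omega⟩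
  have r' := Shp.rg_one (w := w) (j := y) (by omega) P.hi
  obtain ⟨ψ, a1, a2, a3, a4, a5⟩ := splice (Y := (mF C.kd τ).pc) (φ := φ) (φ' := φ') l1 (a := x + 3 / 4)
    (b := y + 1 / 4) (by linarith) (isOpen_II x y) (fun t u => ⟨by linarith [u.1], by linarith [u.2]⟩)
    (mem_Ioo_of l1.strictMono ((l2 _ (by linarith)).trans (by push_cast; ring))
      ((l3 _ (by linarith)).trans (by push_cast; ring))) M M' (ori_oF _ _) P.pos P'.pos
    ⟨s, (c.tgtL HL o.aL P.lo).trans (by rw [l2 _ le_rfl, Int.cast_add, add_right_comm]),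
      fun z u => ((c.rl z (s.ge u)).time HL).trans (l2 _ (le_of_lt u)).symm, s ▸ c.pos⟩
    ⟨s', (c'.tgtR HR o.aR P.hi).trans (by rw [l3 _ le_rfl, Int.cast_add, add_right_comm]),
      fun z u => ((c'.rl z (s'.ge u)).time HR).trans (l3 _ (le_of_lt u)).symm, s' ▸ c'.pos⟩
    (fun q t u v => by
      have u' : t ∈ II x x := ⟨u.1, v⟩
      have m := II_mono r.lt.le le_rfl ((C.pL hw r P.el).mem (x := (q, t)) u')
      have r1 := c.sk.rg r (by omega) le_rfl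
      rw [l2 t v.le, P.l r q t u', P'.l r1 q _ (add_mem_II.2 u')]
      exact c.app r r1 rfl rfl (by omega) le_rfl m (s.ge ((R.B r).mem m).2) (C.nr_pt hw hw' r r1 rfl _ _ _ _ q u'))
    fun q t u v => by
      have u' : t ∈ II y y := ⟨v, u.2⟩
      have m := II_mono le_rfl r'.lt.le ((C.pR hw r' P.er).mem (x := (g q, t)) u')
      have r1 := c'.sk.rg r' le_rfl P.hi
      rw [l3 t v.le, P.r r' q t u', P'.r r1 q _ (add_mem_II.2 u')]
      exact c'.app r' r1 rfl rfl le_rfl P.hi m (s'.ge ((R.B r').mem m).1) (C.nr_pt hw hw' r' r1 rfl _ _ _ _ _ u')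
  exact ⟨ψ, c.of_eq rfl (fun z u => ⟨s.ge u.2, a2 z u.2⟩) l1.strictMono (fun t u => l2 t u.2.le) a1,
    c'.of_eq rfl (fun z u => ⟨s'.ge u.1, a3 z u.1⟩) l1.strictMono (fun t u => l3 t u.1.le) a1,
    fun z u => (a2 z u).symm ▸ c.rl z (s.ge u), fun z u => (a3 z u).symm ▸ c'.rl z (s'.ge u),
    ⟨l, l1, l2, l3, a1, a4⟩, a5⟩

/-- stretching: the rod `τ` on the slots `x, …, y` becomes the rod `τ` on the slots `x + d, …, y + d'` -/
structure Shp.St (w w' : Shp Γ) (d d' x y : ℤ) (τ : Γ.ι × Z2) : Prop extends w.Out w' d d' x y where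
  lo : w.l < x
  lt : x < y
  lt' : x + d < y + d'
  hi : y < w.r
  rod : ∀ j, x ≤ j → j ≤ y → w.s j = .rod τ
  rod' : ∀ j, x + d ≤ j → j ≤ y + d' → w'.s j = .rod τ

variable (R R') in
theorem exists_st (h : w.St w' d d' x y τ) : ∃ M M' ψ, Spl (τ := τ) R R' d d' x y M M' ψ :=
  let ⟨M, P⟩ := R.ps_rods h.lo h.lt.le h.hi h.rod
  let ⟨M', P'⟩ := R'.ps_rods (by linarith [h.l, h.lo]) h.lt'.le (by linarith [h.r, h.hi]) h.rod'
  ⟨M, M', exists_spl h.toOut P P' h.lt h.lt'⟩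

theorem Shp.Can.out {J J' : Γ.J} (i : C.Inv J J') (h : w.Can w' J J' x y) :
    w.Out w' 0 0 x y := by
  obtain ⟨_, m, -⟩ := i
  have := h.lt
  refine ⟨by rw [h.l, add_zero], by rw [h.r, add_zero], ⟨?_, fun j _ u => ?_, ?_⟩, ?_, fun j u _ => ?_, ?_⟩ <;>
    rw [add_zero]
  exacts [by rw [h.eq _ (.inl h.lo)], h.eq j (.inl u), by rw [h.x', h.rod x le_rfl this.le]; rfl,
    by rw [h.y', h.rod y this.le le_rfl]; exact m.spec.2.1, h.eq j (.inr u), by rw [h.eq _ (.inr h.hi)]]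

variable (R R') in
theorem exists_can {J J' : Γ.J} (i : C.Inv J J') (h : w.Can w' J J' x y) :
    ∃ M M' ψ, Spl (τ := Γ.src J) R R' 0 0 x y M M' ψ :=
  let ⟨M, P⟩ := R.ps_rods h.lo h.lt.le h.hi h.rod
  let ⟨M', P'⟩ := R'.ps_can (x := x + 0) (y := y + 0) i (by linarith [h.l, h.lo]) (by linarith [h.lt])
    (by linarith [h.r, h.hi]) ((add_zero x).symm ▸ h.x') ((add_zero y).symm ▸ h.y')
    fun j u v => h.rod' j (by omega) (by omega)
  ⟨M, M', exists_spl (h.out i) P P' h.lt (by linarith [h.lt])⟩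

/-- the splice as a global identification of marks -/
theorem Spl.mid_glob {M M' ψ} (s : Spl (τ := τ) R R' d d' x y M M' ψ) {κ A A' A₀ : Type} [Fintype κ] (G : Tab C.kd κ)
    {W : A → Wl} (hW : ∀ a, (W a).b.OK w) {W' : A' → Wl} (hW' : ∀ a, (W' a).b.OK w') (f : A₀ ↪ A) (f' : A₀ ↪ A')
    (h) : (Wd38.mid R R' G hW hW' ψ.toPartialDiffeomorph f f' s.pos h).Glob := ⟨rfl, rfl⟩

theorem Spl.win {M M' ψ} (s : Spl (τ := τ) R R' d d' x y M M' ψ) {A A' A₀ : Type} {W : A → Wl} {W' : A' → Wl}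
    {f : A₀ ↪ A} {f' : A₀ ↪ A'} (h : ∀ a, ((W (f a)).Mt w w' d w.l x ∧ W' (f' a) = (W (f a)).sh d) ∨
      (W (f a)).Mt w w' d' y w.r ∧ W' (f' a) = (W (f a)).sh d') :
    Win R R' (W := W) (W' := W') ψ.toPartialDiffeomorph f f' :=
  fun a => (h a).elim (fun k => ⟨_, _, _, s.L, k⟩) fun k => ⟨_, _, _, s.Rt, k⟩

/-- THE ENTRY -/
theorem Rz.exists_entry (R : Rz C hw X) (h : ∀ j, w.l < j → j < w.r → w.s j = .rod Γ.cap) :
    ∃ (k : w.Rg w.l w.r) (e : _) (e' : _) (ψ : C.X0.M ≃ₘ^∞⟮C.X0.I, X.mf.I⟯ X.mf.M) (l : ℝ ≃ₘ^∞⟮𝓘(ℝ, ℝ), 𝓘(ℝ, ℝ)⟯ ℝ),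
      Up l univ ∧ (∀ t ≤ (-1 / 8 : ℝ), l t = t + (w.l + 1 / 2)) ∧ (∀ t, (1 / 8 : ℝ) ≤ t → l t = t + (w.r + 1 / 2)) ∧
      (∀ p, X.τ (ψ p) = l (C.S.τ (1 / 4) p)) ∧
      (∀ p, C.S.τ (1 / 4) p < -1 / 8 → ψ p = R.kL p) ∧ (∀ p, 1 / 8 < C.S.τ (1 / 4) p → ψ p = R.kR p) ∧
      (∀ q, ∀ t ∈ Ioo (-(1 / 4) : ℝ) (1 / 4), ψ (C.S.n (q, t)) = R.B k (C.pw hw k Γ.cap e e' (q, l t))) ∧
      Pos C.X0.I X.P.I ψ univ (-C.o0) R.O := by
  have k : w.Rg w.l w.r := ⟨le_rfl, hw.lt, le_rfl, fun j u v => ⟨_, h j u v⟩⟩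
  have lt : (w.l : ℝ) < w.r := by exact_mod_cast hw.lt
  have e : Γ.cap.1 = w.kn w.l := (congrArg _ hw.lr).symm
  have e' : ∀ j, w.l ≤ j → j ≤ w.r → w.bw w.l w.r j = Γ.cap.2 := fun j u v => by
    rcases u.eq_or_lt with rfl | u
    · exact (Shp.bw_le le_rfl).trans (congrArg _ hw.lr)
    · rw [Shp.bw_mid u v, v.eq_or_lt.elim (fun c => c ▸ hw.sr) (h j u)]; rfl
  obtain ⟨l, l1, l2, l3⟩ := exists_diffeo_shift (a := -1 / 8) (b := 1 / 8) (c := w.l + 1 / 2) (d := w.r + 1 / 2)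
    (by linarith) (by linarith)
  have s1 : Iio (l (-1 / 8)) ⊆ Iio ((w.l : ℝ) + 3 / 4) := Iio_subset_Iio (by rw [l2 _ le_rfl]; linarith)
  have s2 : Ioi (l (1 / 8)) ⊆ Ioi ((w.r : ℝ) + 1 / 4) := Ioi_subset_Ioi (by rw [l3 _ le_rfl]; linarith)
  have t1 : (C.cap w.l).τ ⁻¹' Iio (l (-1 / 8)) = C.S.τ (1 / 4) ⁻¹' Iio (-1 / 8) := Set.ext fun p => by
    rw [l2 _ le_rfl]; exact add_lt_add_iff_right ((w.l : ℝ) + 1 / 2)
  have t2 : (C.cap w.r).τ ⁻¹' Ioi (l (1 / 8)) = C.S.τ (1 / 4) ⁻¹' Ioi (1 / 8) := Set.ext fun p => by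
    rw [l3 _ le_rfl]; exact add_lt_add_iff_right ((w.r : ℝ) + 1 / 2)
  obtain ⟨ψ, a⟩ := splice (X := C.S.tp (T := 1 / 4) (by norm_num)) (Y := (mF C.kd Γ.cap).pc)
    (φ := (R.kL.restr isOpen_Iio s1).φ) (φ' := (R.kR.restr isOpen_Ioi s2).φ) (O := -C.o0) l1 (a := -1 / 8) (b := 1 / 8)
    (by linarith) isOpen_Ioo (fun t u => ⟨by linarith [u.1], by linarith [u.2]⟩)
    (mem_Ioo_of l1.strictMono ((l2 _ (by linarith)).trans (by ring)) ((l3 _ (by linarith)).trans (by ring)))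
    (C.S.k (by norm_num)) ((C.pw hw k Γ.cap e e').trans (R.B k)) (ori_oF _ _) (C.pS.mono (subset_univ _))
    ((C.tpos_pw _ _ _ _).trans (R.O_spec.B k))
    ⟨t1, rfl, fun z u => (R.kL.tm z (s1 (t1.ge u))).trans (l2 _ (le_of_lt u)).symm, Pos.mono (R.O_spec.kL.restr isOpen_Iio s1) t1.ge⟩
    ⟨t2, rfl, fun z u => (R.kR.tm z (s2 (t2.ge u))).trans (l3 _ (le_of_lt u)).symm, Pos.mono (R.O_spec.kR.restr isOpen_Ioi s2) t2.ge⟩
    (fun q t u v => by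
      rw [l2 t v.le]
      refine Eq.trans ?_ (R.cL k q _ ⟨by linarith [u.1], by linarith⟩).symm
      rw [C.pC_apply, add_neg_cancel_right]; rfl)
    fun q t u v => by
      rw [l3 t v.le]
      refine Eq.trans ?_ (R.cR k q _ ⟨by linarith, by linarith [u.2]⟩).symm
      rw [C.pC_apply, add_neg_cancel_right]; rfl
  exact ⟨k, e, e', ψ, l, l1, l2, l3, a⟩

end Crest.Agent.X212.Wd38
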