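import Crest.Agent.X212.Wd38.Str
import Crest.Agent.X212.Cab39.Ori
import Crest.Agent.X212.Nrm38.Red
import Crest.Agent.X212.Orx52.Sw
import Crest.Agent.X212.Bb31.Defs

/-!
# X212 / Wd38, part Ctx (helper38): the names and the context of layer P

* `Jn`, `nm a a'` : the knot (`false`), its cable (`true`), the cosmetic diffeomorphism `f`, the cable diffeomorphism
  `c`, their inverses; the caps have the type `C(0)`;
* `pos_cT`, `exists_gc`, `exists_gf`, `sep`, `cx`.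
-/

set_option autoImplicit false
set_option linter.unusedSectionVars false

open Set Filter Topology Function Metric TopologicalSpace
open scoped ContDiff Manifold
open Crest.Agent.R208.F (Ext io)
open Crest.GeometryTopology.DehnSurgery

noncomputable section

namespace Crest.Agent.X212.Wd38

open Crest.Agent.X212.Glue52 Crest.Agent.X212.Rod53 Crest.Agent.X212.Int54 Crest.Agent.X212.Orx52
  Crest.Agent.X212.M Crest.Agent.X212.Cyf70 Crest.Agent.X212.An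
open Crest.Agent.X212.Cyl58 hiding ld_id ld_congr ld_of_comp ld_comp
open Crest.Agent.X212.Ext52 (KD Fill Tube shr shr_snd norm_shr_lt)
open Crest.Agent.X212.Cab39 (cT cabT cable ld_cT)
open Crest.Agent.X212.Dr59 (pm mf df Dg)
open Crest.Agent.X212.Line51 (ang dc tl sc)
open Crest.Agent.X212.Pj41 (FSm)
open Crest.Agent.X212.Sep15 (CM End Jo)

/-! ### the orientation of the cable -/

theorem pos_cT : Pos IT IT cT univ oT oT := by
  refine pos_of_pt isPreconnected_univ (oriOn ori_oT _) (oriOn ori_oT univ) (fun z _ => ld_cT z) (mapsTo_univ _ _)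
    (mem_univ (1, 0)) (pos_of_eq (oriOn ori_oT _) (c := fun _ => 1 / 2) (fun _ _ => by norm_num) ?_)
  rintro _ rfl
  have h0 : ContMDiffAt IT IT ∞ cT (1, 0) := (ld_cT _).contMDiffAt
  have hG : FSm IT (fun y => (cT y).2) (1, 0) := h0.snd
  have hx : FSm IT (fun y : Circle × ℂ => (y.1 : ℂ)) (1, 0) := Cab39.ccoe contMDiffAt_fst
  have hz : FSm IT (fun y : Circle × ℂ => y.2) (1, 0) := contMDiffAt_snd
  have hr : FSm IT (fun y : Circle × ℂ => (((√(1 + ‖y.2‖ ^ 2))⁻¹ : ℝ) : ℂ)) (1, 0) :=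
    Cab39.creal (ContMDiffAt.comp (g := fun z : ℂ => (√(1 + ‖z‖ ^ 2))⁻¹) _ (ContDiffAt.contMDiffAt
      (((contDiffAt_const.add (contDiff_norm_sq ℝ).contDiffAt).sqrt (by simp)).inv (by simp))) contMDiffAt_snd)
  have e : (fun y => (cT y).2 * (cT y).2) = fun y : Circle × ℂ =>
      (y.1 : ℂ) * y.1 + (((√(1 + ‖y.2‖ ^ 2))⁻¹ : ℝ) : ℂ) * y.2 := funext fun y => by
    rw [← shr_snd, ← Cab39.cA_sq (norm_shr_lt y), show ((Cab39.cA (shr y)).1 : ℂ) = y.1 * y.1 from by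
      rw [← pow_two]; simp [Cab39.cA, shr], add_sub_cancel]
    rfl
  have d : ∀ v, dc IT (fun y => (cT y).2) (1, 0) v =
      Complex.I * tl IT (sc Prod.fst) ((1 : Circle), (0 : ℂ)) v + dc IT (fun y : Circle × ℂ => y.2) (1, 0) v / 2 := fun v => by
    have := Line51.dc_mul hG hG v
    rw [e, Line51.dc_add (hx.mul' hx) (hr.mul' hz), Line51.dc_mul hx hx, Line51.dc_mul hr hz,
      dc_circle contMDiffAt_fst, Cab39.cT_core] at this
    simp only [Circle.coe_one, norm_zero, mul_zero, mul_one, one_mul, ne_eq, OfNat.ofNat_ne_zero, not_false_eq_true,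
      zero_pow, add_zero, Real.sqrt_one, inv_one, Complex.ofReal_one, zero_add] at this
    linear_combination -this / 2
  have e1 : df IT (fun y => (cT y).2.re) (1, 0) = (1 / 2 : ℝ) • df IT (fun y : Circle × ℂ => y.2.re) (1, 0) := by
    rw [df, df, ← map_smul]
    refine congrArg io (LinearMap.ext fun v => (Line51.mf_re (Line51.md_of hG) v).trans ?_)
    rw [d]
    refine Eq.trans ?_ (congrArg (1 / 2 * ·) (Line51.mf_re (Line51.md_of hz) v).symm)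
    simp
    ring
  have e2 : df IT (fun y => (cT y).2.im) (1, 0) = ang IT Prod.fst ((1 : Circle), (0 : ℂ)) +
      (1 / 2 : ℝ) • df IT (fun y : Circle × ℂ => y.2.im) (1, 0) := by
    rw [df, df, ang, Line51.th, ← map_smul, ← map_add]
    refine congrArg io (LinearMap.ext fun v => (Line51.mf_im (Line51.md_of hG) v).trans ?_)
    rw [d]
    refine Eq.trans ?_ (congrArg (tl IT (sc Prod.fst) ((1 : Circle), (0 : ℂ)) v + 1 / 2 * ·)
      (Line51.mf_im (Line51.md_of hz) v).symm)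
    simp
    ring
  rw [oT, pm_pr (h0.mdifferentiableAt (by simp)), pm_oC (g := Prod.fst ∘ cT) (h0.fst.mdifferentiableAt (by simp)),
    pm_oZ (g := Prod.snd ∘ cT) (Line51.md_of hG),
    pr_eq (𝓡 1) 𝓘(ℝ, ℂ), Pi.mul_apply, pm_oC mdifferentiableAt_fst, pm_oZ mdifferentiableAt_snd,
    show Prod.fst ∘ cT = Prod.fst ^ 2 from rfl, Line51.ang_pow contMDiffAt_fst]
  refine (congrArg₂ (fun a b => _ * (a * b)) e1 e2).trans ?_
  simp only [ang, Line51.th, df, mul_add, smul_mul_assoc, mul_smul_comm, io_three, smul_zero, smul_smul]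
  norm_num

theorem same_cab (t : Tube) : SameOn (oS (cabT t)) (oS t) univ :=
  same_of_pt (oriOn (ori_oS _) _) (oriOn (ori_oS _) _) isPreconnected_univ (mem_univ _)
    ((pos_τ (cabT t) univ).same ((pos_τ t univ).comp pos_cT (fun z _ => t.ld z) (fun z _ => ld_cT z)
      (mapsTo_univ _ _)) (fun z _ => (cabT t).ld z) _ ⟨(1, 0), trivial, rfl⟩)

theorem fd_p {q p : ℤ} (h : Pr (q, p)) : (fd (q, p)).p = p ∧ (fd (q, p)).q = q :=
  ⟨congrArg Prod.snd (sa_fd h), congrArg Prod.fst (sa_fd h)⟩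

theorem pr_of {q p : ℤ} (h : IsCoprime p q) : Pr (q, p) :=
  let ⟨u, v, e⟩ := h; ⟨(-u, v), .inl (by unfold Rod53.dt; linarith)⟩

/-- `C(1) = K(1/4)` -/
theorem exists_gc (k : KD) : ∃ g : Fill (cable k).toTube (fd (1, 1)) ≃ₘ^∞⟮𝓡 3, 𝓡 3⟯ Fill k.toTube (fd (4, 1)),
    Pos (𝓡 3) (𝓡 3) g univ (oF _ _) (oF _ _) :=
  let ⟨g, _, h⟩ := Cab39.exists_dif_ori k (fd_p (pr_of isCoprime_one_left)) (fd_p (pr_of isCoprime_one_left))
  ⟨g, h (oS k.toTube) _ _ (ori_oF _ _) (ori_oF _ _) (oF_ie _ _)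
    (same_trans (oF_ie _ _) (same_pm (same_cab _) (fun _ _ => ld_val _ _) (mapsTo_univ _ _)))⟩

/-- the cosmetic diffeomorphism -/
theorem exists_gf {k : KD} {p q q' : ℤ} (h : Nrm38.Cos k p q q') (h1 : IsCoprime p q) (h2 : IsCoprime p q') :
    ∃ g : Fill k.toTube (fd (q, p)) ≃ₘ^∞⟮𝓡 3, 𝓡 3⟯ Fill k.toTube (fd (q', p)),
      Pos (𝓡 3) (𝓡 3) g univ (oF _ _) (oF _ _) :=
  let ⟨g, e⟩ := h _ _ (fd_p (pr_of h1)).1 (fd_p (pr_of h1)).2 (fd_p (pr_of h2)).1 (fd_p (pr_of h2)).2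
  ⟨g, pos_of_posD e⟩

/-! ### the caps -/

section Cap

variable {Y : CM 3} {C₁ C₂ : End Y} {X : CM 4} (J : Jo C₁ C₂ X) {Y' : Mf 3} (ρ : Y'.M ≃ₘ^∞⟮Y'.I, 𝓡 3⟯ Y)

/-- a closed four-manifold, bundled -/
abbrev m4 (X : CM 4) : Mf 4 := Mf.ofB 4 (𝓡 4) X.M (by simp)

theorem not_mem_end (C : End Y) {p : Y × ℝ} (h : p.2 < 0) : C.j p ∉ C.j '' (univ ×ˢ Ici 0) :=
  fun k => (C.isEnd.oe.inj.mem_set_image.1 k).2.not_gt h

/-- the neck of a join -/
def sep : Sep (m4 X).pc Y'.pc where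
  n p := J.i₁ (C₁.j (ρ p.1, p.2))
  oe := J.o₁.comp (C₁.isEnd.oe.comp ((IsOE.of_diffeo ρ).prodMap IsOE.id))
  L := J.i₁ '' (C₁.j '' (univ ×ˢ Ici 0))ᶜ
  R := J.i₂ '' (C₂.j '' (univ ×ˢ Ici 0))ᶜ
  oL := J.o₁.isOpen_image C₁.isEnd.cl.isOpen_compl
  oR := J.o₂.isOpen_image C₂.isEnd.cl.isOpen_compl
  dj := disjoint_left.2 <| by
    rintro _ ⟨p, hp, rfl⟩ ⟨q, hq, e⟩
    obtain ⟨y, t, rfl, rfl⟩ := (J.eq p q).1 e.symm
    exact (le_total 0 t).elim (fun h => hp ⟨(y, t), ⟨trivial, h⟩, rfl⟩)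
      fun h => hq ⟨(y, -t), ⟨trivial, neg_nonneg.2 h⟩, rfl⟩
  cov x hx := by
    rcases J.cov x with ⟨p, rfl⟩ | ⟨q, rfl⟩
    · refine .inl ⟨p, ?_, rfl⟩
      rintro ⟨u, -, rfl⟩
      exact hx ⟨(ρ.symm u.1, u.2), by simp⟩
    · refine .inr ⟨q, ?_, rfl⟩
      rintro ⟨u, -, rfl⟩
      exact hx ⟨(ρ.symm u.1, -u.2), (J.eq _ _).2 ⟨u.1, -u.2, by simp, by simp⟩⟩
  nL p h := ⟨_, not_mem_end C₁ h, rfl⟩
  nR p h := ⟨_, not_mem_end C₂ (p := (ρ p.1, -p.2)) (neg_neg_of_pos h), ((J.eq _ _).2 ⟨_, _, rfl, rfl⟩).symm⟩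

theorem cy_eq_neg {o : Y'.M → Ext Y'.E} (h : Dg 3 univ o) : cy o = -pr o oR := funext fun z => by
  rw [Pi.neg_apply, pr, px, oR_eq, R208.F.pb_io]
  refine (R208.F.io_mul _ _).trans ?_
  rw [Sym24.pu, Sym24.up, Dr59.inv_of_deg ((h z.1 trivial).pb _)]
  norm_num

theorem pos_sep {o' : Y'.M → Ext Y'.E} (h : Dg 3 univ o') {o : Y → Ext E3} {O : X → Ext E4}
    (hρ : Pos Y'.I (𝓡 3) ρ univ o' o) (hO : Bb31.Cy o O (J.i₁ ∘ C₁.j)) :
    Pos (IC Y'.I) (𝓡 4) (sep J ρ).n univ (pr o' oR) (-O) := by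
  rw [← pos_neg_left, ← cy_eq_neg h]
  exact (Pos.comp (f := J.i₁ ∘ C₁.j) hO (hρ.cy (fun y _ => ρ.isLocalDiffeomorph y) (g := id) (t := univ)
    (fun x _ => hasDerivAt_id x) fun _ _ => one_pos) (fun p _ => (J.o₁.comp C₁.isEnd.oe).loc p)
    (fun p _ => ((IsOE.of_diffeo ρ).prodMap IsOE.id).loc p) (mapsTo_univ _ _)).mono fun _ _ => ⟨trivial, trivial⟩

end Cap

/-! ### names and context -/

/-- the junctions -/
inductive Jn : Type
  | f | fi | c | ci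
  deriving DecidableEq

/-- the names of layer P: `f` goes from the slope `a` to the slope `a'` of the knot -/
abbrev nm (a a' : Z2) : Nm where
  ι := Bool
  J := Jn
  src
    | .f => (false, a)
    | .fi => (false, a')
    | .c => (true, (1, 1))
    | .ci => (false, (4, 1))
  tgt
    | .f => (false, a')
    | .fi => (false, a)
    | .c => (false, (4, 1))
    | .ci => (true, (1, 1))
  cap := (true, (1, 0))

/-- the knot and its cable -/
abbrev kd (k : KD) (b : Bool) : KD := cond b (cable k) k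

theorem pos_symm3 {t t' : Tube} {σ σ' : FillingData} {g : Fill t σ ≃ₘ^∞⟮𝓡 3, 𝓡 3⟯ Fill t' σ'}
    (h : Pos (𝓡 3) (𝓡 3) g univ (oF _ _) (oF _ _)) : Pos (𝓡 3) (𝓡 3) g.symm univ (oF _ _) (oF _ _) :=
  (Pos.symm (φ := g.toPartialDiffeomorph) h subset_rfl).mono fun z _ => ⟨g.symm z, trivial, g.apply_symm_apply z⟩

section Cx

variable (k : KD) {a a' : Z2} {g : Fill k.toTube (fd a) ≃ₘ^∞⟮𝓡 3, 𝓡 3⟯ Fill k.toTube (fd a')}
  (hg : Pos (𝓡 3) (𝓡 3) g univ (oF _ _) (oF _ _)) {Y : CM 3} {C₁ C₂ : End Y} {X : CM 4} [ConnectedSpace X]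
  (J : Jo C₁ C₂ X) {ρ : Fill (cable k).toTube (fd (1, 0)) ≃ₘ^∞⟮𝓡 3, 𝓡 3⟯ Y} {o : Y → Ext E3} {O : X → Ext E4}
  (hρ : Pos (𝓡 3) (𝓡 3) ρ univ (oF _ _) o) (h : Ori (𝓡 4) O) (hO : Bb31.Cy o O (J.i₁ ∘ C₁.j))

/-- THE CONTEXT of layer P -/
def cx : Cx (nm a a') where
  kd := kd k
  g
    | .f => g
    | .fi => g.symm
    | .c => (exists_gc k).choose
    | .ci => (exists_gc k).choose.symm
  pos
    | .f => hg
    | .fi => pos_symm3 hg
    | .c => (exists_gc k).choose_spec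
    | .ci => pos_symm3 (exists_gc k).choose_spec
  X0 := m4 X
  S := sep J (Y' := mF (Γ := nm a a') (kd k) (true, (1, 0))) ρ
  o0 := O
  ori := h
  pS := pos_sep J (Y' := mF (Γ := nm a a') (kd k) (true, (1, 0))) ρ (dg_oF _ _) hρ hO

theorem inv_f : (cx k hg J hρ h hO).Inv .f .fi := ⟨_, .jn (C := cx k hg J hρ h hO) .fi, g.symm_apply_apply⟩

theorem inv_fi : (cx k hg J hρ h hO).Inv .fi .f := ⟨_, .jn (C := cx k hg J hρ h hO) .f, g.apply_symm_apply⟩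

theorem inv_c : (cx k hg J hρ h hO).Inv .c .ci :=
  ⟨_, .jn (C := cx k hg J hρ h hO) .ci, (exists_gc k).choose.symm_apply_apply⟩

end Cx

/-- the cap slope in the standard filling data -/
def ρ0 (k : KD) : Fill (cable k).toTube (fd (1, 0)) ≃ₘ^∞⟮𝓡 3, 𝓡 3⟯ Fill (cable k).toTube ⟨0, 1, 1, 0, by norm_num⟩ :=
  ((cable k).toTube.signRep _ _ (.inl rfl) (by simpa using (fd_p (pr_of isCoprime_one_right)).1)
    (by simpa using (fd_p (pr_of isCoprime_one_right)).2)).diffeo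

theorem ρ0_ie (k : KD) (x : (cable k).Ext) : ρ0 k ((cable k).ie _ x) = (cable k).ie _ x :=
  Ext52.Tube.Rep.diffeo_ie _ x

theorem pos_ρ0 (k : KD) : Pos (𝓡 3) (𝓡 3) (ρ0 k) univ (oF _ _) (oF _ _) := by
  have l := (ρ0 k).isLocalDiffeomorph
  have x : (cable k).Ext := (cable k).τE ⟨(1, 1), one_ne_zero⟩
  refine pos_of_pt isPreconnected_univ (oriOn (ori_oF _ _) _) (oriOn (ori_oF _ _) univ) (fun z _ => l z)
    (mapsTo_univ _ _) (mem_univ ((cable k).ie _ x)) (Pos.mono (Pos.of_comp (g := (cable k).ie _) (t := univ)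
      (by rw [show ρ0 k ∘ (cable k).ie _ = (cable k).ie _ from funext (ρ0_ie k)]; exact oF_ie _ _) (oF_ie _ _)
      (fun _ _ => l _) fun z _ => ((cable k).two _).ld_inl z) (by simp))

end Crest.Agent.X212.Wd38
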