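import Crest.Agent.X212.Nm96.Ch

/-!
# X212 / Wd38, part Pt (helper38): patterns of rods, insertion of turns and of junctions (pure data)

* `ix`, `sum_pt` : break points; `Rd` (constant rod), `Pt` (pattern), `Pt.sum`, `Pt.tok`, `Pt.par`;
* `patch` : local change of a word with its line; `put` (turn), `can` (junction and inverse).
-/

set_option autoImplicit false
noncomputable section

namespace Crest.Agent.X212.Wd38

open Crest.Agent.X212.Rod53 Crest.Agent.X212.Nm96 Finset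

variable {Γ : Nm}

/-! ### break points -/

section ix
variable {t : ℕ → ℤ}

theorem ex_ix (ht : StrictMono t) (j : ℤ) : ∃ k, j < t (k + 1) := by
  have h : ∀ k : ℕ, t 0 + k ≤ t k := fun k => by
    induction k with
    | zero => simp
    | succ k ih => have := ht (Nat.lt_add_one k); push_cast; omega
  exact ⟨(j - t 0).toNat, by have := h ((j - t 0).toNat + 1); omega⟩

open Classical in
/-- the index of the rod of the slot `j` -/
def ix (t : ℕ → ℤ) (j : ℤ) : ℕ := if h : ∃ k, j < t (k + 1) then Nat.find h else 0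

theorem lt_ix (ht : StrictMono t) (j : ℤ) : j < t (ix t j + 1) := by
  rw [ix, dif_pos (ex_ix ht j)]
  exact Nat.find_spec (ex_ix ht j)

theorem ix_le (ht : StrictMono t) {j : ℤ} (h : t 0 ≤ j) : t (ix t j) ≤ j := by
  rw [ix, dif_pos (ex_ix ht j)]
  rcases e : Nat.find (ex_ix ht j) with _ | k
  · exact h
  · exact not_lt.1 (Nat.find_min (ex_ix ht j) (by omega))

theorem ix_eq (ht : StrictMono t) {j : ℤ} {k : ℕ} (h : t k ≤ j) (h' : j < t (k + 1)) : ix t j = k := by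
  have a := ht.lt_iff_lt.1 (h.trans_lt (lt_ix ht j))
  have b := ht.lt_iff_lt.1 ((ix_le ht ((ht.monotone k.zero_le).trans h)).trans_lt h')
  omega

theorem sum_pt {M : Type*} [AddCommMonoid M] (ht : StrictMono t) {G : ℤ → M} {k0 k1 : ℕ} {a b : ℤ}
    (h0 : t k0 ≤ a) (h0' : a < t (k0 + 1)) (h1 : t k1 ≤ b) (h1' : b < t (k1 + 1))
    (hG : ∀ k ≤ k1, ∀ j, t k < j → j < t (k + 1) → G j = 0) :
    ∑ c ∈ Ioc a b, G c = ∑ k ∈ Ioc k0 k1, G (t k) := by
  rw [← sum_image (s := Ioc k0 k1) (f := G) (g := t) ht.injective.injOn]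
  refine (sum_subset (fun c hc => ?_) fun c hc hc' => ?_).symm
  · obtain ⟨k, hk, rfl⟩ := mem_image.1 hc
    rw [mem_Ioc] at hk ⊢
    exact ⟨h0'.trans_le (ht.monotone hk.1), (ht.monotone hk.2).trans h1⟩
  · rw [mem_Ioc] at hc
    have a0 := ix_le ht ((ht.monotone k0.zero_le).trans (h0.trans hc.1.le))
    have a1 := lt_ix ht c
    have a2 : ix t c ≤ k1 := Nat.lt_succ_iff.1 (ht.lt_iff_lt.1 (a0.trans_lt (hc.2.trans_lt h1')))
    refine hG _ a2 c (a0.lt_of_ne fun e => hc' (mem_image.2 ⟨_, mem_Ioc.2 ⟨?_, a2⟩, e⟩)) a1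
    exact ht.lt_iff_lt.1 (by rw [e]; exact h0.trans_lt hc.1)

end ix

/-! ### small facts on vectors -/

theorem dt_self (u : Z2) : dt u u = 0 := by unfold dt; ring

theorem dt_neg_self (u : Z2) : dt (-u) u = 0 := by unfold dt; simp only [Prod.fst_neg, Prod.snd_neg]; ring

theorem Pr.ne_neg {u : Z2} (h : Pr u) : u ≠ -u := fun e => by
  obtain ⟨b, hb⟩ := h
  have h1 := congrArg Prod.fst e
  have h2 := congrArg Prod.snd e
  simp only [Prod.fst_neg, Prod.snd_neg] at h1 h2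
  unfold Uni dt at hb
  rw [show u.1 = 0 by omega, show u.2 = 0 by omega] at hb
  omega

theorem uni_ne {u v : Z2} (h : Uni u v) : u ≠ v ∧ u ≠ -v := by
  refine ⟨fun e => ?_, fun e => ?_⟩ <;> rw [e, Uni] at h
  · rw [dt_self] at h; omega
  · rw [dt_neg_self] at h; omega

theorem uni_pr {u v : Z2} (h : Uni u v) : Pr u ∧ Pr v :=
  ⟨⟨v, h⟩, ⟨u, by unfold Uni dt at *; rcases h with h | h <;> [right; left] <;> linarith⟩⟩

/-! ### rods and patterns -/

variable {w w' : Shp Γ} {n n' : Wt} {κ : Γ.ι} {Λ : NmL Γ}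

/-- the constant rod `u` of order `μ` on the slots `a, …, b` -/
def Rd (w : Shp Γ) (n : Wt) (κ : Γ.ι) (u : Z2) (μ a b : ℤ) : Prop :=
  ∀ j, a ≤ j → j ≤ b → w.s j = .rod (κ, u) ∧ n.nl j = μ ∧ n.nr j = μ

theorem Rd.mono {u : Z2} {μ a b a' b' : ℤ} (h : Rd w n κ u μ a b) (ha : a ≤ a') (hb : b' ≤ b) :
    Rd w n κ u μ a' b' := fun j h1 h2 => h j (ha.trans h1) (h2.trans hb)

/-- the two pairs agree on the slots in `s` -/
def Aq (w w' : Shp Γ) (n n' : Wt) (s : ℤ → Prop) : Prop :=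
  ∀ j, s j → w'.s j = w.s j ∧ n'.nl j = n.nl j ∧ n'.nr j = n.nr j

theorem Aq.mono {s s' : ℤ → Prop} (h : Aq w w' n n' s) (k : ∀ j, s' j → s j) : Aq w w' n n' s' :=
  fun j hj => h j (k j hj)

theorem Rd.ag {u : Z2} {μ a b : ℤ} {s : ℤ → Prop} (h : Rd w n κ u μ a b) (k : Aq w w' n n' s)
    (e : ∀ j, a ≤ j → j ≤ b → s j) : Rd w' n' κ u μ a b := fun j h1 h2 => by
  obtain ⟨a1, a2, a3⟩ := k j (e j h1 h2)
  rw [a1, a2, a3]
  exact h j h1 h2

/-- the rods `v k` of order `m k` on the slots `t k, …, t (k + 1) - 1` -/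
structure Pt (w : Shp Γ) (n : Wt) (κ : Γ.ι) (t : ℕ → ℤ) (v : ℕ → Z2) (m : ℕ → ℤ) (N : ℕ) : Prop where
  mono : StrictMono t
  lo : w.l < t 0
  hi : t (N + 1) ≤ w.r
  rd : ∀ k ≤ N, Rd w n κ (v k) (m k) (t k) (t (k + 1) - 1)

namespace Pt

variable {t : ℕ → ℤ} {v : ℕ → Z2} {m : ℕ → ℤ} {N k : ℕ} {j : ℤ} (h : Pt w n κ t v m N)
include h

theorem lt (k : ℕ) : t k < t (k + 1) := h.mono k.lt_succ_self

theorem s (hk : k ≤ N) (a : t k ≤ j) (b : j < t (k + 1)) : w.s j = .rod (κ, v k) :=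
  (h.rd k hk j a (by omega)).1

theorem nl (hk : k ≤ N) (a : t k ≤ j) (b : j < t (k + 1)) : n.nl j = m k := (h.rd k hk j a (by omega)).2.1

theorem nr (hk : k ≤ N) (a : t k ≤ j) (b : j < t (k + 1)) : n.nr j = m k := (h.rd k hk j a (by omega)).2.2

theorem rt (hk : k ≤ N) (a : t k ≤ j) (b : j < t (k + 1)) : w.rt j = v k := by
  rw [Shp.rt, h.s hk a b]; rfl

theorem lf (hk : k ≤ N) (a : t k < j) (b : j ≤ t (k + 1)) : w.lf j = v k := by
  rw [Shp.lf, h.s hk (by omega) (by omega)]; rfl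

theorem ag {s : ℤ → Prop} (k : Aq w w' n n' s) (l : w'.l = w.l) (r : w'.r = w.r)
    (e : ∀ j, t 0 ≤ j → j < t (N + 1) → s j) : Pt w' n' κ t v m N :=
  ⟨h.mono, l ▸ h.lo, r ▸ h.hi, fun i hi => (h.rd i hi).ag k fun j a b => e j
    ((h.mono.monotone i.zero_le).trans a) (by have := h.mono.monotone (Nat.add_le_add_right hi 1); omega)⟩

/-- all slots are rods -/
theorem rod (a : t 0 ≤ j) (b : j < t (N + 1)) : ix t j ≤ N ∧ w.s j = .rod (κ, v (ix t j)) :=
  have k := Nat.lt_succ_iff.1 (h.mono.lt_iff_lt.1 ((ix_le h.mono a).trans_lt b))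
  ⟨k, h.s k (ix_le h.mono a) (lt_ix h.mono j)⟩

theorem rg {x y : ℤ} (a : t 0 - 1 ≤ x) (b : x < y) (c : y ≤ t (N + 1)) : w.Rg x y :=
  ⟨by have := h.lo; omega, b, c.trans h.hi, fun j d e => ⟨_, (h.rod (by omega) (by omega)).2⟩⟩

/-- sums over the vertices -/
theorem sum {M : Type*} [AddCommMonoid M] {m' : ℕ → ℤ} (h' : Pt w n' κ t v m' N)
    (φ : Z2 → Z2 → ℤ → ℤ → ℤ → ℤ → M) (hφ : ∀ u x y x' y', φ u u x y x' y' = 0) {k0 k1 : ℕ} {a b : ℤ}
    (hk : k1 ≤ N) (h0 : t k0 ≤ a) (h0' : a < t (k0 + 1)) (h1 : t k1 ≤ b) (h1' : b < t (k1 + 1)) :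
    ∑ c ∈ Ioc a b, φ (w.lf c) (w.rt c) (n.nr (c - 1)) (n.nl c) (n'.nr (c - 1)) (n'.nl c) =
      ∑ k ∈ Ioc k0 k1, φ (v (k - 1)) (v k) (m (k - 1)) (m k) (m' (k - 1)) (m' k) := by
  rw [sum_pt h.mono h0 h0' h1 h1' fun k hk' j a b => by
    rw [h.lf (hk'.trans hk) a b.le, h.rt (hk'.trans hk) a.le b, hφ]]
  refine sum_congr rfl fun k hk' => ?_
  rw [mem_Ioc] at hk'
  obtain ⟨k, rfl⟩ : ∃ k', k = k' + 1 := ⟨k - 1, by omega⟩
  have a := h.lt k
  have b := h.lt (k + 1)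
  have c : k + 1 ≤ N := by omega
  rw [Nat.add_sub_cancel, h.lf (by omega) a le_rfl, h.rt c le_rfl b, h.nl c le_rfl b, h'.nl c le_rfl b,
    h.nr (k := k) (by omega) (by omega) (by omega), h'.nr (k := k) (by omega) (by omega) (by omega)]

/-- every toric class is constant on the rods -/
theorem tok (k : TOK w n') : Pt w n' κ t v (fun k => n'.nl (t k)) N := by
  refine ⟨h.mono, h.lo, h.hi, fun i hi j a b => ?_⟩
  have l0 := h.mono.monotone i.zero_le
  have r0 := h.mono.monotone (Nat.succ_le_succ hi)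
  have := h.lo
  have := h.hi
  have q : ∀ j, t i ≤ j → j < t (i + 1) → n'.nl j = n'.nr j := fun j a b =>
    k.rod j _ (by omega) (by simp only [Nat.succ_eq_add_one] at r0; omega) (h.s hi a b)
  have e : n'.nl j = n'.nl (t i) := by
    induction j, a using Int.leInduction with
    | base => rfl
    | succ j a ih =>
      rw [← ih (by omega), q j a (by omega), ← k.eq (j + 1) (by omega)
        (by simp only [Nat.succ_eq_add_one] at r0; omega)
        (by rw [h.lf hi (by omega) (by omega), h.rt hi (by omega) (by omega)]), add_sub_cancel_right]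
  exact ⟨h.s hi a (by omega), e, by rw [← q j a (by omega), e]⟩

theorem par (p : Par w n n') (hk : k ≤ N) : Even (n'.nl (t k) - m k - (v k).1 * (v k).2) := by
  have := h.mono.monotone k.zero_le
  have := h.mono (Nat.lt_succ_of_le hk)
  have := h.lo
  have := h.hi
  have a := p.l (t k) (by omega) (by simp only [Nat.succ_eq_add_one] at *; omega)
  rwa [h.nl hk le_rfl (h.lt k), h.s hk le_rfl (h.lt k)] at a

end Pt

/-! ### local changes -/

/-- the conditions at the integer point `j` -/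
def Vc (w : Shp Γ) (n : Wt) (j : ℤ) : Prop := Stp (w.s (j - 1)).r (w.s j).l ∧
  (w.lf j = w.rt j → n.nr (j - 1) = n.nl j) ∧ (w.lf j = -w.rt j → n.nr (j - 1) = -n.nl j)

/-- the conditions in the slot `j` -/
def Sc (Λ : NmL Γ) (w : Shp Γ) (n : Wt) (j : ℤ) : Prop := (Pr (w.s j).l.2 ∧ Pr (w.s j).r.2) ∧
  (∀ τ, w.s j = .rod τ → n.nl j = n.nr j) ∧ ∀ J, w.s j = .jn J → Λ.ok J (n.nl j) (n.nr j)

theorem vc_of {j : ℤ} {τ τ' : Γ.ι × Z2} {μ μ' : ℤ} (a : (w.s (j - 1)).r = τ) (b : (w.s j).l = τ')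
    (c : n.nr (j - 1) = μ) (d : n.nl j = μ') (p : Pr τ.2) (e : τ.1 = τ'.1)
    (h : (τ.2 = τ'.2 ∧ μ = μ') ∨ (τ.2 = -τ'.2 ∧ μ = -μ') ∨ Uni τ.2 τ'.2) : Vc w n j := by
  rw [Vc, Shp.lf, Shp.rt, a, b, c, d]
  rcases h with ⟨h, k⟩ | ⟨h, k⟩ | h
  · exact ⟨⟨e, .inl (.inl h)⟩, fun _ => k, fun q => (p.ne_neg (q.trans (by rw [h]))).elim⟩
  · exact ⟨⟨e, .inl (.inr h)⟩, fun q => (p.ne_neg (h.trans (by rw [q]))).elim, fun _ => k⟩
  · exact ⟨⟨e, .inr h⟩, fun q => ((uni_ne h).1 q).elim, fun q => ((uni_ne h).2 q).elim⟩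

theorem patch {x y : ℤ} (h : w.OK) (k : n.OK w Λ) (l : w'.l = w.l) (r : w'.r = w.r) (hx : w.l ≤ x)
    (hy : y ≤ w.r) (e : Aq w w' n n' fun j => j ≤ x ∨ y ≤ j) (s : ∀ j, x < j → j < y → Sc Λ w' n' j)
    (c : ∀ j, x < j → j ≤ y → Vc w' n' j) : w'.OK ∧ n'.OK w' Λ := by
  have S : ∀ j, w.l < j → j < w.r → Sc Λ w' n' j := fun j a b => by
    by_cases q : j ≤ x ∨ y ≤ j
    · obtain ⟨a1, a2, a3⟩ := e j q
      rw [Sc, a1, a2, a3]
      exact ⟨h.pr j a.le b.le, fun τ => k.rod j τ a b, fun J => k.jn j J a b⟩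
    · exact s j (by omega) (by omega)
  have V : ∀ j, w.l < j → j ≤ w.r → Vc w' n' j := fun j a b => by
    by_cases q : j ≤ x ∨ y < j
    · obtain ⟨a1, a2, -⟩ := e j (by omega)
      obtain ⟨b1, -, b3⟩ := e (j - 1) (by omega)
      rw [Vc, Shp.lf, Shp.rt, a1, a2, b1, b3]
      exact ⟨h.st j a b, k.eq j a b, k.neg j a b⟩
    · exact c j (by omega) (by omega)
  have L := e w.l (.inl hx)
  have R := e w.r (.inr hy)
  refine ⟨⟨by rw [l, r]; exact h.lt, by rw [l, L.1, h.sl], by rw [r, R.1, h.sr], fun j a b => ?_,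
    fun j a b => (V j (l ▸ a) (r ▸ b)).1⟩, ⟨by rw [l, L.2.2, k.sl], by rw [r, R.2.1, k.sr],
    fun j τ a b => (S j (l ▸ a) (r ▸ b)).2.1 τ, fun j J a b => (S j (l ▸ a) (r ▸ b)).2.2 J,
    fun j a b => (V j (l ▸ a) (r ▸ b)).2.1, fun j a b => (V j (l ▸ a) (r ▸ b)).2.2⟩⟩
  by_cases q : j ≤ x ∨ y ≤ j
  · rw [(e j q).1]; exact h.pr j (l ▸ a) (r ▸ b)
  · exact (s j (by omega) (by omega)).1

/-! ### insertion of a turn -/

section put
variable {t : ℕ → ℤ} {v : ℕ → Z2} {m : ℕ → ℤ} {N : ℕ}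

/-- the word with a turn on the slots strictly between `t 0` and `t (N + 1)` -/
def Shp.put (w : Shp Γ) (κ : Γ.ι) (t : ℕ → ℤ) (v : ℕ → Z2) (N : ℕ) : Shp Γ :=
  ⟨w.l, w.r, fun j => if t 0 < j ∧ j < t (N + 1) then .rod (κ, v (ix t j)) else w.s j⟩

/-- its line -/
def Wt.put (t : ℕ → ℤ) (m : ℕ → ℤ) (N : ℕ) (n : Wt) : Wt :=
  { n with
    nl := fun j => if t 0 < j ∧ j < t (N + 1) then m (ix t j) else n.nl j
    nr := fun j => if t 0 < j ∧ j < t (N + 1) then m (ix t j) else n.nr j }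

theorem put_ag (n : Wt) : Aq w (w.put κ t v N) n (n.put t m N) fun j => j ≤ t 0 ∨ t (N + 1) ≤ j :=
  fun j h => by
    have : ¬(t 0 < j ∧ j < t (N + 1)) := by omega
    simp only [Shp.put, Wt.put, if_neg this, and_self]

theorem put_chg : Chg ∅ 0 (t 0) (t (N + 1)) (Wt.put t m N) :=
  ⟨fun n j => ⟨fun h => if_neg (by omega), fun h => if_neg (by omega)⟩, by simp⟩

/-- the data of a turn on a constant rod -/
structure Tn (w : Shp Γ) (n : Wt) (κ : Γ.ι) (t : ℕ → ℤ) (v : ℕ → Z2) (m : ℕ → ℤ) (N : ℕ) : Prop where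
  mono : StrictMono t
  lo : w.l < t 0
  hi : t (N + 1) < w.r
  rd : Rd w n κ (v 0) (m 0) (t 0) (t (N + 1))
  uni : ∀ k < N, Uni (v k) (v (k + 1))
  vN : v N = -v 0
  mN : m N = -m 0

namespace Tn

variable (h : Tn w n κ t v m N)
include h

theorem lt : t 0 < t (N + 1) := h.mono N.succ_pos

theorem pt : Pt (w.put κ t v N) (n.put t m N) κ t v m N := by
  refine ⟨h.mono, h.lo, h.hi.le, fun k hk j a b => ?_⟩
  have e := ix_eq h.mono a (show j < t (k + 1) by omega)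
  have := h.mono.monotone k.zero_le
  have := h.mono.monotone (Nat.succ_le_succ hk)
  by_cases q : t 0 < j
  · have : t 0 < j ∧ j < t (N + 1) := ⟨q, by simp only [Nat.succ_eq_add_one] at *; omega⟩
    simp only [Shp.put, Wt.put, if_pos this, e, and_self]
  · obtain rfl : j = t 0 := by omega
    obtain rfl : k = 0 := by rw [← e]; exact ix_eq h.mono le_rfl (h.mono Nat.zero_lt_one)
    exact (h.rd.mono le_rfl h.lt.le).ag (put_ag n) (fun j a b => .inl b) _ le_rfl le_rfl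

theorem rdN : Rd (w.put κ t v N) (n.put t m N) κ (v 0) (m 0) (t (N + 1)) (t (N + 1)) :=
  (h.rd.mono h.lt.le le_rfl).ag (put_ag n) fun _ a _ => .inr a

theorem sur : (w.put κ t v N).Sur w (t 0) (t (N + 1)) :=
  ⟨rfl, rfl, h.pt.rg (by omega) h.lt le_rfl, ⟨h.lo.le, h.lt, h.hi.le, fun j a b => ⟨_, (h.rd j a.le b.le).1⟩⟩,
    fun j q => ((put_ag (m := m) n) j q).1.symm⟩

theorem ok (a : w.OK) (b : n.OK w Λ) : (w.put κ t v N).OK ∧ (n.put t m N).OK (w.put κ t v N) Λ := by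
  have p := h.pt
  have p0 : Pr (v 0) := by
    have := (a.pr (t 0) h.lo.le (h.lt.trans h.hi).le).1
    rwa [(h.rd _ le_rfl h.lt.le).1] at this
  have pr : ∀ k ≤ N, Pr (v k) := fun k hk => by
    rcases k with _ | k
    exacts [p0, (uni_pr (h.uni k hk)).2]
  refine patch a b rfl rfl h.lo.le h.hi.le (put_ag n) (fun j c d => ?_) fun j c d => ?_
  · obtain ⟨q, e⟩ := p.rod c.le d
    have i1 := ix_le h.mono c.le
    have i2 := lt_ix h.mono j
    rw [Sc, e, p.nl q i1 i2, p.nr q i1 i2]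
    exact ⟨⟨pr _ q, pr _ q⟩, fun _ _ => rfl, fun _ => nofun⟩
  · obtain ⟨q, e⟩ := p.rod (j := j - 1) (by omega) (by omega)
    have i1 := ix_le h.mono (show t 0 ≤ j - 1 by omega)
    have i2 := lt_ix h.mono (j - 1)
    generalize ix t (j - 1) = k at *
    have e1 := congrArg Sl.r e
    rcases (show j < t (k + 1) ∨ j = t (k + 1) by omega) with c' | rfl
    · exact vc_of e1 (congrArg Sl.l (p.s q (by omega) c')) (p.nr q i1 i2) (p.nl q (by omega) c') (pr k q) rfl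
        (.inl ⟨rfl, rfl⟩)
    · rcases q.lt_or_eq with q' | rfl
      · exact vc_of e1 (congrArg Sl.l (p.s q' le_rfl (p.lt _))) (p.nr q i1 i2) (p.nl q' le_rfl (p.lt _))
          (pr k q) rfl (.inr (.inr (h.uni k q')))
      · obtain ⟨r1, r2, -⟩ := h.rdN _ le_rfl le_rfl
        exact vc_of e1 (congrArg Sl.l r1) (p.nr q i1 i2) r2 (pr _ q) rfl (.inr (.inl ⟨h.vN, h.mN⟩))

end Tn

end put

/-! ### insertion of a junction and its inverse -/

section can
variable {J J' : Γ.J} {x y μ μ' : ℤ}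

/-- the word with `J` in the slot `x`, `J'` in the slot `y` -/
def Shp.can (w : Shp Γ) (J J' : Γ.J) (x y : ℤ) : Shp Γ :=
  ⟨w.l, w.r, fun j => if j = x then .jn J else if j = y then .jn J' else
    if x < j ∧ j < y then .rod (Γ.tgt J) else w.s j⟩

/-- its line -/
def Wt.can (x y μ' : ℤ) (n : Wt) : Wt :=
  { n with
    nl := fun j => if x < j ∧ j ≤ y then μ' else n.nl j
    nr := fun j => if x ≤ j ∧ j < y then μ' else n.nr j }

theorem can_ag (n : Wt) (h : x < y) : Aq w (w.can J J' x y) n (n.can x y μ') fun j => j < x ∨ y < j :=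
  fun j q => by
    simp only [Shp.can, Wt.can]
    rw [if_neg (by omega), if_neg (by omega), if_neg (by omega), if_neg (by omega), if_neg (by omega)]
    exact ⟨rfl, rfl, rfl⟩

theorem can_chg : Chg ∅ 1 x y (Wt.can x y μ') :=
  ⟨fun n j => ⟨fun h => if_neg (by omega), fun h => if_neg (by omega)⟩, by simp⟩

theorem can_rd (n : Wt) : Rd (w.can J J' x y) (n.can x y μ') (Γ.tgt J).1 (Γ.tgt J).2 μ' (x + 1) (y - 1) :=
  fun j a b => by
    simp only [Shp.can, Wt.can]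
    rw [if_neg (by omega), if_neg (by omega), if_pos (by omega), if_pos (by omega), if_pos (by omega)]
    exact ⟨rfl, rfl, rfl⟩

theorem can_x (n : Wt) (h : x < y) : (w.can J J' x y).s x = .jn J ∧ (n.can x y μ').nl x = n.nl x ∧
    (n.can x y μ').nr x = μ' := ⟨if_pos rfl, if_neg (by omega), if_pos (by omega)⟩

theorem can_y (n : Wt) (h : x < y) : (w.can J J' x y).s y = .jn J' ∧ (n.can x y μ').nl y = μ' ∧
    (n.can x y μ').nr y = n.nr y :=
  ⟨(if_neg (by omega)).trans (if_pos rfl), if_pos (by omega), if_neg (by omega)⟩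

theorem can_can (lo : w.l < x - 1) (lt : x < y) (hi : y + 1 < w.r)
    (h : Rd w n (Γ.src J).1 (Γ.src J).2 μ (x - 1) (y + 1)) : w.Can (w.can J J' x y) J J' x y :=
  ⟨rfl, rfl, by omega, lt, by omega, fun j a b => (h j (by omega) (by omega)).1, (can_x (μ' := 0) n lt).1,
    (can_y (μ' := 0) n lt).1, fun j a b => (can_rd (μ' := 0) n j (by omega) (by omega)).1,
    fun j q => (can_ag (μ' := 0) n lt j q).1⟩

theorem can_ok (a : w.OK) (b : n.OK w Λ) (lo : w.l < x - 1) (lt : x + 1 < y) (hi : y + 1 < w.r)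
    (h : Rd w n (Γ.src J).1 (Γ.src J).2 μ (x - 1) (y + 1)) (s' : Γ.src J' = Γ.tgt J) (t' : Γ.tgt J' = Γ.src J)
    (p : Pr (Γ.tgt J).2) (o : Λ.ok J μ μ') (o' : Λ.ok J' μ' μ) :
    (w.can J J' x y).OK ∧ (n.can x y μ').OK (w.can J J' x y) Λ := by
  have l0 : x < y := by omega
  have p0 : Pr (Γ.src J).2 := by
    have := (a.pr x (by omega) (by omega)).1
    rwa [(h x (by omega) (by omega)).1] at this
  obtain ⟨x1, x2, x3⟩ := can_x (w := w) (J := J) (J' := J') (μ' := μ') n l0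
  obtain ⟨y1, y2, y3⟩ := can_y (w := w) (J := J) (J' := J') (μ' := μ') n l0
  rw [(h x (by omega) (by omega)).2.1] at x2
  rw [(h y (by omega) (by omega)).2.2] at y3
  have rd := can_rd (w := w) (J := J) (J' := J') (x := x) (y := y) (μ' := μ') n
  have ag := can_ag (w := w) (J := J) (J' := J') (μ' := μ') n l0
  refine patch (x := x - 1) (y := y + 1) a b rfl rfl lo.le hi.le (ag.mono fun j q => by omega)
    (fun j c d => ?_) fun j c d => ?_
  · rcases (show j = x ∨ j = y ∨ (x < j ∧ j < y) by omega) with rfl | rfl | q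
    · rw [Sc, x1, x2, x3]
      exact ⟨⟨p0, p⟩, fun _ => nofun, fun _ e => by cases e; exact o⟩
    · rw [Sc, y1, y2, y3]
      exact ⟨⟨(congrArg (Pr ·.2) s').mpr p, (congrArg (Pr ·.2) t').mpr p0⟩, fun _ => nofun, fun _ e => by cases e; exact o'⟩
    · obtain ⟨r1, r2, r3⟩ := rd j (by omega) (by omega)
      rw [Sc, r1, r2, r3]
      exact ⟨⟨p, p⟩, fun _ _ => rfl, fun _ => nofun⟩
  · have L : j ≠ x → j ≠ y + 1 → ((w.can J J' x y).s (j - 1)).r = Γ.tgt J ∧ (n.can x y μ').nr (j - 1) = μ' :=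
      fun u v => by
        rcases (show j - 1 = x ∨ x < j - 1 by omega) with e | e
        · rw [e, x1]; exact ⟨rfl, x3⟩
        · exact ⟨congrArg Sl.r (rd _ (by omega) (by omega)).1, (rd _ (by omega) (by omega)).2.2⟩
    have R : j ≠ x → j ≠ y + 1 → ((w.can J J' x y).s j).l = Γ.tgt J ∧ (n.can x y μ').nl j = μ' :=
      fun u v => by
        rcases (show j = y ∨ j < y by omega) with e | e
        · rw [e, y1]; exact ⟨s', y2⟩
        · exact ⟨congrArg Sl.l (rd _ (by omega) (by omega)).1, (rd _ (by omega) (by omega)).2.1⟩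
    by_cases u : j = x
    · subst u
      obtain ⟨r1, -, r3⟩ := (h.mono le_rfl (show j - 1 ≤ _ by omega)).ag ag (fun i _ q => .inl (by omega)) _
        le_rfl le_rfl
      exact vc_of (congrArg Sl.r r1) (congrArg Sl.l x1) r3 x2 p0 rfl (.inl ⟨rfl, rfl⟩)
    by_cases v : j = y + 1
    · subst v
      obtain ⟨r1, r2, -⟩ := (h.mono (show _ ≤ y + 1 by omega) le_rfl).ag ag (fun i q _ => .inr (by omega)) _
        le_rfl le_rfl
      refine vc_of (τ := Γ.src J) ?_ (congrArg Sl.l r1) (μ := μ) ?_ r2 p0 rfl (.inl ⟨rfl, rfl⟩) <;>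
        rw [add_sub_cancel_right]
      exacts [(congrArg Sl.r y1).trans t', y3]
    · exact vc_of (L u v).1 (R u v).1 (L u v).2 (R u v).2 p rfl (.inl ⟨rfl, rfl⟩)

end can

end Crest.Agent.X212.Wd38
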