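import Crest.Agent.X212.Rod53.Word

/-!
# X212 / Wd38, part Defs (helper38): words, weights, walls, numbers (pure data)

Time is cut in slots `(j, j + 1)`, `j : ℤ`.  A slot is a piece of rod or a junction (a diffeomorphism of fillings,
acting over `(j + 1/4, j + 3/4)`).  The caps are glued over the slots `l` and `r`.  Vertices sit at integers.
* `Nm`, `Sl`, `Shp`, `Shp.OK`, `Shp.Rg x y` (junction free range), `Shp.bw x y` (its rods), `Shp.Agr`;
* `Wt` (weights of a line), `Wt.OK`, `Wt.Agr`;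
* `Bs`, `Tw`, `Wl` (walls), `WT` (their types), `Far` (sufficient for compatibility), `Bs.side`;
* numbers `nn`, `hh`, `sq`, `dg` (orientation `dt ∧ o`: upward handles are negative definite).
-/

set_option autoImplicit false

namespace Crest.Agent.X212.Wd38

open Crest.Agent.X212.Rod53

/-- names: knots, junctions with their source and target (knot, slope `(q, p)`), the type of the caps -/
structure Nm : Type 1 where
  ι : Type
  J : Type
  src : J → ι × Z2
  tgt : J → ι × Z2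
  cap : ι × Z2

/-- slots -/
inductive Sl (Γ : Nm) : Type
  | rod (τ : Γ.ι × Z2)
  | jn (j : Γ.J)

variable {Γ : Nm}

/-- the type of the left part of a slot -/
def Sl.l : Sl Γ → Γ.ι × Z2
  | .rod τ => τ
  | .jn j => Γ.src j

/-- the type of the right part of a slot -/
def Sl.r : Sl Γ → Γ.ι × Z2
  | .rod τ => τ
  | .jn j => Γ.tgt j

/-- primitive vectors -/
def Pr (a : Z2) : Prop := ∃ b, Uni a b

/-- a step at an integer point: nothing (up to sign), or a vertex -/
def Stp {ι : Type} (u v : ι × Z2) : Prop := u.1 = v.1 ∧ (PM u.2 v.2 ∨ Uni u.2 v.2)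

variable (Γ) in
/-- the shape of a word -/
structure Shp where
  l : ℤ
  r : ℤ
  s : ℤ → Sl Γ

namespace Shp

variable (w : Shp Γ)

structure OK : Prop where
  lt : w.l < w.r
  sl : w.s w.l = .rod Γ.cap
  sr : w.s w.r = .rod Γ.cap
  pr : ∀ j, w.l ≤ j → j ≤ w.r → Pr (w.s j).l.2 ∧ Pr (w.s j).r.2
  st : ∀ j, w.l < j → j ≤ w.r → Stp (w.s (j - 1)).r (w.s j).l

/-- a range of slots without junction in its interior -/
structure Rg (x y : ℤ) : Prop where
  lo : w.l ≤ x
  lt : x < y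
  hi : y ≤ w.r
  fr : ∀ j, x < j → j < y → ∃ τ, w.s j = .rod τ

/-- the knot of a range -/
def kn (x : ℤ) : Γ.ι := (w.s x).r.1

/-- the rods of a range -/
def bw (x y j : ℤ) : Z2 := if j ≤ x then (w.s x).r.2 else (w.s (min j y)).l.2

/-- the rod left of the integer point `c` -/
def lf (c : ℤ) : Z2 := (w.s (c - 1)).r.2

/-- the rod right of the integer point `c` -/
def rt (c : ℤ) : Z2 := (w.s c).l.2

/-- `c` is a vertex -/
def Vx (c : ℤ) : Prop := w.l < c ∧ c ≤ w.r ∧ Uni (w.lf c) (w.rt c)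

/-- `w'` is the translate of `w` by `d` from the right part of the slot `x` to the left part of the slot `y` -/
structure Agr (w' : Shp Γ) (d x y : ℤ) : Prop where
  lo : (w'.s (x + d)).r = (w.s x).r
  mid : ∀ j, x < j → j < y → w'.s (j + d) = w.s j
  hi : (w'.s (y + d)).l = (w.s y).l

/-- surgery: `w'` differs from `w` only strictly between the slots `x` and `y` of a junction free range -/
structure Sur (w' : Shp Γ) (x y : ℤ) : Prop where
  l : w'.l = w.l
  r : w'.r = w.r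
  rg : w.Rg x y
  rg' : w'.Rg x y
  eq : ∀ j, j ≤ x ∨ y ≤ j → w'.s j = w.s j

/-- cancellation: `w` is the rod `src J` on the slots `x, …, y`; `w'` has there `J`, the rod `tgt J`, `J'` -/
structure Can (w' : Shp Γ) (J J' : Γ.J) (x y : ℤ) : Prop where
  l : w'.l = w.l
  r : w'.r = w.r
  lo : w.l < x
  lt : x < y
  hi : y < w.r
  rod : ∀ j, x ≤ j → j ≤ y → w.s j = .rod (Γ.src J)
  x' : w'.s x = .jn J
  y' : w'.s y = .jn J'
  rod' : ∀ j, x < j → j < y → w'.s j = .rod (Γ.tgt J)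
  eq : ∀ j, j < x ∨ y < j → w'.s j = w.s j

/-- a list of slots starting at `l` -/
def ofList (l : ℤ) (L : List (Sl Γ)) : Shp Γ :=
  ⟨l, l + L.length - 1, fun j => L.getD (j - l).toNat (.rod Γ.cap)⟩

end Shp

/-! ### weights -/

/-- the orders of a line along the left and right parts of the slots, and the twists at the caps -/
structure Wt where
  nl : ℤ → ℤ
  nr : ℤ → ℤ
  mL : ℤ
  mR : ℤ

/-- names for lines: which orders are matched by a junction, the order at the caps -/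
structure NmL (Γ : Nm) where
  ok : Γ.J → ℤ → ℤ → Prop
  x : ℤ

namespace Wt

variable (n : Wt) (w : Shp Γ)

structure OK (Λ : NmL Γ) : Prop where
  sl : n.nr w.l = Λ.x
  sr : n.nl w.r = Λ.x
  rod : ∀ j τ, w.l < j → j < w.r → w.s j = .rod τ → n.nl j = n.nr j
  jn : ∀ j J, w.l < j → j < w.r → w.s j = .jn J → Λ.ok J (n.nl j) (n.nr j)
  eq : ∀ j, w.l < j → j ≤ w.r → w.lf j = w.rt j → n.nr (j - 1) = n.nl j
  neg : ∀ j, w.l < j → j ≤ w.r → w.lf j = -w.rt j → n.nr (j - 1) = -n.nl j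

/-- the orders along the rods of a range -/
def bn (x y j : ℤ) : ℤ := if j ≤ x then n.nr x else n.nl (min j y)

structure Agr (n' : Wt) (d x y : ℤ) : Prop where
  r : ∀ j, x ≤ j → j < y → n'.nr (j + d) = n.nr j
  l : ∀ j, x < j → j ≤ y → n'.nl (j + d) = n.nl j

/-- a list of pairs of orders starting at `l` -/
def ofList (l : ℤ) (L : List (ℤ × ℤ)) (mL mR : ℤ) : Wt :=
  ⟨fun j => (L.getD (j - l).toNat 0).1, fun j => (L.getD (j - l).toNat 0).2, mL, mR⟩

end Wt

/-! ### numbers -/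

/-- `φ²` at a vertex from `u` to `v` -/
def nn (u v : Z2) : ℤ := -(dt u v * u.2 * v.2)

/-- `Λ · φ` at a vertex from `u` (order `x`) to `v` (order `y`) -/
def hh (u v : Z2) (x y : ℤ) : ℤ := dt u v * (x * v.2 - y * u.2)

/-- the square of the sphere of the rod `v` between `u` and `u'` -/
def sq (u v u' : Z2) : ℤ := -(dt u u' * dt u v * dt v u')

/-- the degree of `Λ` on the sphere of the rod `v` (oriented by `v`) -/
def dg (u v u' : Z2) (x y x' : ℤ) : ℤ := dt u v * x + dt v u' * x' + sq u v u' * y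

/-- `φ_c²` -/
def Shp.nn (w : Shp Γ) (c : ℤ) : ℤ := Wd38.nn (w.lf c) (w.rt c)

/-- `Λ · φ_c` -/
def Shp.hh (w : Shp Γ) (n : Wt) (c : ℤ) : ℤ := Wd38.hh (w.lf c) (w.rt c) (n.nr (c - 1)) (n.nl c)

/-! ### walls -/

/-- toric walls: half circles with feet in the slots `x < y`, slices in the slot `x` -/
inductive Bs : Type
  | sA (x y : ℤ)
  | rA (x y : ℤ)
  | lA (x y : ℤ)
  | sS (x : ℤ)
  | yS (x : ℤ)
  deriving DecidableEq

namespace Bs

/-- first slot -/
def lo : Bs → ℤ
  | sA x _ | rA x _ | lA x _ | sS x | yS x => x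

/-- last slot -/
def hi : Bs → ℤ
  | sA _ y | rA _ y | lA _ y | sS y | yS y => y

/-- half circles -/
def arc : Bs → Prop
  | sA _ _ | rA _ _ | lA _ _ => True
  | _ => False

/-- pinch walls -/
def pin : Bs → Prop
  | sA _ _ | sS _ => True
  | _ => False

/-- translation -/
def sh (d : ℤ) : Bs → Bs
  | sA x y => sA (x + d) (y + d)
  | rA x y => rA (x + d) (y + d)
  | lA x y => lA (x + d) (y + d)
  | sS x => sS (x + d)
  | yS x => yS (x + d)

def OK (w : Shp Γ) : Bs → Prop
  | sA x y => w.Rg x y ∧ Uni (w.s x).r.2 (w.s y).l.2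
  | rA x y => w.Rg x y ∧ PM (w.s y).l.2 (w.s x).r.2
  | lA x y => w.Rg x y ∧ dt (w.s x).r.2 (w.s y).l.2 ≠ 0
  | sS x => w.l ≤ x ∧ x < w.r ∧ (w.s x).r.2.1 = 0
  | yS x => w.l ≤ x ∧ x < w.r

/-- the orders agree at the two feet of an `S¹ × S²` wall -/
def OKn (w : Shp Γ) (n : Wt) : Bs → Prop
  | rA x y => ((w.s y).l.2 = (w.s x).r.2 → n.nl y = n.nr x) ∧ ((w.s y).l.2 = -(w.s x).r.2 → n.nl y = -n.nr x)
  | _ => True

/-- the side of the integer point `c` of the axis; `false` is the inside, the past -/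
def side (c : ℤ) : Bs → Bool
  | sA x y | rA x y | lA x y => !decide (x < c ∧ c ≤ y)
  | sS x | yS x => decide (x < c)

/-- separated or strictly nested -/
def Far (a b : Bs) : Prop :=
  a.hi < b.lo ∨ b.hi < a.lo ∨ (a.arc ∧ a.lo < b.lo ∧ b.hi < a.hi ∧ b.arc) ∨
    (b.arc ∧ b.lo < a.lo ∧ a.hi < b.hi ∧ a.arc)

end Bs

/-- types of walls -/
inductive WT (ι : Type) : Type
  | sph
  | rr
  | lens (a b : Z2)
  | fil (τ : ι × Z2)

/-- the type of a wall -/
def Bs.ty (w : Shp Γ) : Bs → WT Γ.ι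
  | .sA _ _ | .sS _ => .sph
  | .rA _ _ => .rr
  | .lA x y => .lens (w.s x).r.2 (w.s y).l.2
  | .yS x => .fil (w.s x).r

/-- the orders at the feet -/
def Bs.ord (n : Wt) : Bs → ℤ × ℤ
  | .sA x y | .rA x y | .lA x y => (n.nr x, n.nl y)
  | .sS x | .yS x => (n.nr x, n.nr x)

/-- the twist in the sphere of the rod `± b` on the slots `x, …, y`, between `± a` and `± (n b - a)`; `n e = 2` -/
structure Tw where
  x : ℤ
  y : ℤ
  a : Z2
  b : Z2
  n : ℕ
  e : ℕ
  deriving DecidableEq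

namespace Tw

variable (t : Tw)

structure OK (w : Shp Γ) : Prop where
  rg : w.Rg (t.x - 1) (t.y + 1)
  le : t.x ≤ t.y
  uni : Uni t.a t.b
  ne : t.n * t.e = 2
  l : PM (w.lf t.x) t.a
  m : ∀ j, t.x ≤ j → j ≤ t.y → PM (w.rt j) t.b
  r : PM (w.rt (t.y + 1)) (-t.a + (t.n : ℤ) • t.b)

/-- translation -/
def sh (d : ℤ) : Tw := { t with x := t.x + d, y := t.y + d }

/-- the wall does not meet the support of the twist -/
def Off (b : Bs) : Prop := b.hi < t.x ∨ t.y < b.lo ∨ (b.arc ∧ b.lo < t.x ∧ t.y < b.hi)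

/-- disjoint supports -/
def Sep (t' : Tw) : Prop := t.y + 1 < t'.x ∨ t'.y + 1 < t.x

/-- the sign of a vector that is `± a` -/
def sg (v a : Z2) : ℤ := if v = a then 1 else -1

/-- the orders of the pull back of a line by the twist -/
def act (w : Shp Γ) (n : Wt) : Wt :=
  let k := t.e * (sg (w.lf t.x) t.a * n.nr (t.x - 1) +
    sg (w.rt (t.y + 1)) (-t.a + (t.n : ℤ) • t.b) * n.nl (t.y + 1))
  { n with
    nl := fun j => if t.x ≤ j ∧ j ≤ t.y then sg (w.rt j) t.b * k - n.nl j else n.nl j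
    nr := fun j => if t.x ≤ j ∧ j ≤ t.y then sg (w.rt j) t.b * k - n.nr j else n.nr j }

end Tw

/-- walls: the image of a toric wall under twists (the head of the list acts last) -/
structure Wl where
  b : Bs
  tw : List Tw
  deriving DecidableEq

namespace Wl

instance : Coe Bs Wl := ⟨fun b => ⟨b, []⟩⟩

def OK (w : Shp Γ) (a : Wl) : Prop := a.b.OK w ∧ ∀ t ∈ a.tw, t.OK w

/-- translation -/
def sh (d : ℤ) (a : Wl) : Wl := ⟨a.b.sh d, a.tw.map (·.sh d)⟩

/-- one more twist -/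
def twist (t : Tw) (a : Wl) : Wl := ⟨a.b, t :: a.tw⟩

/-- everything happens over the times `(x + 1/4, y + 3/4)` -/
def In (a : Wl) (x y : ℤ) : Prop := x ≤ a.b.lo ∧ a.b.hi ≤ y ∧ ∀ t ∈ a.tw, x < t.x ∧ t.y < y

/-- the wall does not meet the support of the twist -/
def Clr (t : Tw) (a : Wl) : Prop := t.Off a.b ∧ ∀ t' ∈ a.tw, t.Sep t'

/-- a sufficient condition for compatibility -/
inductive Far : Wl → Wl → Prop
  | bs {a b : Bs} : a.Far b → Far a b
  | tm {a b : Wl} {x y x' y' : ℤ} : a.In x y → b.In x' y' → y < x' → Far a b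
  | both {a b : Wl} (t : Tw) : Far a b → Far (a.twist t) (b.twist t)
  | one {a b : Wl} {t : Tw} : Far a b → Clr t b → Far (a.twist t) b
  | symm {a b : Wl} : Far a b → Far b a

/-- the wall does not meet the axis over the times `[x + 1, y]` -/
def Out (a : Wl) (x y : ℤ) : Prop :=
  (a.b.lo ≤ x ∨ y ≤ a.b.lo) ∧ (a.b.hi ≤ x ∨ y ≤ a.b.hi) ∧ ∀ t ∈ a.tw, t.y < x ∨ y < t.x

end Wl

end Crest.Agent.X212.Wd38
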