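import Crest.Agent.X212.Rod53.Bnd
import Crest.Agent.X212.Orx52.Rod
import Crest.Agent.X212.Tau19.Tau

/-!
# X212 / Wd38, part Sh (helper38): translation of rod manifolds

`NR d p q` : the normal form of `q` is the translate by `d` of the normal form of `p`.  `fs e d v' v` is the
partial diffeomorphism `X T' v' → X T v` with graph `NR d` over the part where `v' = v (· + d)`.
-/

set_option autoImplicit false
set_option linter.unusedSectionVars false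

open Set Filter Topology Function Metric TopologicalSpace
open scoped ContDiff Manifold
open Crest.Agent.R208.F (Ext)

noncomputable section

namespace Crest.Agent.X212.Wd38

open Crest.Agent.X212.Glue52 Crest.Agent.X212.Rod53 Crest.Agent.X212.Int54 Crest.Agent.X212.Orx52
open Crest.Agent.X212.Cyl58 hiding ld_id ld_congr ld_of_comp ld_comp

variable {EN HN : Type} [NormedAddCommGroup EN] [NormedSpace ℝ EN] [FiniteDimensional ℝ EN]
  [TopologicalSpace HN] {IN : ModelWithCorners ℝ EN HN} [IN.Boundaryless]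
  {N : Type} [TopologicalSpace N] [ChartedSpace HN N] [IsManifold IN ∞ N] [T2Space N]
  {T T' T'' : Tb IN N} {v v' v'' : ℝ → Z2} {a b : Z2} {c d d' x : ℝ}

/-- translation of normal forms -/
def nS (d : ℝ) : (N × ℝ) ⊕ (ℝ × Circle) → (N × ℝ) ⊕ (ℝ × Circle) :=
  Sum.map (fun q => (q.1, q.2 + d)) fun q => (q.1 + d, q.2)

theorem nS_nS (s : (N × ℝ) ⊕ (ℝ × Circle)) : nS d' (nS d s) = nS (d + d') s := by
  cases s <;> simp [nS, add_assoc]

theorem nS_zero (s : (N × ℝ) ⊕ (ℝ × Circle)) : nS 0 s = s := by cases s <;> simp [nS]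

/-- `q` is the translate of `p` -/
def NR (d : ℝ) (p : X T' v') (q : X T v) : Prop := T.nf v q = nS d (T'.nf v' p)

/-- the times near which `v'` is the translate of `v` -/
def Ag (v' v : ℝ → Z2) (d : ℝ) : Set ℝ := interior {x | v' x = v (x + d)}

theorem mem_Ag : x ∈ Ag v' v d ↔ ∀ᶠ y in 𝓝 x, v' y = v (y + d) := mem_interior_iff_mem_nhds

theorem tend_sub (x d : ℝ) : Tendsto (fun y => y - d) (𝓝 (x + d)) (𝓝 x) :=
  (continuous_sub_right d).tendsto' _ _ (add_sub_cancel_right x d)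

theorem Ag.symm (h : x ∈ Ag v' v d) : x + d ∈ Ag v v' (-d) :=
  mem_Ag.2 (((tend_sub x d).eventually (mem_Ag.1 h)).mono fun y k => by
    rw [← sub_eq_add_neg, k, sub_add_cancel])

theorem Ag.jr (h : x ∈ Ag v' v d) (k : x ∈ Jr v' a) : x + d ∈ Jr v a :=
  mem_Jr.2 (((tend_sub x d).eventually ((mem_Ag.1 h).and (mem_Jr.1 k))).mono fun y e => by
    rw [← sub_add_cancel y d, ← e.1]; exact e.2)

theorem Ag.jv (h : x ∈ Ag v' v d) (k : x ∈ Jv v' a b c) : x + d ∈ Jv v a b (c + d) :=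
  mem_Jv.2 (((tend_sub x d).eventually ((mem_Ag.1 h).and (mem_Jv.1 k))).mono fun y e => by
    have e1 := e.1
    rw [sub_add_cancel] at e1
    rw [← e1]
    exact ⟨fun l => e.2.1 (by linarith), fun l => e.2.2.1 (by linarith), fun l => e.2.2.2 (by linarith)⟩)

theorem Ag.of_open {J : Set ℝ} (hJ : IsOpen J) (h : ∀ y ∈ J, v' y = v (y + d)) (hx : x ∈ J) :
    x ∈ Ag v' v d := interior_maximal h hJ hx

theorem tm_add (z : ℂ × ℂ) : tm (c + d) z = tm c z + d := by unfold tm; ring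

namespace NR

variable {p p' : X T' v'} {q q' : X T v} {r : X T'' v''}

theorem refl (p : X T v) : NR 0 p p := (nS_zero _).symm

theorem trans (h : NR d p q) (h' : NR d' q r) : NR (d + d') p r := by
  rw [NR, h', h, nS_nS]

theorem symm (h : NR d p q) : NR (-d) q p := by rw [NR, h, nS_nS, add_neg_cancel, nS_zero]

theorem cast (h : NR d p q) (e : d = d') : NR d' p q := e ▸ h

theorem symm0 (h : NR 0 p q) : NR 0 q p := h.symm.cast neg_zero

theorem trans0 (h : NR 0 p q) (h' : NR d q r) : NR d p r := (h.trans h').cast (zero_add d)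

theorem trans0' (h : NR d p q) (h' : NR 0 q r) : NR d p r := (h.trans h').cast (add_zero d)

theorem uq (h : NR d p q) (h' : NR d p q') : q = q' := T.nf_injective v (Eq.trans h (Eq.symm h'))

theorem uq' (h : NR d p q) (h' : NR d p' q) : p = p' := h.symm.uq h'.symm

theorem time (h : NR d p q) : T.time v q = T'.time v' p + d := by
  rw [Tb.time, Tb.time, h]
  cases T'.nf v' p <;> rfl

theorem hf (e : T' = T) (h : NR d p q) {Z : Type} (k : ℝ → Z) (z : Z) : T.hf v k z q = T'.hf v' k z p := by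
  subst e
  rw [Tb.hf, Tb.hf, h]
  cases T'.nf v' p <;> rfl

theorem tor (e : T' = T) (h : NR d p q) : q ∈ T.tor v ↔ p ∈ T'.tor v' := (h.hf e _ _).to_iff

theorem eta (e : T' = T) (h : NR d p q) : T.eta v q = T'.eta v' p := h.hf e _ _

theorem rr (e : T' = T) (h : NR d p q) : T.rr v (c + d) q = T'.rr v' c p := by
  rw [Tb.rr, Tb.rr, h.time, show T.yy v q = T'.yy v' p from h.hf e _ _, add_sub_add_right_eq_sub]

theorem disc (e : T' = T) (h : NR d p q) {S : Set ℝ} : q ∈ T.disc v (c + d) S ↔ p ∈ T'.disc v' c S := by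
  rw [T.mem_disc, T'.mem_disc, h.tor e, h.rr e]

theorem ext (e : T' = T) {s : N × ℝ} (h : s.1 ∈ T.Ex) : NR d (T'.ext v' s) (T.ext v (s.1, s.2 + d)) := by
  subst e
  rw [NR, T'.nf_ext h, T'.nf_ext (p := (s.1, s.2 + d)) h]
  rfl

theorem Φr {w : (Circle × ℂ) × ℝ} (k : w.1.2 ≠ 0 ∨ w.2 ∈ Ag v' v d) :
    T.Φr v a b (w.1, w.2 + d) = nS d (T.Φr v' a b w) := by
  by_cases h : w.1.2 = 0
  · rw [T.Φr_zero h, T.Φr_zero (w := (w.1, w.2 + d)) h,
      (mem_Ag.1 (k.resolve_left fun e => e h)).self_of_nhds]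
    rfl
  · rw [T.Φr_ne h, T.Φr_ne (w := (w.1, w.2 + d)) h]
    rfl

theorem mem_Ur {w : (Circle × ℂ) × ℝ} (hw : w ∈ Ur v' a) (k : w.1.2 ≠ 0 ∨ w.2 ∈ Ag v' v d) :
    (w.1, w.2 + d) ∈ Ur v a := k.elim Or.inl fun e => hw.imp_right (Ag.jr e)

theorem mem_Uv {z : ℂ × ℂ} (hz : z ∈ Uv v' a b c) (k : (z.1 ≠ 0 ∧ z.2 ≠ 0) ∨ tm c z ∈ Ag v' v d) :
    z ∈ Uv v a b (c + d) := k.elim Or.inl fun e => hz.imp_right fun l => tm_add z ▸ Ag.jv e l

theorem rod (e : T' = T) (hu : Uni a b) {w : (Circle × ℂ) × ℝ} (hw : w ∈ Ur v' a)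
    (k : w.1.2 ≠ 0 ∨ w.2 ∈ Ag v' v d) : NR d (T'.rod v' hu w) (T.rod v hu (w.1, w.2 + d)) := by
  subst e
  rw [NR, T'.nf_rod hu hw, T'.nf_rod hu (mem_Ur hw k), Φr k]

theorem Φv {z : ℂ × ℂ} (k : (z.1 ≠ 0 ∧ z.2 ≠ 0) ∨ tm c z ∈ Ag v' v d) :
    T.Φv v a b (c + d) z = nS d (T.Φv v' a b c z) := by
  by_cases h : z.1 = 0
  · rw [Tb.Φv, Tb.Φv, if_pos h, if_pos h, ← Φr (Or.inr (k.resolve_left fun e => e.1 h)), hL, hL, tm_add]
  · rw [T.Φv_R h, T.Φv_R h, ← Φr (k.imp_left fun e => mt (hR_ne h).1 e.2), hR, hR, tm_add]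

theorem vtx (e : T' = T) (hu : Uni a b) {z : ℂ × ℂ} (hz : z ∈ Uv v' a b c)
    (k : (z.1 ≠ 0 ∧ z.2 ≠ 0) ∨ tm c z ∈ Ag v' v d) : NR d (T'.vtx v' hu c z) (T.vtx v hu (c + d) z) := by
  subst e
  rw [NR, T'.nf_vtx hu hz, T'.nf_vtx hu (mem_Uv hz k), Φv k]

/-- charts of the same rod -/
theorem rod' (e : T' = T) (hu : Uni a b) {w : (Circle × ℂ) × ℝ} (h' : w.2 ∈ Jr v' a) (h : w.2 + d ∈ Jr v a)
    (k : v' w.2 = v (w.2 + d)) : NR d (T'.rod v' hu w) (T.rod v hu (w.1, w.2 + d)) := by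
  subst e
  rw [NR, T'.nf_rod hu (Or.inr h'), T'.nf_rod hu (w := (w.1, w.2 + d)) (Or.inr h)]
  by_cases h : w.1.2 = 0
  · rw [T'.Φr_zero h, T'.Φr_zero (w := (w.1, w.2 + d)) h, k]
    rfl
  · rw [T'.Φr_ne h, T'.Φr_ne (w := (w.1, w.2 + d)) h]
    rfl

end NR

variable (T') in
/-- the points off the axis or over `Ag` -/
abbrev ag (v' v : ℝ → Z2) (d : ℝ) : Set (X T' v') := T'.ag v' fun x => v (x + d)

theorem NR.mem_ag (e : T' = T) {p : X T' v'} {q : X T v} (h : NR d p q) (hp : p ∈ ag T' v' v d) :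
    q ∈ ag T v v' (-d) := hp.imp (fun k => (h.eta e).trans_lt k) fun k => h.time ▸ Ag.symm k

theorem exists_NR (e : T' = T) {p : X T' v'} (hp : p ∈ ag T' v' v d) : ∃ q : X T v, NR d p q := by
  induction p using T'.ind with
  | h1 q x hq => exact ⟨_, NR.ext e (s := (q, x)) (e ▸ hq)⟩
  | h2 a b hu u x hx => exact ⟨_, NR.rod e hu (Or.inr hx) ((T'.rod_mem_ag hu (Or.inr hx)).1 hp)⟩
  | h3 a b hu c hc =>
    exact ⟨_, NR.vtx e hu (Tb.zero_mem_Uv hc) ((T'.vtx_mem_ag hu (Tb.zero_mem_Uv hc)).1 hp)⟩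

/-- the translation as a function -/
def ff (T' T : Tb IN N) (d : ℝ) (v' v : ℝ → Z2) (p : X T' v') : X T v := invFun (T.nf v) (nS d (T'.nf v' p))

theorem NR.ff_eq {p : X T' v'} {q : X T v} (h : NR d p q) : ff T' T d v' v p = q := by
  rw [ff, ← h]
  exact leftInverse_invFun (T.nf_injective v) q

theorem nr_ff (e : T' = T) {p : X T' v'} (hp : p ∈ ag T' v' v d) : NR d p (ff T' T d v' v p) :=
  let ⟨_, h⟩ := exists_NR e hp; h.ff_eq ▸ h

theorem ld_add (d x : ℝ) : IsLocalDiffeomorphAt 𝓘(ℝ, ℝ) 𝓘(ℝ, ℝ) ∞ (· + d) x := (addD d).isLocalDiffeomorph x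

theorem ld_ff (e : T' = T) {p : X T' v'} (hp : p ∈ ag T' v' v d) :
    IsLocalDiffeomorphAt (𝓡 4) (𝓡 4) ∞ (ff T' T d v' v) p := by
  subst e
  induction p using T'.ind with
  | h1 q x hq =>
    refine ld_of_comp (ld_pd (T'.ext v') (mk_mem_prod hq (mem_univ x))) (ld_congr
      ((ld_prodMap_at (ld_id q) (ld_add d x)).comp _ _
        (ld_pd (T'.ext v) (mk_mem_prod hq (mem_univ _)))) ?_)
    filter_upwards [(T'.isOpen_Ex.preimage continuous_fst).mem_nhds hq] with z hz using (NR.ext rfl hz).ff_eq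
  | h2 a b hu u x hx =>
    have e := (T'.rod_mem_ag hu (Or.inr hx)).1 hp
    refine ld_of_comp (ld_pd (T'.rod v' hu) (Or.inr hx)) (ld_congr
      ((ld_prodMap_at (ld_id _) (ld_add d x)).comp _ _ (ld_pd (T'.rod v hu) (NR.mem_Ur (Or.inr hx) e))) ?_)
    filter_upwards [isOpen_Ur.mem_nhds (Or.inr hx), (isOpen_interior.preimage continuous_snd).mem_nhds
      (e.resolve_left fun k => k rfl)] with z h1 h2 using (NR.rod rfl hu h1 (Or.inr h2)).ff_eq
  | h3 a b hu c hc =>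
    have e := (T'.vtx_mem_ag hu (Tb.zero_mem_Uv hc)).1 hp
    refine ld_of_comp (ld_pd (T'.vtx v' hu c) (Tb.zero_mem_Uv hc)) (ld_congr
      (ld_pd (T'.vtx v hu (c + d)) (NR.mem_Uv (Tb.zero_mem_Uv hc) e)) ?_)
    filter_upwards [isOpen_Uv.mem_nhds (Tb.zero_mem_Uv hc), (isOpen_interior.preimage (continuous_tm c)).mem_nhds
      (e.resolve_left fun k => k.1 rfl)] with z h1 h2 using (NR.vtx rfl hu h1 (Or.inr h2)).ff_eq

/-- the translation as a partial diffeomorphism -/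
def fs (e : T' = T) (d : ℝ) (v' v : ℝ → Z2) : PartialDiffeomorph (𝓡 4) (𝓡 4) (X T' v') (X T v) ∞ :=
  pdOn T'.isOpen_ag ⟨_, T'.ext_mem_ag (v' := fun x => v (x + d)) (q := (T'.τ (1, 1), 0)) (T'.τ_mem.2 one_ne_zero)⟩
    (fun _ => ld_ff e) fun _ hp _ hq k => (nr_ff e hp).uq' (k ▸ nr_ff e hq)

theorem fs_source (e : T' = T) : (fs e d v' v).source = ag T' v' v d := rfl

theorem fs_apply (e : T' = T) (p : X T' v') : fs e d v' v p = ff T' T d v' v p := rfl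

theorem fs_target (e : T' = T) : (fs e d v' v).target = ag T v v' (-d) :=
  Subset.antisymm (by rintro _ ⟨p, hp, rfl⟩; exact (nr_ff e hp).mem_ag e hp) fun q hq => by
    obtain ⟨p, h⟩ := exists_NR e.symm hq
    exact ⟨p, by simpa using h.mem_ag e.symm hq, (h.symm.cast (neg_neg d)).ff_eq⟩

theorem pos_deriv {f f' : ℝ → ℝ} {s : Set ℝ} (h : ∀ x ∈ s, HasDerivAt f (f' x) x) (h0 : ∀ x ∈ s, 0 < f' x) :
    Pos 𝓘(ℝ, ℝ) 𝓘(ℝ, ℝ) f s oR oR :=
  pos_of_eq (oriOn ori_oR s) h0 fun x hx => by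
    rw [pm_oR (h x hx).differentiableAt.mdifferentiableAt, oR_eq, ← map_smul, Dr59.df]
    refine congrArg _ (LinearMap.ext_ring ?_)
    simpa [Dr59.mf] using (h x hx).deriv

theorem pos_add (d : ℝ) : Pos 𝓘(ℝ, ℝ) 𝓘(ℝ, ℝ) (· + d) univ oR oR :=
  pos_deriv (f' := fun _ => 1) (fun x _ => (hasDerivAt_id x).add_const d) fun _ _ => one_pos

theorem pos_ff (e : T' = T) {o : N → Ext EN} {O : X T v → Ext E4} {O' : X T' v' → Ext E4} (h' : OX T' v' o O')
    (h : OX T v o O) : Pos (𝓡 4) (𝓡 4) (ff T' T d v' v) (ag T' v' v d) O' O := by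
  subst e
  refine h'.pos_of T'.isOpen_ag (fun _ => ld_ff rfl) h.ori (Pos.mono ?_ inter_subset_left)
  refine (h.ext.comp ((pos_id.2 h.ex.same).prodMap (pos_add d) (fun y _ => ld_id y) fun z _ => ld_add d z)
    (fun _ => ldp (T'.ext v)) (fun z _ => ld_prodMap_at (ld_id z.1) (ld_add d z.2))
    fun z hz => ⟨hz.1, trivial⟩).congr (T'.isOpen_Ex.prod isOpen_univ) fun z hz => ?_
  exact (NR.ext rfl hz.1).ff_eq

section TIso

variable [CompactSpace N] [SecondCountableTopology N]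

/-- the translation over an open set of times -/
def ft (e : T' = T) (hv' : Loc v') (hv : Loc v) {J : Set ℝ} (hJ : IsOpen J)
    (h : ∀ x, x + d ∈ J → v' x = v (x + d)) : TIso ((T'.tp hv').shift d) (T.tp hv) J :=
  have k : ∀ p : X T' v', T'.time v' p + d ∈ J → p ∈ ag T' v' v d := fun _ hp =>
    Or.inr (Ag.of_open (hJ.preimage (continuous_add_const d)) h hp)
  TIso.mk' hJ (ff T' T d v' v) (fun p hp => ld_ff e (k p hp))
    (fun p q hp hq l => (nr_ff e (k p hp)).uq' (l ▸ nr_ff e (k q hq))) (fun p hp => (nr_ff e (k p hp)).time)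
    fun q hq => by
      obtain ⟨p, l⟩ := exists_NR (v := v') (d := -d) e.symm (p := q) (Or.inr (Ag.of_open hJ (fun y hy => by
        rw [h _ (by rwa [neg_add_cancel_right]), neg_add_cancel_right]) hq))
      exact ⟨p, show T'.time v' p + d ∈ J by rw [l.time, neg_add_cancel_right]; exact hq,
        (l.symm.cast (neg_neg d)).ff_eq⟩

theorem nr_ft (e : T' = T) (hv' : Loc v') (hv : Loc v) {J : Set ℝ} (hJ : IsOpen J)
    (h : ∀ x, x + d ∈ J → v' x = v (x + d)) {p : X T' v'} (hp : T'.time v' p + d ∈ J) :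
    NR (T := T) (v := v) d p (ft e hv' hv hJ h p) :=
  nr_ff e (Or.inr (Ag.of_open (hJ.preimage (continuous_add_const d)) h hp))

/-- the same without translation -/
def f0 (e : T' = T) (hv' : Loc v') (hv : Loc v) {J : Set ℝ} (hJ : IsOpen J) (h : ∀ x ∈ J, v' x = v x) :
    TIso (T'.tp hv') (T.tp hv) J :=
  have k := ft (d := 0) e hv' hv hJ (by simpa using h)
  ⟨k.φ, k.src.trans (by ext; simp [TP.shift]), k.tgt, fun x hx =>
    (k.tm x (by simpa [TP.shift] using hx)).trans (add_zero _)⟩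

theorem nr_f0 (e : T' = T) (hv' : Loc v') (hv : Loc v) {J : Set ℝ} (hJ : IsOpen J)
    (h : ∀ x ∈ J, v' x = v x) {p : X T' v'} (hp : T'.time v' p ∈ J) :
    NR (T := T) (v := v) 0 p (f0 e hv' hv hJ h p) :=
  nr_ft (d := 0) e hv' hv hJ (by simpa using h) (by simpa using hp)

end TIso

/-! ### the necks -/

section Fl

variable {EY HY : Type} [NormedAddCommGroup EY] [NormedSpace ℝ EY] [TopologicalSpace HY]
  {IY : ModelWithCorners ℝ EY HY} {Y : Type} [TopologicalSpace Y] [ChartedSpace HY Y]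

/-- the same filling for an equal tube -/
def flc (F : Fl T a b IY Y) (e : T = T') : Fl T' a b IY Y :=
  ⟨F.W, e ▸ F.hW, F.ie, F.it, F.oeE, F.oeT, F.surj, e ▸ F.eq⟩

theorem NR.cyf (F : Fl T a b IY Y) (e' : T = T') (e : T = T'') (hu : Uni a b) (y : Y) (h' : x ∈ Jr v' a)
    (h : x + d ∈ Jr v a) (k : v' x = v (x + d)) :
    NR d ((flc F e').cyf v' hu (y, x)) ((flc F e).cyf v hu (y, x + d)) := by
  subst e e'
  change NR d (F.cyf v' hu (y, x)) (F.cyf v hu (y, x + d))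
  rcases F.surj y with ⟨q, rfl⟩ | ⟨w, rfl⟩
  · rw [F.cyf_ie, F.cyf_ie]
    exact NR.ext rfl (s := (q.1, x)) ((F.hW _).1 q.2)
  · rw [F.cyf_it, F.cyf_it]
    exact NR.rod' rfl hu (w := (w, x)) h' h k

end Fl

theorem nf_rn (h : LH a b) {w : (Circle × ℂ) × ℝ} (hw : w ∈ Ur v a) : T.nf v (T.rn v a b w) = T.Φr v a b w := by
  obtain ⟨a', n, m, hu, hn, rfl⟩ := Tb.exists_cv h
  rw [T.rn_cv hu n m hw, T.nf_rod hu (Tb.cv_mem hw), T.Φr_cv n m hw]

theorem nf_vn (h : LH a b) {z : ℂ × ℂ} (hz : z ∈ Uv v a b c) (h0 : z ≠ 0) :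
    T.nf v (T.vn v a b c z) = T.Φv v a b c z := by
  rcases Tb.ne_or h0 with k | k
  · rw [T.vn_R k, nf_rn h.symm (hR_mem hz k), T.Φv_R k]
  · rw [T.vn_L k, nf_rn h (hL_mem hz k), T.Φv_L k]

section Arc

variable {ρ : ℝ → ℝ} (e : T' = T) (k : ∀ s, c - ρ s ∈ Ag v' v d ∧ c + ρ s ∈ Ag v' v d)
include k

theorem ag_uv {z : ℂ × ℂ} {s : ℝ} (h : ‖z.1‖ ^ 2 + ‖z.2‖ ^ 2 = ρ s) :
    (z.1 ≠ 0 ∧ z.2 ≠ 0) ∨ tm c z ∈ Ag v' v d := by
  by_cases e1 : z.1 = 0
  · exact Or.inr (by simpa [tm, e1, sub_eq_add_neg, ← h] using (k s).1)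
  · by_cases e2 : z.2 = 0
    · exact Or.inr (by simpa [tm, e2, ← h] using (k s).2)
    · exact Or.inl ⟨e1, e2⟩

include e

theorem NR.sb (hu : Uni a b) (A : Tb.Arc v' a b c ρ) (p : sphere (0 : E4) 1 × ℝ) :
    NR d (T'.sb v' hu c ρ p) (T.sb v hu (c + d) ρ p) :=
  NR.vtx e hu (A.mem_Uv p) (ag_uv k (A.nsq p))

theorem NR.rb (hu : Uni a b) (A : Tb.Arc v' a a c ρ) (p : (Circle × sphere (0 : E3) 1) × ℝ) :
    NR d (T'.rb v' hu c ρ p) (T.rb v hu (c + d) ρ p) := by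
  have := NR.rod (v := v) (d := d) e hu (A.mem_Ur p) ((em _).symm.imp_right fun l => by
    have := norm_L3 (ρ p.2 • (p.1.2 : E3))
    rw [show (L3 (ρ p.2 • (p.1.2 : E3))).1 = 0 from l, norm_zero, zero_pow two_ne_zero, add_zero, A.nrm,
      sq_eq_sq_iff_eq_or_eq_neg] at this
    rcases this with m | m
    · simpa only [rc, m] using (k _).2
    · simpa only [rc, m, sub_eq_add_neg] using (k _).1)
  rwa [rc, add_right_comm] at this

theorem NR.lb (h : LH a b) (A : Tb.Arc v' a b c ρ) (A' : Tb.Arc v a b (c + d) ρ) (p : Lens h × ℝ) :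
    NR d (T'.lb v' h c ρ p) (T.lb v h (c + d) ρ p) := by
  subst e
  rw [NR, Tb.lb, Tb.lb, Tb.lc, Tb.lc, nf_vn h (A.mem_Uv _) (A.ne _), nf_vn h (A'.mem_Uv _) (A'.ne _),
    NR.Φv (ag_uv k (A.nsq _))]

end Arc

section Tau

open Tau19

variable {a' : Z2} {n f : ℕ} {k R r : ℝ} (e : T' = T) (S' : Sph v' a b a' n c k R) (S : Sph v a b a' n (c + d) k R)
  (h : ∀ x ∈ Ioo (c - R) (c + R), v' x = v (x + d))
include e h

theorem NR.psi {m : C3} (hm : m ∈ Dm k R) : NR d (S'.Ψ T' m) (S.Ψ T m) := by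
  have h1 := tmo_lt hm
  have h2 := tmo_lt (Dm.sw hm)
  rw [tmo_sw] at h2
  have h3 : c + tmo k m ∈ Ag v' v d := Ag.of_open isOpen_Ioo h ⟨by linarith, by linarith⟩
  by_cases l : m.1.1 = 0
  · rw [S'.Ψ_1 T' hm (hm.1.ne l), S.Ψ_1 T hm (hm.1.ne l)]
    have := NR.vtx (v := v) (d := d) e S'.uni (S'.mem1 hm (hm.1.ne l)) (Or.inr (by rwa [tm_V1 S.pos c hm.1]))
    rwa [sub_add_eq_add_sub] at this
  · rw [S'.Ψ_2 T' l, S.Ψ_2 T l]
    have := NR.vtx (v := v) (d := d) e S'.uni' (S'.mem2 hm l) (Or.inr (by rwa [tm_V2 S.pos c hm.1]))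
    rwa [add_right_comm] at this

theorem NR.tau (hn : n * f = 2) (hr : r ∈ Ioo (k ^ 2 / 2) R) {p : X T' v'} {q : X T v} (l : NR d p q) :
    NR d (S'.tau T' hn hr p) (S.tau T hn hr q) := by
  by_cases m : p ∈ S'.Ψ T' '' Dm k R
  · obtain ⟨m, hm, rfl⟩ := m
    rw [l.uq (NR.psi e S' S h hm), S'.tau_Ψ T' hn hr hm, S.tau_Ψ T hn hr hm]
    exact NR.psi e S' S h (Dm.tt (rh_pos S.pos hr.1) (one_mul 1) hm)
  · rw [S'.tau_off T' hn hr fun u => m (image_mono (S'.K_dom hr.2) u), S.tau_off T hn hr]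
    · exact l
    · rintro ⟨z, hz, rfl⟩
      exact m ⟨z, S.K_dom hr.2 hz, (NR.psi e S' S h (S.K_dom hr.2 hz)).uq' l⟩

end Tau

end Crest.Agent.X212.Wd38
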