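import Crest.Agent.X212.Wd38.Top
import Crest.Agent.X212.Pj41.Mid

/-!
# X212 / Wd38, part Wall (helper38): walls, twists, the mark of a word

* `R.D x y S` : the half discs of a range; `R.nk b` : the neck of a toric wall; `R.tw t` : a twist;
* `R.bn a` : the band of a wall, `R.far` : `Far` walls are compatible; `R.mark` : the mark.
-/

set_option autoImplicit false
set_option linter.unusedSectionVars false

open Set Filter Topology Function Metric TopologicalSpace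
open scoped ContDiff Manifold
open Crest.Agent.R208.F (Ext)
open Crest.GeometryTopology.DehnSurgery

noncomputable section

namespace Crest.Agent.X212.Wd38

open Crest.Agent.X212.Glue52 Crest.Agent.X212.Rod53 Crest.Agent.X212.Int54 Crest.Agent.X212.Orx52
  Crest.Agent.X212.M Crest.Agent.X212.Cyf70 Crest.Agent.X212.An
open Crest.Agent.X212.Cyl58 hiding ld_id ld_congr ld_of_comp ld_comp

/-! ### transplanting diffeomorphisms -/

section Tp

variable {A X : Mf 4} (k : PartialDiffeomorph A.I X.I A.M X.M ∞) {K : Set A.M}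

open Classical in
/-- a self map through a chart -/
def tpl (f : A.M → A.M) (z : X.M) : X.M := if z ∈ k.target then k (f (k.symm z)) else z

theorem tpl_apply (f : A.M → A.M) {p : A.M} (hp : p ∈ k.source) : tpl k f (k p) = k (f p) := by
  rw [tpl, if_pos (k.map_source hp)]
  exact congrArg (fun z => k (f z)) (k.left_inv hp)

theorem tpl_off {f : A.M → A.M} (h : ∀ p ∉ K, f p = p) {z : X.M} (hz : z ∉ k '' K) : tpl k f z = z := by
  by_cases e : z ∈ k.target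
  · rw [tpl, if_pos e]
    exact (congrArg k (h _ fun l => hz ⟨_, l, k.right_inv e⟩)).trans (k.right_inv e)
  · exact if_neg e

theorem maps_of_off {f : A.M → A.M} (hi : Injective f) (h : ∀ p ∉ K, f p = p) {s : Set A.M} (hs : K ⊆ s) :
    MapsTo f s s := fun _ hp => by_contra fun e => e ((hi (h _ fun l => e (hs l))).symm ▸ hp)

theorem contMDiff_tpl {f : A.M ≃ₘ^∞⟮A.I, A.I⟯ A.M} (hK : IsCompact K) (hs : K ⊆ k.source) (h : ∀ p ∉ K, f p = p) :
    ContMDiff X.I X.I ∞ (tpl k f) := fun z => by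
  by_cases e : z ∈ k.target
  · refine ((ldp k (maps_of_off f.injective h hs (k.map_target e))).contMDiffAt.comp z
      (f.contMDiff.contMDiffAt.comp z (ldp k.symm e).contMDiffAt)).congr_of_eventuallyEq ?_
    filter_upwards [k.open_target.mem_nhds e] with y hy using if_pos hy
  · refine contMDiffAt_id.congr_of_eventuallyEq ?_
    filter_upwards [(hK.image_of_continuousOn (k.contMDiffOn_toFun.continuousOn.mono hs)).isClosed.isOpen_compl.mem_nhds
      (by rintro ⟨p, hp, rfl⟩; exact e (k.map_source (hs hp)))] with y hy using tpl_off k h hy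

theorem tpl_tpl {f g : A.M → A.M} (hf : MapsTo f k.source k.source) (e : ∀ p, g (f p) = p) (z : X.M) :
    tpl k g (tpl k f z) = z := by
  by_cases h : z ∈ k.target
  · rw [← k.right_inv h, tpl_apply k f (k.map_target h), tpl_apply k g (hf (k.map_target h)), e]
  · rw [tpl, tpl, if_neg h, if_neg h]

/-- a compactly supported diffeomorphism through a chart -/
def tpd (f : A.M ≃ₘ^∞⟮A.I, A.I⟯ A.M) (hK : IsCompact K) (hs : K ⊆ k.source) (h : ∀ p ∉ K, f p = p) :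
    X.M ≃ₘ^∞⟮X.I, X.I⟯ X.M :=
  have h' : ∀ p ∉ K, f.symm p = p := fun p hp => by
    conv_lhs => rw [← h p hp]
    exact f.symm_apply_apply p
  diffeoOf (tpl k f) (tpl k f.symm) (contMDiff_tpl k hK hs h) (contMDiff_tpl k hK hs h')
    (tpl_tpl k (maps_of_off f.injective h hs) f.symm_apply_apply)
    (tpl_tpl k (maps_of_off f.symm.injective h' hs) f.apply_symm_apply)

theorem mem_of_off {Z : Type} {f : Z → Z} (hi : Injective f) {K s : Set Z} (h : ∀ p ∉ K, f p = p)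
    (hs : K ⊆ s ∨ Disjoint K s) {z : Z} : f z ∈ s ↔ z ∈ s := by
  by_cases e : z ∈ K
  · have e' : f z ∈ K := by_contra fun l => l ((hi (h _ l)).symm ▸ e)
    rcases hs with q | q
    exacts [iff_of_true (q e') (q e), iff_of_false (disjoint_left.1 q e') (disjoint_left.1 q e)]
  · rw [h z e]

end Tp

/-! ### necks with a given cross section -/

/-- a neck with the cross section `Y` -/
structure Nk (X : Mf 4) (Y : Mf 3) [CompactSpace Y.M] [ConnectedSpace Y.M] where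
  j : Y.M × ℝ → X.M
  S : Bool → Set X.M
  h : Sides Y j S

namespace Nk

variable {X : Mf 4} {Y Y' : Mf 3} [CompactSpace Y.M] [ConnectedSpace Y.M] [CompactSpace Y'.M] [ConnectedSpace Y'.M]

/-- the neck of a band -/
def of (N : Band X) : Nk X N.Y := ⟨N.j, N.wall.sd, sides_band N⟩

/-- the band of a neck -/
def band (N : Nk X Y) : Band X := ofSd N.h

theorem band_sd (N : Nk X Y) (b : Bool) : N.band.wall.sd b = N.S b := ofSd_sd _ b

/-- change of the cross section -/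
def re (N : Nk X Y) (g : Y'.M ≃ₘ^∞⟮Y'.I, Y.I⟯ Y.M) : Nk X Y' where
  j p := N.j (g p.1, p.2)
  S := N.S
  h := ⟨N.h.oe.comp ((IsOE.of_diffeo g).prodMap IsOE.id), N.h.op, N.h.dj,
    fun x hx => N.h.cov x fun ⟨p, e⟩ => hx ⟨(g.symm p.1, p.2), by simpa using e⟩, fun b p => N.h.mem b (g p.1, p.2)⟩

theorem range_re (N : Nk X Y) (g : Y'.M ≃ₘ^∞⟮Y'.I, Y.I⟯ Y.M) : range (N.re g).j = range N.j :=
  Surjective.range_comp (f := fun p : Y'.M × ℝ => (g p.1, p.2)) (g.surjective.prodMap surjective_id) N.j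

end Nk

variable {Γ : Nm}

/-- a complementary vector -/
def pz (a : Z2) : Z2 := sb (fd a)

theorem uni_pz {a : Z2} (h : Pr a) : Uni a (pz a) := by
  have := uni_s (fd a)
  rwa [sa_fd h] at this

open Classical in
/-- a pair of rods, with a junk value -/
def lz (a b : Z2) : {p : Z2 × Z2 // LH p.1 p.2} :=
  if h : LH a b then ⟨(a, b), h⟩ else ⟨((0, 1), (1, 0)), ⟨_, uni_std⟩, ⟨_, uni_std.symm⟩, by simp [Rod53.dt]⟩

theorem lz_eq {a b : Z2} (h : LH a b) : (lz a b).1 = (a, b) := by rw [lz, dif_pos h]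

/-- the cross section of a type of walls -/
def mY (kd : Γ.ι → Ext52.KD) : WT Γ.ι → Mf 3
  | .sph => mS
  | .rr => mR
  | .lens a b => mL (lz a b).2
  | .fil τ => mF kd τ

instance (kd : Γ.ι → Ext52.KD) : ∀ τ, CompactSpace (mY kd τ).M
  | .sph => inferInstanceAs (CompactSpace mS.M)
  | .rr => inferInstanceAs (CompactSpace mR.M)
  | .lens a b => inferInstanceAs (CompactSpace (mL (lz a b).2).M)
  | .fil τ => inferInstanceAs (CompactSpace (mF kd τ).M)

instance (kd : Γ.ι → Ext52.KD) : ∀ τ, ConnectedSpace (mY kd τ).M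
  | .sph => inferInstanceAs (ConnectedSpace mS.M)
  | .rr => inferInstanceAs (ConnectedSpace mR.M)
  | .lens a b => inferInstanceAs (ConnectedSpace (mL (lz a b).2).M)
  | .fil τ => inferInstanceAs (ConnectedSpace (mF kd τ).M)

/-- the trivial filling is the sphere -/
def sD (kd : Γ.ι → Ext52.KD) (τ : Γ.ι × Z2) (h : Pr τ.2) (h0 : τ.2.1 = 0) :
    mS.M ≃ₘ^∞⟮mS.I, (mF kd τ).I⟯ (mF kd τ).M :=
  ((kd τ.1).toTube.sphereDiffeo (fd τ.2) ((congrArg Prod.fst (sa_fd h)).trans h0)).symm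

/-- the centre of a range -/
def cc (x y : ℤ) : ℝ := (x + y + 1) / 2

theorem cc_add (x y d : ℤ) : cc (x + d) (y + d) = cc x y + d := by unfold cc; push_cast; ring

namespace Bs

/-- the radius, or time, of the core -/
def r0 : Bs → ℝ
  | sA x y | rA x y | lA x y => (y - x) / 2
  | sS x | yS x => x + 1 / 2

/-- the neck coordinate -/
def ρ (b : Bs) : ℝ → ℝ := sig (b.r0 - 1 / 4) (b.r0 + 1 / 4)

theorem r0_lt (b : Bs) : b.r0 - 1 / 4 < b.r0 + 1 / 4 := by linarith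

theorem ρ_zero (b : Bs) : b.ρ 0 = b.r0 := (sig_zero _ _).trans (by ring)

theorem ρ_mem (b : Bs) (s : ℝ) : b.ρ s ∈ Ioo (b.r0 - 1 / 4) (b.r0 + 1 / 4) := sig_mem b.r0_lt s

theorem range_ρ (b : Bs) : range b.ρ = Ioo (b.r0 - 1 / 4) (b.r0 + 1 / 4) := range_sig b.r0_lt

theorem ρ_mono (b : Bs) : StrictMono b.ρ := strictMono_sig b.r0_lt

theorem ρ_II {b : Bs} {x : ℤ} (h : b.r0 = x + 1 / 2) (s : ℝ) : b.ρ s ∈ II x x :=
  ⟨by linarith [(b.ρ_mem s).1], by linarith [(b.ρ_mem s).2]⟩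

end Bs

namespace Shp

variable {w : Shp Γ} {x y : ℤ}

theorem Rg.feet {b : Bs} (e : b.r0 = (y - x) / 2) (s : ℝ) : cc x y - b.ρ s ∈ II x x ∧ cc x y + b.ρ s ∈ II y y := by
  have := b.ρ_mem s
  rw [e] at this
  unfold cc
  exact ⟨⟨by linarith [this.2], by linarith [this.1]⟩, by linarith [this.1], by linarith [this.2]⟩

theorem Rg.arc (hw : w.OK) (h : w.Rg x y) {b : Bs} (e : b.r0 = (y - x) / 2) {α β : Z2} (h1 : PM (w.s x).r.2 α)
    (h2 : PM (w.s y).l.2 β) : Tb.Arc (w.v x y) α β (cc x y) b.ρ := by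
  have : (x : ℝ) + 1 ≤ y := by exact_mod_cast h.lt
  refine ⟨isOE_sig b.r0_lt, fun s => by linarith [(b.ρ_mem s).1], fun s => ?_, fun s => ?_⟩
  · exact Jr_congr h1 ▸ bw_le (y := y) (le_refl x) ▸ h.jr hw (Rg.feet e s).1
  · exact Jr_congr h2 ▸ bw_ge h.lt (le_refl y) ▸ h.jr hw (Rg.feet e s).2

theorem Rg.prl (hw : w.OK) (h : w.Rg x y) : Pr (w.s x).r.2 := (hw.pr x h.lo (h.lt.le.trans h.hi)).2

theorem Rg.prr (hw : w.OK) (h : w.Rg x y) : Pr (w.s y).l.2 := (hw.pr y (h.lo.trans h.lt.le) h.hi).1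

end Shp

theorem mem_II_of_le {x y : ℤ} {t ρ : ℝ} (h : |t - cc x y| ≤ ρ) (h' : ρ < (y - x) / 2 + 1 / 4) : t ∈ II x y := by
  have := abs_le.1 h
  unfold cc at this
  exact ⟨by linarith [this.1], by linarith [this.2]⟩

theorem sph_wd' {s : ℤ → Z2} {i j : ℤ} {a b a' : Z2} {n : ℕ} (hij : i ≤ j) (hu : Uni a b)
    (h : a' = -a + (n : ℤ) • b) (h1 : PM (s (i - 1)) a) (h2 : ∀ k, i ≤ k → k ≤ j → PM (s k) b)
    (h3 : PM (s (j + 1)) a') :
    Tau19.Sph (wd s) a b a' n (cc (i - 1) (j + 1)) √(j - i + 1) ((j - i + 1) / 2 + 3 / 4) := by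
  have hij' : (i : ℝ) ≤ j := by exact_mod_cast hij
  have e : √((j : ℝ) - i + 1) ^ 2 = j - i + 1 := Real.sq_sqrt (by linarith)
  have u2 : Uni b a' := by
    rw [h, Uni, dt_add_smul, dt_self, mul_zero, add_zero]
    exact hu.symm.neg_right
  have k1 : Uni (s (i - 1)) (s i) := ((h2 i le_rfl hij).uni (h1.uni hu).symm).symm
  have k2 : Uni (s (j + 1 - 1)) (s (j + 1)) := by
    rw [add_sub_cancel_right]
    exact (h3.uni ((h2 j hij le_rfl).uni u2).symm).symm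
  have c1 : cc (i - 1) (j + 1) - (j - i + 1) / 2 = i := by unfold cc; push_cast; ring
  have c2 : cc (i - 1) (j + 1) + (j - i + 1) / 2 = (j + 1 : ℤ) := by unfold cc; push_cast; ring
  have c3 := c2
  push_cast at c3
  refine ⟨hu, h, Real.sqrt_pos.2 (by linarith), by linarith, fun x hx => ?_, fun x hx => ?_⟩ <;> rw [e] at hx ⊢
  · rw [c1]
    rcases le_or_gt x i with k | k
    · exact Tau19.Jv_congr (Ioo_subset_Jv k1 ⟨by linarith [hx.1], by linarith⟩) h1 (h2 i le_rfl hij)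
    · exact Jv.of_right (Ioo_subset_Jr' h2 ⟨k, by linarith [hx.2]⟩) k
  · rw [c2]
    rcases lt_or_ge x (j + 1) with k | k
    · exact Jv.of_left (Ioo_subset_Jr' h2 ⟨by linarith [hx.1], k⟩) (by push_cast; exact k)
    · refine Tau19.Jv_congr (Ioo_subset_Jv k2 ⟨?_, ?_⟩) (by rw [add_sub_cancel_right]; exact h2 j hij le_rfl) h3 <;>
        push_cast <;> linarith [hx.2]

namespace Tw

variable {t : Tw} {w : Shp Γ}

/-- the radius of the support -/
def r (t : Tw) : ℝ := (t.y - t.x + 1) / 2 + 1 / 8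

theorem OK.sph (hw : w.OK) (h : t.OK w) : Tau19.Sph (w.v (t.x - 1) (t.y + 1)) t.a t.b (-t.a + (t.n : ℤ) • t.b) t.n
    (cc (t.x - 1) (t.y + 1)) √(t.y - t.x + 1) ((t.y - t.x + 1) / 2 + 3 / 4) :=
  h.rg.v_eq hw ▸ sph_wd' h.le h.uni rfl (Shp.bw_le le_rfl ▸ h.l)
    (fun k a b => by rw [Shp.bw_mid (by omega) (by omega)]; exact h.m k a b) (Shp.bw_ge h.rg.lt le_rfl ▸ h.r)

theorem r_mem (h : t.x ≤ t.y) : 
    t.r ∈ Ioo (√((t.y : ℝ) - t.x + 1) ^ 2 / 2 : ℝ) (((t.y : ℝ) - t.x + 1) / 2 + 3 / 4) := by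
  have h' : (t.x : ℝ) ≤ t.y := by exact_mod_cast h
  rw [Real.sq_sqrt (by linarith), r]
  exact ⟨by linarith, by linarith⟩

theorem r_lt (t : Tw) : t.r < (((t.y + 1 : ℤ) : ℝ) - (t.x - 1 : ℤ)) / 2 + 1 / 4 := by
  unfold r; push_cast; linarith

end Tw

namespace Cx

variable (C : Cx Γ) {w : Shp Γ} (hw : w.OK) {x y : ℤ}

/-- the twist in the chart of its range -/
def tau {t : Tw} (h : t.OK w) :
    C.XR w (t.x - 1) (t.y + 1) ≃ₘ^∞⟮𝓡 4, 𝓡 4⟯ C.XR w (t.x - 1) (t.y + 1) :=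
  (h.sph hw).tau (C.T _) h.ne (Tw.r_mem h.le)

theorem tm_disc {p : C.XR w x y} {S : Set ℝ} (hp : p ∈ (C.T _).disc _ (cc x y) S)
    (hS : ∀ s ∈ S, s < ((y : ℝ) - x) / 2 + 1 / 4) : C.tm p ∈ II x y :=
  mem_II_of_le ((C.T _).abs_time_le _ p) (hS _ hp.2)

end Cx

namespace Rz

variable {C : Cx Γ} {w : Shp Γ} {hw : w.OK} {X : TP V4} (R : Rz C hw X) {x y x' y' : ℤ} {S S' : Set ℝ}

/-- half discs, half circles, half annuli about the centre of a range -/
def D (x y : ℤ) (S : Set ℝ) : Set X.P.M :=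
  {z | ∃ h : w.Rg x y, ∃ p, C.tm p ∈ II x y ∧ p ∈ (C.T _).disc _ (cc x y) S ∧ R.B h p = z}

theorem D_mono (h : S ⊆ S') : R.D x y S ⊆ R.D x y S' :=
  fun _ ⟨a, p, b, c, d⟩ => ⟨a, p, b, ⟨c.1, h c.2⟩, d⟩

theorem D_eq (h : w.Rg x y) (hS : ∀ s ∈ S, s < ((y : ℝ) - x) / 2 + 1 / 4) :
    R.D x y S = R.B h '' (C.T _).disc _ (cc x y) S :=
  Subset.antisymm (fun _ ⟨_, p, _, a, b⟩ => ⟨p, a, b⟩) fun _ ⟨p, a, b⟩ => ⟨h, p, C.tm_disc a hS, a, b⟩

theorem D_II {z : X.P.M} (hz : z ∈ R.D x y S) : X.τ z ∈ II x y := by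
  obtain ⟨h, p, a, -, rfl⟩ := hz
  exact (R.B h).mem a

theorem D_time {z : X.P.M} (hz : z ∈ R.D x y S) : ∃ s ∈ S, |X.τ z - cc x y| ≤ s := by
  obtain ⟨h, p, a, b, rfl⟩ := hz
  exact ⟨_, b.2, (R.B h).tm p a ▸ (C.T _).abs_time_le _ p⟩

theorem mem_D (h : w.Rg x y) (h' : w.Rg x' y') (o : w.Ov x y x' y') {p : C.XR w x y} (hp : C.tm p ∈ II x y) :
    R.B h p ∈ R.D x' y' S ↔ C.tm p ∈ II x' y' ∧ p ∈ (C.T _).disc _ (cc x' y') S := by
  have k : C.tm p ∈ II x' y' → C.T (w.kn x) = C.T (w.kn x') := fun t =>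
    have u := o.hull h h' hp t
    (C.T_eq hw u (min_le_left _ _) (lt_max_of_lt_left h.lt)).trans
      (C.T_eq hw u (min_le_right _ _) (lt_max_of_lt_right h'.lt)).symm
  refine ⟨fun ⟨_, q, a, b, c⟩ => ?_, fun ⟨a, b⟩ => ?_⟩
  · have l := R.nr_of_eq h h' o hp a c.symm
    have t := (C.mem_nr l).1 a
    exact ⟨t, (l.disc (k t)).1 (by rwa [add_zero])⟩
  · have u := o.hull h h' hp a
    obtain ⟨z, hz⟩ := C.exists_up hw u (min_le_left _ _) h.lt (le_max_left _ _) hp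
    obtain ⟨q, hq⟩ := C.exists_dn hw u (min_le_right _ _) h'.lt (le_max_right _ _) ((C.mem_nr hz).2 a)
    have l := hz.trans0 hq
    have t := (C.mem_nr l).2 a
    exact ⟨h', q, t, add_zero (cc x' y') ▸ (l.disc (k a)).2 b, (R.eq_nr h h' o hp t l).symm⟩

theorem ov_of_le (h' : w.Rg x' y') (h1 : x ≤ x') (h2 : y' ≤ y) : w.Ov x y x' y' :=
  have := h'.lt
  ⟨fun _ => by omega, fun _ => by omega⟩

theorem D_up (h : w.Rg x y) (h1 : x ≤ x') (h2 : y' ≤ y) {z : X.P.M} (hz : z ∈ R.D x' y' S') :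
    ∃ r r', r' ∈ S' ∧ |r - r'| ≤ |cc x y - cc x' y'| ∧ ∀ S, z ∈ R.D x y S ↔ r ∈ S := by
  obtain ⟨p, a, rfl⟩ := (R.B h).surj (II_mono h1 h2 (R.D_II hz))
  have hp : C.tm p ∈ II x y := (show C.tm p = _ from a) ▸ II_mono h1 h2 (R.D_II hz)
  have k := ((R.mem_D h hz.1 (ov_of_le hz.1 h1 h2) hp).1 hz).2
  refine ⟨(C.T _).rr _ (cc x y) p, (C.T _).rr _ (cc x' y') p, k.2, abs_sub_le_iff.2 ⟨?_, ?_⟩, fun S =>
    (R.mem_D h h (ov_of_le h le_rfl le_rfl) hp).trans ⟨fun l => l.2.2, fun l => ⟨hp, k.1, l⟩⟩⟩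
  · linarith [(C.T _).rr_le (cc x y) (cc x' y') p, abs_sub_comm (cc x y) (cc x' y')]
  · linarith [(C.T _).rr_le (cc x' y') (cc x y) p]

/-- the neck of an arc -/
def aN (h : w.Rg x y) {Y : Mf 3} [CompactSpace Y.M] [ConnectedSpace Y.M] {b : Bs} (e : b.r0 = (y - x) / 2)
    (A : AN (C.T (w.kn x)) (w.v x y) Y (cc x y) b.ρ) : Nk X.mf Y :=
  .of (bpush (A.pushable (w.loc x y) (R.B h) fun s _ k => mem_II_of_le k (e ▸ (b.ρ_mem s).2)))

/-- the neck of a slice -/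
def sN (h1 : w.l ≤ x) (h2 : x < w.r) {b : Bs} (e : b.r0 = x + 1 / 2) : Nk X.mf (mF C.kd (w.s x).r) :=
  .of (ofTime (Y := mF C.kd (w.s x).r) (R.P h1 h2 rfl) (isOE_sig b.r0_lt) b.ρ_mono (Bs.ρ_II e))

/-- the neck of a toric wall -/
def nk : ∀ (b : Bs) (_ : b.OK w), Nk X.mf (mY C.kd (b.ty w))
  | .sA x y, h => R.aN h.1 (b := .sA x y) rfl
      ((C.T _).sA h.2 (h.1.arc hw rfl (PM.refl _) (PM.refl _)) (Bs.ρ_mono _))
  | .rA x y, h => R.aN h.1 (b := .rA x y) rfl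
      ((C.T _).rA (uni_pz (h.1.prl hw)) (h.1.arc hw rfl (PM.refl _) h.2) (Bs.ρ_mono _))
  | .lA x y, h => R.aN h.1 (b := .lA x y) rfl ((C.T _).lA (lz _ _).2
      (by rw [lz_eq ⟨h.1.prl hw, h.1.prr hw, h.2⟩]; exact h.1.arc hw rfl (PM.refl _) (PM.refl _)) (Bs.ρ_mono _))
  | .sS x, h => (R.sN h.1 h.2.1 (b := .sS x) rfl).re (sD C.kd _ (hw.pr x h.1 h.2.1.le).2 h.2.2)
  | .yS x, h => R.sN h.1 h.2 (b := .yS x) rfl

/-- the level sets of a toric wall -/
def Z : Bs → Set ℝ → Set X.P.M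
  | .sA x y, S | .rA x y, S | .lA x y, S => R.D x y S
  | .sS _, S | .yS _, S => X.τ ⁻¹' S

/-- the sides and the band -/
structure Spec {Y : Mf 3} [CompactSpace Y.M] [ConnectedSpace Y.M] (N : Nk X.mf Y) (Z : Set ℝ → Set X.P.M)
    (r : ℝ) : Prop where
  f : N.S false = Z (Iio r)
  t : N.S true = (Z (Iic r))ᶜ
  b : range N.j = Z (Ioo (r - 1 / 4) (r + 1 / 4))

theorem spec_aN (h : w.Rg x y) {Y : Mf 3} [CompactSpace Y.M] [ConnectedSpace Y.M] {b : Bs}
    (e : b.r0 = (y - x) / 2) (A : AN (C.T (w.kn x)) (w.v x y) Y (cc x y) b.ρ) :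
    Spec (R.aN h e A) (R.D x y) b.r0 := by
  refine ⟨(bpush_in (b := true) _).trans ?_, (bpush_out _).trans ?_, (range_comp (R.B h) A.j).trans ?_⟩
  · rw [R.D_eq h fun s hs => by linarith [mem_Iio.1 hs], ← b.ρ_zero]
    exact congrArg _ (A.band_false _)
  · rw [R.D_eq h fun s hs => by linarith [mem_Iic.1 hs], ← b.ρ_zero]
    exact congrArg (fun s => (R.B h '' s)ᶜ) (A.compl_true _)
  · rw [R.D_eq h fun s hs => by linarith [hs.2], ← b.range_ρ]
    exact congrArg _ A.range_j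

theorem spec_sN (h1 : w.l ≤ x) (h2 : x < w.r) {b : Bs} (e : b.r0 = x + 1 / 2) :
    Spec (R.sN h1 h2 e) (X.τ ⁻¹' ·) b.r0 :=
  ⟨(ofTime_false ..).trans (congrArg (fun r => X.τ ⁻¹' Iio r) b.ρ_zero),
    (ofTime_true ..).trans ((congrArg (fun r => X.τ ⁻¹' Ioi r) b.ρ_zero).trans (by rw [← compl_Iic]; rfl)),
    (ofTime_band (Y := mF C.kd (w.s x).r) (R.P h1 h2 rfl) (isOE_sig b.r0_lt) b.ρ_mono (Bs.ρ_II e)).trans
      (congrArg _ b.range_ρ)⟩

theorem spec_nk : ∀ (b : Bs) (h : b.OK w), Spec (R.nk b h) (R.Z b) b.r0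
  | .sA _ _, h | .rA _ _, h | .lA _ _, h => R.spec_aN h.1 rfl _
  | .sS _, h => have k := R.spec_sN h.1 h.2.1 (b := .sS _) rfl; ⟨k.f, k.t, (Nk.range_re _ _).trans k.b⟩
  | .yS _, h => R.spec_sN h.1 h.2 rfl

theorem half_II (x : ℤ) : Ioo ((x : ℝ) + 1 / 2 - 1 / 4) (x + 1 / 2 + 1 / 4) = II x x := by
  unfold II; congr 1 <;> ring

/-- the band of a toric wall as a set -/
def bd (b : Bs) : Set X.P.M := R.Z b (Ioo (b.r0 - 1 / 4) (b.r0 + 1 / 4))

theorem bd_II {b : Bs} {z : X.P.M} (hz : z ∈ R.bd b) : X.τ z ∈ II b.lo b.hi := by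
  cases b
  iterate 3 exact R.D_II hz
  all_goals exact (half_II _).subset hz

theorem arc_eq {b : Bs} (h : b.arc) : R.Z b = R.D b.lo b.hi ∧ b.r0 = (b.hi - b.lo) / 2 := by
  cases b
  iterate 3 exact ⟨rfl, rfl⟩
  all_goals exact h.elim

theorem II_disj (h : y < x') {t : ℝ} (ht : t ∈ II x y) (ht' : t ∈ II x' y') : False :=
  (II_le ht' ht).not_gt h

theorem abs_cc (x y x' y' : ℤ) {r : ℝ} (h1 : ((x' : ℝ) + y' - x - y) / 2 < r) (h2 : ((x : ℝ) + y - x' - y') / 2 < r) :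
    |cc x y - cc x' y'| < r := abs_lt.2 (by unfold cc; exact ⟨by linarith, by linarith⟩)

theorem bd_nest {a b : Bs} (ha : a.arc) (hb : b.arc) (h1 : a.lo < b.lo) (h2 : b.hi < a.hi) :
    Disjoint (R.bd a) (R.bd b) := disjoint_left.2 fun z p q => by
  rw [bd, (R.arc_eq ha).1, (R.arc_eq ha).2] at p
  rw [bd, (R.arc_eq hb).1, (R.arc_eq hb).2] at q
  obtain ⟨r, r', k1, k2, k3⟩ := R.D_up p.1 h1.le h2.le q
  have k4 := (k3 _).1 p
  have h1' : (a.lo : ℝ) + 1 ≤ b.lo := by exact_mod_cast h1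
  have h2' : (b.hi : ℝ) + 1 ≤ a.hi := by exact_mod_cast h2
  exact (abs_cc _ _ _ _ (r := r - r') (by linarith [k4.1, k1.2]) (by linarith [k4.1, k1.2])).not_ge
    ((le_abs_self _).trans k2)

theorem bd_far {a b : Bs} (h : a.Far b) : Disjoint (R.bd a) (R.bd b) := by
  rcases h with h | h | h | h
  · exact disjoint_left.2 fun _ p q => II_disj h (R.bd_II p) (R.bd_II q)
  · exact disjoint_left.2 fun _ p q => II_disj h (R.bd_II q) (R.bd_II p)
  · exact R.bd_nest h.1 h.2.2.2 h.2.1 h.2.2.1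
  · exact (R.bd_nest h.1 h.2.2.2 h.2.1 h.2.2.1).symm

/-! ### twists -/

/-- the support of a twist -/
def K (t : Tw) : Set X.P.M := R.D (t.x - 1) (t.y + 1) (Iic t.r)

theorem K_src {t : Tw} (h : t.OK w) : (C.T _).disc _ (cc (t.x - 1) (t.y + 1)) (Iic t.r) ⊆ (R.B h.rg).φ.source :=
  fun _ hp => (R.B h.rg).mem_src (C.tm_disc hp fun _ hs => hs.trans_lt t.r_lt)

open Classical in
/-- the twist -/
def tw (t : Tw) : X.mf.M ≃ₘ^∞⟮X.mf.I, X.mf.I⟯ X.mf.M :=
  if h : t.OK w then tpd (A := (C.tp w _ _).mf) (R.B h.rg).φ (C.tau hw h)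
    ((C.T _).isCompact_disc isClosed_Iic (fun _ h => h) fun x _ => w.loc _ _ x) (R.K_src h)
    fun _ => (h.sph hw).tau_off_disc _ _ _
  else Diffeomorph.refl _ _ _

theorem tw_B {t : Tw} (h : t.OK w) {p : C.XR w (t.x - 1) (t.y + 1)} (hp : C.tm p ∈ II (t.x - 1) (t.y + 1)) :
    R.tw t (R.B h.rg p) = R.B h.rg (C.tau hw h p) := by
  rw [tw, dif_pos h]
  exact tpl_apply (A := (C.tp w _ _).mf) (X := X.mf) _ _ ((R.B h.rg).mem_src hp)

theorem tw_off {t : Tw} : ∀ z ∉ R.K t, R.tw t z = z := fun z hz => by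
  unfold tw
  split_ifs with h
  · exact tpl_off (A := (C.tp w _ _).mf) (X := X.mf) _ (fun _ => (h.sph hw).tau_off_disc _ _ _)
      fun e => hz ((R.D_eq h.rg fun _ hs => lt_of_le_of_lt hs t.r_lt).ge e)
  · rfl

theorem tw_mem {t : Tw} {s : Set X.P.M} (h : R.K t ⊆ s ∨ Disjoint (R.K t) s) {z : X.P.M} :
    R.tw t z ∈ s ↔ z ∈ s := mem_of_off (R.tw t).injective R.tw_off h

theorem K_time {t : Tw} {z : X.P.M} (hz : z ∈ R.K t) : X.τ z ∈ Icc ((t.x : ℝ) - 1 / 8) (t.y + 9 / 8) := by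
  obtain ⟨s, h1, h2⟩ := R.D_time hz
  have := abs_le.1 (h2.trans h1)
  unfold cc Tw.r at this
  push_cast at this
  exact ⟨by linarith [this.1], by linarith [this.2]⟩

theorem K_off {t : Tw} {b : Bs} (h : t.Off b) : Disjoint (R.K t) (R.bd b) := disjoint_left.2 fun z p q => by
  have h1 := R.K_time p
  have h2 := R.bd_II q
  rcases h with h | h | ⟨hb, h, h'⟩
  · have : (b.hi : ℝ) + 1 ≤ t.x := by exact_mod_cast h
    linarith [h1.1, h2.2]
  · have : (t.y : ℝ) + 1 ≤ b.lo := by exact_mod_cast h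
    linarith [h1.2, h2.1]
  · rw [bd, (R.arc_eq hb).1, (R.arc_eq hb).2] at q
    obtain ⟨r, r', k1, k2, k3⟩ := R.D_up q.1 (by omega) (by omega) p
    have k4 := (k3 _).1 q
    have h1' : (b.lo : ℝ) + 1 ≤ t.x := by exact_mod_cast h
    have h2' : (t.y : ℝ) + 1 ≤ b.hi := by exact_mod_cast h'
    have k5 : r' ≤ (t.y - t.x + 1) / 2 + 1 / 8 := k1
    exact (abs_cc _ _ _ _ (r := r - r') (by push_cast; linarith [k4.1]) (by push_cast; linarith [k4.1])).not_ge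
      ((le_abs_self _).trans k2)

theorem K_sep {t t' : Tw} (h : t.Sep t') : Disjoint (R.K t) (R.K t') := disjoint_left.2 fun z p q => by
  have h1 := R.K_time p
  have h2 := R.K_time q
  rcases h with h | h
  · have : (t.y : ℝ) + 1 + 1 ≤ t'.x := by exact_mod_cast h
    linarith [h1.2, h2.1]
  · have : (t'.y : ℝ) + 1 + 1 ≤ t.x := by exact_mod_cast h
    linarith [h1.1, h2.2]

theorem K_II {t : Tw} (h1 : x < t.x) (h2 : t.y < y) : R.K t ⊆ X.τ ⁻¹' II x y :=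
  fun _ hz => II_mono (by omega) (by omega) (R.D_II hz)

/-- a list of twists -/
def tws : List Tw → X.mf.M ≃ₘ^∞⟮X.mf.I, X.mf.I⟯ X.mf.M
  | [] => Diffeomorph.refl _ _ _
  | t :: l => (tws l).trans (R.tw t)

theorem tws_mem {l : List Tw} {s : Set X.P.M} (h : ∀ t ∈ l, R.K t ⊆ s ∨ Disjoint (R.K t) s) {z : X.P.M} :
    R.tws l z ∈ s ↔ z ∈ s := by
  induction l with
  | nil => rfl
  | cons t l ih => exact (R.tw_mem (h t (by simp))).trans (ih fun t ht => h t (by simp [ht]))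

/-- THE BAND of a wall -/
def bn (a : Wl) (h : a.b.OK w) : Band X.mf := (R.nk a.b h).band.map (R.tws a.tw)

theorem bn_j (a : Wl) (h : a.b.OK w) (p : (mY C.kd (a.b.ty w)).M × ℝ) :
    (R.bn a h).j p = R.tws a.tw ((R.nk a.b h).j p) := rfl

theorem bn_sd (a : Wl) (h : a.b.OK w) {s : Bool} {z : X.P.M} :
    R.tws a.tw z ∈ (R.bn a h).wall.sd s ↔ z ∈ (R.nk a.b h).S s := by
  rw [← Nk.band_sd]
  change 0 < _ * (R.nk a.b h).band.ht ((R.tws a.tw).symm _) ↔ _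
  rw [Diffeomorph.symm_apply_apply]
  rfl

/-- the band of a wall as a set -/
def bW (a : Wl) : Set X.P.M := R.tws a.tw '' R.bd a.b

theorem range_bn (a : Wl) (h : a.b.OK w) : range (R.bn a h).j = R.bW a :=
  (range_comp (R.tws a.tw) (R.nk a.b h).j).trans (congrArg _ (R.spec_nk a.b h).b)

theorem bW_twist (t : Tw) (a : Wl) : R.bW (a.twist t) = R.tw t '' R.bW a := image_comp (R.tw t) _ _

theorem bW_II {a : Wl} (h : a.In x y) : R.bW a ⊆ X.τ ⁻¹' II x y := by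
  rintro _ ⟨z, hz, rfl⟩
  exact (R.tws_mem fun t ht => .inl (R.K_II (h.2.2 t ht).1 (h.2.2 t ht).2)).2 (II_mono h.1 h.2.1 (R.bd_II hz))

theorem K_clr {t : Tw} {a : Wl} (h : Wl.Clr t a) : Disjoint (R.K t) (R.bW a) := disjoint_right.2 <| by
  rintro _ ⟨z, hz, rfl⟩ k
  exact disjoint_left.1 (R.K_off h.1) ((R.tws_mem fun t' ht => .inr (R.K_sep (h.2 t' ht)).symm).1 k) hz

theorem far {a b : Wl} (h : a.Far b) : Disjoint (R.bW a) (R.bW b) := by
  induction h with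
  | bs h => exact (disjoint_image_iff (R.tws []).injective).2 (R.bd_far h)
  | tm h1 h2 h => exact disjoint_left.2 fun _ p q => II_disj h (R.bW_II h1 p) (R.bW_II h2 q)
  | both t _ ih => rw [bW_twist, bW_twist]; exact (disjoint_image_iff (R.tw t).injective).2 ih
  | one _ h ih =>
    rw [bW_twist, disjoint_left]
    rintro _ ⟨z, hz, rfl⟩ k
    exact disjoint_left.1 ih hz ((R.tw_mem (.inr (R.K_clr h))).1 k)
  | symm _ ih => exact ih.symm

end Rz

/-! ### the mark -/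

/-- the identification of a pinch wall with the unit sphere -/
def thY (kd : Γ.ι → Ext52.KD) : ∀ τ, (mY kd τ).M → V4
  | .sph => Subtype.val
  | _ => 0

/-- frames on the cross sections -/
structure Tab (kd : Γ.ι → Ext52.KD) (κ : Type) [Fintype κ] where
  g : ∀ τ, Fr (mY kd τ).I (mY kd τ).M κ
  vol : ∀ τ, (g τ).IsVol
  rnd : Round (g .sph) (thY kd .sph)

theorem Bs.ty_sph {w : Shp Γ} {b : Bs} : b.ty w = .sph ↔ b.pin := by cases b <;> simp [Bs.ty, Bs.pin]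

namespace Rz

variable {C : Cx Γ} {w : Shp Γ} {hw : w.OK} {X : TP V4} (R : Rz C hw X) {κ A : Type} [Fintype κ] (G : Tab C.kd κ)
  (W : A → Wl) (hW : ∀ a, (W a).b.OK w)

/-- THE MARK of a word with a family of walls; the orientation is `dt ∧ o` -/
def mark : Mark X.mf A κ where
  cpt := R.cpt
  con := R.con
  o := -R.O
  ori := ori_neg R.O_spec.ori
  bn a := R.bn (W a) (hW a)
  pin a := (W a).b.ty w = .sph
  gY a := G.g ((W a).b.ty w)
  gvol _ := G.vol _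
  th a := thY C.kd ((W a).b.ty w)
  rnd a h := by
    change Round (G.g _) (thY C.kd _)
    rw [h]
    exact G.rnd

theorem mark_cmp {a a' : A} (h : (W a).Far (W a')) : (R.mark G W hW).sys.Cmp a a' :=
  (R.far h).mono (R.range_bn _ (hW a)).le (R.range_bn _ (hW a')).le

theorem mark_spare (e : Fin 8 ↪ κ) (h : ∀ τ ≠ .sph, ∀ j y, Met55.atx (G.g τ).e y (e j) = 0) :
    (R.mark G W hW).Spare := ⟨e, fun _ => h _⟩

end Rz

end Crest.Agent.X212.Wd38
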