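import Crest.Agent.X212.Wd38.Kt

/-!
# X212 / Wd38, part P0 (helper38): from the root to the states `St0` and `SK 0`
-/

set_option autoImplicit false
noncomputable section

namespace Crest.Agent.X212.Wd38

open Crest.Agent.X212.Rod53 Crest.Agent.X212.Nm96 Finset Cn

variable {Γ : Nm} {P : Pm Γ} {T : WTh Γ} {w w' : Shp Γ} {n n' : Wt} {κ : Γ.ι} {x y : ℤ}
  {φ : Z2 → Z2 → ℤ → ℤ → ℝ}

theorem S_congr {a : ℤ} (e : Aq w w' n n' (a ≤ ·)) (l : w'.l = w.l) (r : w'.r = w.r) (h : a ≤ x) :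
    S w' n' φ x y = S w n φ x y := by
  rw [S, S, l, r]
  refine sum_congr rfl fun c hc => ?_
  have := (mem_filter.1 hc).2
  obtain ⟨a1, a2, -⟩ := e c (by omega)
  obtain ⟨b1, -, b3⟩ := e (c - 1) (by omega)
  simp only [Nm96.vx, Shp.lf, Shp.rt, a1, a2, b1, b3]

theorem vv_congr {a : ℤ} (e : Aq w w' n n' (a ≤ ·)) (h : a ≤ x) (h' : a ≤ y) :
    vv w' φ n' (.sA x y) = vv w φ n (.sA x y) := by
  simp only [vv, Bs.lo, Bs.hi, (e x h).1, (e x h).2.2, (e y h').1, (e y h').2.1]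

/-- the rods of the turn of the cable -/
def vC (k : ℕ) : Z2 := if k = 0 then (1, 0) else if k = 1 then (1, 1) else if k = 2 then (0, 1) else (-1, 0)

/-- its orders -/
def mC (e : ℤ) (k : ℕ) : ℤ := if k ≤ 1 then e else if k = 2 then 0 else -e

theorem cn {e : ℤ} (he : e = 1 ∨ e = -1) :
    (Sg lp vC (mC e) 0 2 - Vg lp vC (mC e) 0 2 = 0 ∧ Sg uu vC (mC e) 0 2 - Vg uu vC (mC e) 0 2 = 1) ∧
    (Sg lp vC (mC e) 1 3 - Vg lp vC (mC e) 1 3 = 0 ∧ Sg uu vC (mC e) 1 3 - Vg uu vC (mC e) 1 3 = 1) ∧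
    (Sg lp vC (mC e) 1 2 = 0 ∧ Sg uu vC (mC e) 1 2 = 0) ∧ (Sg lp vC (mC e) 2 3 = 1 / 2 ∧ Sg uu vC (mC e) 2 3 = 0) ∧
    (Vg lp vC (mC e) 1 3 = 1 / 2 ∧ Vg uu vC (mC e) 1 3 = -1) ∧
    ∑ k ∈ Ioc 0 3, lb (vC (k - 1)) (vC k) (aK 0 0 (k - 1)) (aK 0 0 k) (aK 0 0 (k - 1)) (aK 0 0 k) = -1 ∧
    ∑ k ∈ Ioc 0 3, lb (vC (k - 1)) (vC k) (mC e (k - 1)) (mC e k) (aK 0 0 (k - 1)) (aK 0 0 k) = 0 := by
  rcases he with rfl | rfl <;>
    simp [Sg, Vg, vC, mC, aK, Finset.Ioc_ofNat_ofNat, Nm96.lp, uu, lq, lb, lg, nn, dt, Nm96.rho]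

/-- what layer P needs of the names and of the parameters -/
structure Ent (P : Pm Γ) (κ : Γ.ι) (c ci : Γ.J) : Prop where
  cap : Γ.cap.2 = (1, 0)
  src : Γ.src c = (Γ.cap.1, (1, 1))
  tgt : Γ.tgt c = (κ, (4, 1))
  src' : Γ.src ci = Γ.tgt c
  tgt' : Γ.tgt ci = Γ.src c
  iv : P.iv c ci
  x : P.Λ.x = 1 ∨ P.Λ.x = -1
  ok : ∃ y, P.Λ.ok c P.Λ.x y ∧ P.Λ.ok ci y P.Λ.x
  M : 13 ≤ P.M

/-- the word after the turn of the cable and the insertion of `c`, `ci` -/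
def F3 (c ci : Γ.J) (u : ℕ → ℤ) : Fm Γ :=
  frz ⟨(Shp.put ⟨u 0 - 1, u (3 + 1) + 1, fun _ => .rod Γ.cap⟩ Γ.cap.1 u vC 3).can c ci (u 1 + 1) (u 2 - 3), ∅, ∅⟩
    (u 2 - 4)

/-- its line -/
def n3 (e μ : ℤ) (u : ℕ → ℤ) : Wt :=
  (Wt.put u (mC e) 3 ⟨fun _ => e, fun _ => e, 0, 0⟩).can (u 1 + 1) (u 2 - 3) μ

theorem Ent.sk3s (H : Ax0 P T) {c ci : Γ.J} (E : Ent P κ c ci) {μ : ℤ} (o1 : P.Λ.ok c P.Λ.x μ)
    (o2 : P.Λ.ok ci μ P.Λ.x) {u : ℕ → ℤ} (g : ∀ k, u k + 7 ≤ u (k + 1)) :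
    Pt (Shp.put ⟨u 0 - 1, u (3 + 1) + 1, fun _ => .rod Γ.cap⟩ Γ.cap.1 u vC 3)
      (Wt.put u (mC P.Λ.x) 3 ⟨fun _ => P.Λ.x, fun _ => P.Λ.x, 0, 0⟩) Γ.cap.1 u vC (mC P.Λ.x) 3 ∧
    SKs P T κ 3 (F3 c ci u) (n3 P.Λ.x μ u) (u 2 - 4) (u 2 - 4) (0 + 1)
      (J (Bs.sS (u 2 + 1)) (Bs.sA (u 2 - 1) (u 3)) (gen (n3 P.Λ.x μ u) ∅)) (u 1 + 1 + 1) μ := by
  have mono : StrictMono u := strictMono_nat_of_lt_succ fun k => by have := g k; omega
  have g0 : u 0 + 7 ≤ u 1 := g 0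
  have g1 : u 1 + 7 ≤ u 2 := g 1
  have g2 : u 2 + 7 ≤ u 3 := g 2
  have g3 := g 3
  have a0 : u (0 + 1) = u 1 := rfl
  have a1 : u (1 + 1) = u 2 := rfl
  have a2 : u (2 + 1) = u 3 := rfl
  have hM := E.M
  unfold F3 n3
  generalize hr : u (3 + 1) + 1 = r
  generalize hl : u 0 - 1 = l
  set e := P.Λ.x with he
  set n0 : Wt := ⟨fun _ => e, fun _ => e, 0, 0⟩
  set F0 : Fm Γ := ⟨⟨l, r, fun _ => .rod Γ.cap⟩, ∅, ∅⟩
  have pr : Pr Γ.cap.2 := E.cap ▸ ⟨(0, 1), .inl rfl⟩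
  have B0 : Bas P F0 n0 (l - 1) (r + 1) :=
    ⟨⟨⟨by change l < r; omega, rfl, rfl, fun _ _ _ => ⟨pr, pr⟩, fun _ _ _ => ⟨rfl, .inl (.inl rfl)⟩⟩,
      by simp [F0], by simp [F0], by simp [F0], by simp [F0]⟩, rfl, ⟨⟨rfl, rfl, fun _ _ _ _ _ => rfl,
      fun _ _ _ _ => nofun, fun _ _ _ _ => rfl, fun _ _ _ q => (pr.ne_neg q).elim⟩, rfl, rfl, by simp [F0]⟩,
      fun _ => by simp [F0, Sl.l, Sl.r, E.cap], by change l ≤ r + 1; omega, .inr ⟨rfl, rfl⟩, by simp [F0]⟩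
  have ch : ∀ (F : Fm Γ) n, F.w.r = r → Ch P F n (l - 1) (r + 1) (vR P) 0 (gen n ∅) := fun F n k =>
    ⟨.gen n, fun p hp => by
      rw [mem_gen hp]
      exact ⟨rfl, by simp, by simp, by simp, by simp, fun q => by omega, fun _ => rfl⟩⟩
  have nv := H.nv _ n0 (fun _ => rfl) ((ch F0 n0 rfl).gc0 B0 (p := (n0, ∅)) (by simp [gen]))
  have h : Tn F0.w n0 Γ.cap.1 u vC (mC e) 3 :=
    ⟨mono, by change l < _; omega, by change _ < r; omega, fun _ _ _ => ⟨congrArg Sl.rod (Prod.ext rfl E.cap), rfl,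
      rfl⟩, by unfold Uni; decide, rfl, rfl⟩
  obtain ⟨c1, c2, c3, c4, c5, c6, c7⟩ := cn E.x
  set F1 : Fm Γ := { F0 with w := F0.w.put Γ.cap.1 u vC 3 }
  set n1 := n0.put u (mC e) 3
  have B1 : Bas P F1 n1 (l - 1) (r + 1) := B0.tr (h.ok B0.ok.w B0.lok.ok).1 (h.ok B0.ok.w B0.lok.ok).2
    (p1_put B0.p1 fun k => by unfold vC; split_ifs <;> simp) rfl rfl
    (fun i q => (put_ag (m := mC e) n0 i (.inr (by omega))).1) rfl rfl
  have pe : Pe F1.w n1 _ u vC (mC e) 3 (r + 1) := h.pe (by omega) fun _ _ _ _ => congrArg Sl.rod (Prod.ext rfl E.cap)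
  have I1 := h.pt.in1 (x := u 0 + 1) (y := u 2) (by omega) (by omega) (by omega) (by omega) le_rfl (by omega) c1
  have I2 := h.pt.in1 (x := u 2 - 1) (y := u 3) (by omega) (by omega) (by omega) le_rfl le_rfl (by omega) c2
  have oS := h.pt.okS (k0 := 2) (x := u 2 + 1) (by omega) (by omega) (by omega) rfl
  have oE := h.pt.okA (k0 := 1) (k1 := 3) (x := u 2 - 1) (y := u 3) (by omega) (by omega) (by omega) le_rfl le_rfl
    (by omega) (by omega) (.inl rfl)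
  have e1 := B1.lwA (v := vR P) (h.pt.okA (k0 := 0) (k1 := 2) (by omega) (by omega) (by omega) (by omega) le_rfl
    (by omega) (by omega) (.inl rfl)) (by omega) I1
  have e2 := B1.lwA (v := vR P) oE (by omega) I2
  have SR : ∀ {φ}, Vn φ → S F1.w n1 φ (u 2 + 1) (r + 1) = Sg φ vC (mC e) 2 3 := fun k =>
    pe.S k (by omega) (by omega) (by omega)
  have nq : ∀ (F : Fm Γ) n B η s z, Nq F n B η s (r + 1) z (vR P).1 (vR P).2 (1 / 2) 0 0 1 (1 : ℤ) :=
    fun _ _ _ _ _ _ => ⟨by simp [vR]; linarith, .inr ⟨0, .inl rfl, by simp [vR]; linarith⟩⟩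
  have s1 : Lw F1 n1 (l - 1) (r + 1) (vR P) (.sS (u 2 + 1)) := ⟨oS, trivial, by change u 2 + 1 < _; omega, fun _ _ =>
    br_s (c := 1) B1.cw oS (by change l - 1 < _; omega) (by omega) (by simp) fun η _ => by
      rw [SR vn_lp, SR vn_uu, c4.1, c4.2]; exact nq ..⟩
  have z1 := H.turn B0 (ch F0 n0 rfl) h (by omega) B1 (h.rs B0.ok.w ∅ rfl (fun _ : Fin 1 => aK 0 0) 0
    (fun _ => ⟨rfl, rfl⟩) (fun i j => by rw [c6, if_pos (Subsingleton.elim _ _)])
    (fun i => by rw [c7, if_pos (Subsingleton.elim _ _), abs_zero]) (k0 := 0) (k1 := 2) (k0' := 1) (k1' := 3)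
    (b := 0) (b' := -1) (by omega) (by omega) le_rfl (by omega) (by omega) (by omega) le_rfl (by omega)
    (by decide) (by decide) (by decide)) e1 e2
  rw [mp_gen, image_empty, union_empty, nv, H.split B1 (ch F1 n1 rfl) e1 s1 e2 trivial trivial trivial,
    H.two B1 (ch F1 n1 rfl) e1 s1 trivial trivial (.inl (lt_add_one _)) fun σ => br_as (c := 1) B1.cw e1.ok oS
      (by change l - 1 < _; omega) (lt_add_one _) (by omega) I1 (by simp) fun η _ => by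
        rw [SR vn_lp, SR vn_uu, c4.1, c4.2]; exact nq .., zero_add] at z1
  -- the junctions
  have rd : Rd F1.w n1 (Γ.src c).1 (Γ.src c).2 e (u 1 + 1 - 1) (u 2 - 3 + 1) := by
    rw [E.src]; exact (h.pt.rd 1 (by omega)).mono (by omega) (by omega)
  have lt : u 1 + 1 < u 2 - 3 := by omega
  set F2 : Fm Γ := { F1 with w := F1.w.can c ci (u 1 + 1) (u 2 - 3) }
  set n2 := n1.can (u 1 + 1) (u 2 - 3) μ
  have ag : Aq F1.w F2.w n1 n2 (u 2 - 2 ≤ ·) := (can_ag n1 lt).mono fun _ q => .inr (by omega)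
  have ok := can_ok B1.ok.w B1.lok.ok (by change l < _; omega) (by omega) (by change _ < r; omega) rd E.src' E.tgt'
    (E.tgt ▸ ⟨(1, 0), .inr rfl⟩) o1 o2
  have B2 : Bas P F2 n2 (l - 1) (r + 1) := B1.tr ok.1 ok.2 (fun j => by
    simp only [Shp.can]
    split_ifs
    exacts [by simp [Sl.l, Sl.r, E.src, E.tgt], by simp [Sl.l, Sl.r, E.src', E.tgt', E.src, E.tgt],
      by simp [Sl.l, Sl.r, E.tgt], B1.p1 j]) rfl rfl (fun i q => (ag i (by omega)).1) rfl rfl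
  have oS' : (Bs.sS (u 2 + 1)).OK F2.w := ok_congr oS rfl rfl fun j q => (ag j (by change u 2 + 1 ≤ j at q; omega)).1
  have oE' : (Bs.sA (u 2 - 1) (u 3)).OK F2.w :=
    ok_congr oE rfl rfl fun j q => (ag j (by change u 2 - 1 ≤ j at q; omega)).1
  have I2' : In1 F2.w n2 (u 2 - 1) (u 3) := by
    rwa [In1, S_congr ag rfl rfl (by omega), S_congr ag rfl rfl (by omega), vv_congr ag (by omega) (by omega),
      vv_congr ag (by omega) (by omega)]
  have SR' : ∀ {φ}, Vn φ → S F2.w n2 φ (u 2 + 1) (r + 1) = Sg φ vC (mC e) 2 3 := fun k => by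
    rw [S_congr ag rfl rfl (by omega), SR k]
  have s2 : Lw F2 n2 (l - 1) (r + 1) (vR P) (.sS (u 2 + 1)) := ⟨oS', trivial, s1.hi, fun _ _ =>
    br_s (c := 1) B2.cw oS' (by change l - 1 < _; omega) (by omega) (by simp) fun η _ => by
      rw [SR' vn_lp, SR' vn_uu, c4.1, c4.2]; exact nq ..⟩
  have cl2 := (ch F2 n2 rfl).clJ B2 s2 trivial (B2.lwA oE' (by omega) I2') trivial
  have ec : (J (Bs.sS (u 2 + 1)) (Bs.sA (u 2 - 1) (u 3)) (gen n1 ∅)).mp (Wt.can (u 1 + 1) (u 2 - 3) μ) id ∅ =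
      J (Bs.sS (u 2 + 1)) (Bs.sA (u 2 - 1) (u 3)) (gen n2 ∅) := by rw [mp_J, mp_gen, image_empty, union_empty]
  have cell : ∀ {n : Wt} {a b : Wl}, ∀ q ∈ (J a b (gen n ∅)).support, q = (n, {a}) ∨ q = (n, {b}) := fun q hq => by
    obtain ⟨p, hp, k⟩ := mem_J hq
    rwa [mem_gen hp] at k
  rw [H.can F1 _ c ci _ _ (Wt.can (u 1 + 1) (u 2 - 3) μ) _ _ (can_can (by change l < _; omega) lt
    (by change _ < r; omega) rd) E.iv (by simp [E.src]) can_chg (fun a q => by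
      obtain ⟨p, hp, k⟩ := mem_walls.1 q
      rcases cell p hp with rfl | rfl <;> rw [mem_singleton.1 k]
      exacts [⟨_, _, ⟨le_rfl, le_rfl, by simp⟩, .inr (by change _ < u 2 + 1; omega)⟩,
        ⟨_, _, ⟨le_rfl, le_rfl, by simp⟩, .inr (by change _ < u 2 - 1; omega)⟩]) (by simp [F1, F0])
    ((ch F1 n1 rfl).clJ B1 s1 trivial e2 trivial) (ec ▸ cl2), ec] at z1
  -- the last cut
  have rk : Rd F2.w n2 κ (4, 1) μ (u 1 + 1 + 1) (u 2 - 3 - 1) := by
    have := can_rd (w := F1.w) (J := c) (J' := ci) (x := u 1 + 1) (y := u 2 - 3) (μ' := μ) n1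
    rwa [E.tgt] at this
  have cut : (frz F2 (u 2 - 4)).Cut (u 2 - 4) :=
    ⟨mem_insert_self _ _, by erw [(rk _ (by omega) (by omega)).1]; exact one_ne_zero⟩
  have B3 : Bas P (frz F2 (u 2 - 4)) n2 (u 2 - 4) (u 2 - 4) :=
    ⟨frz_ok B2.ok rfl (by change l ≤ _; omega) (by change _ < r; omega), rfl,
      ⟨B2.lok.ok, B2.lok.mL, B2.lok.mR, B2.lok.ls⟩, B2.p1, by change l ≤ _; omega, .inl ⟨cut, le_rfl, cut⟩,
      by simp [frz, F2, F1, F0, Bs.lo]⟩
  have cw : Cw (frz F2 (u 2 - 4)) (u 2 - 4) (r + 1) (u 2 - 4) :=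
    ⟨rfl, B2.ok.w, B2.p1, by omega, .inr cut, .inr ⟨rfl, rfl⟩⟩
  have S0 : ∀ {φ a}, Vn φ → u 2 - 2 ≤ a → S F2.w n2 φ (u 2 - 4) a = S F1.w n1 φ (u 2 - 2) a := fun k q => by
    rw [S_cut (y := u 2 - 2) (by omega) q, S_congr ag rfl rfl le_rfl, S_zero k, zero_add]
    intro j j1 j2 _ _
    have y1 := (can_y (w := F1.w) (J := c) (J' := ci) (μ' := μ) n1 lt).1
    rcases (show j = u 2 - 3 ∨ j = u 2 - 3 + 1 by omega) with rfl | rfl
    · erw [Shp.lf, Shp.rt, y1, (rk _ (by omega) le_rfl).1, Sl.l, E.src', E.tgt]; exact dt_self _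
    · erw [Shp.lf, Shp.rt, add_sub_cancel_right, y1, (ag _ (by omega)).1, (rd _ (by omega) le_rfl).1, Sl.r, E.tgt']
      exact dt_self _
  have SL : ∀ {φ}, Vn φ → S F2.w n2 φ (u 2 - 4) (u 2 + 1) = Sg φ vC (mC e) 1 2 := fun k => by
    rw [S0 k (by omega)]; exact h.pt.S k (by omega) (by omega) (by omega) (by omega) (by omega)
  have h0 : ∀ η, Nq (frz F2 (u 2 - 4)) n2 ∅ η (u 2 - 4) (r + 1) (u 2 - 4) ((vR P).1 - (vT 3).1)
      ((vR P).2 - (vT 3).2) (S F2.w n2 lp (u 2 - 4) (r + 1)) (S F2.w n2 uu (u 2 - 4) (r + 1)) 1 0 0 := fun η => by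
    rw [S_cut (y := u 2 + 1) (by omega) (by omega), S_cut (φ := uu) (y := u 2 + 1) (by omega) (by omega),
      SL vn_lp, SL vn_uu, SR' vn_lp, SR' vn_uu, c3.1, c3.2, c4.1, c4.2]
    exact ⟨by simp [vR, vT]; linarith, .inr ⟨0, .inl rfl, by simp [vR, vT]; linarith⟩⟩
  have tl : ∀ a : Bs, u 2 - 4 < a.lo → a.lo < r + 1 → a.pin → a.OK F2.w →
      (∀ η, (frz F2 (u 2 - 4)).Pc (u 2 - 4) 0 n2 {a} {a} (cf 1) (u 2 - 4) (r + 1) (vT 3) (vR P) η) →
      Tl P (frz F2 (u 2 - 4)) n2 (u 2 - 4) (u 2 - 4) (vT 3) (image Wl.b {↑a}) := fun a p q i o k => by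
    rw [image_singleton]
    exact ⟨by simpa using ⟨p, i, o⟩, by simp, by simpa [frz, F2, F1, F0] using .inr (.inl p),
      fun _ => win_one cw (filter_true_of_mem fun b i => mem_singleton.1 i ▸ ⟨p.le, q⟩) h0 k,
      fun q => by have : u 2 - 4 = r + 1 := q; omega⟩
  have C3 : Ch P (frz F2 (u 2 - 4)) n2 (u 2 - 4) (u 2 - 4) (vT 3) (0 + 1)
      (J (Bs.sS (u 2 + 1)) (Bs.sA (u 2 - 1) (u 3)) (gen n2 ∅)) := by
    refine ⟨(Fm.Pre.gen n2).J trivial trivial (fun p hp => by simp [mem_gen hp]) fun p hp => by simp [mem_gen hp],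
      fun q hq => ?_⟩
    rcases cell q hq with rfl | rfl <;> refine ⟨rfl, by simp, tl _ ?_ ?_ trivial ‹_› fun η => ?_⟩
    · change _ < u 2 + 1; omega
    · change u 2 + 1 < _; omega
    · cases k : η (.sS (u 2 + 1))
      · refine pc_l cw oS' (by omega) (by omega) k ?_
        erw [SL vn_lp, SL vn_uu, c3.1, c3.2]
        exact ⟨by norm_num [vT], .inr ⟨0, .inl rfl, by norm_num [vT]⟩⟩
      · refine pc_r cw oS' (by omega) (by omega) k ?_
        erw [SR' vn_lp, SR' vn_uu, c4.1, c4.2]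
        exact nq ..
    · change _ < u 2 - 1; omega
    · change u 2 - 1 < _; omega
    · cases k : η (.sA (u 2 - 1) (u 3))
      · exact pc_in cw (fun b i => by rw [mem_singleton.1 i]; exact ⟨trivial, oE', e2.hi⟩)
          (mem_singleton_self _) (by omega) k I2' _ (by simp)
      · refine pc_o cw oE' (by omega) (by omega) k ?_
        have i : ∀ {φ}, Vn φ → S F2.w n2 φ (u 2 - 4) (u 2 - 1) + S F2.w n2 φ (u 3) (r + 1) +
            vv F2.w φ n2 (.sA (u 2 - 1) (u 3)) = Vg φ vC (mC e) 1 3 := fun k => by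
          rw [S0 k (by omega), S_congr ag rfl rfl (by omega), vv_congr ag (by omega) (by omega),
            pe.S k le_rfl le_rfl (by omega), pe.toPt.S (k0 := 1) (k1 := 1) k (by omega) (by omega) (by omega)
            (by omega) (by omega), pe.toPt.vv (k0 := 1) (k1 := 3) (by omega) le_rfl (by omega) (by omega) le_rfl
            (by omega)]
          simp [Sg, Vg]
        erw [i vn_lp, i vn_uu, c5.1, c5.2]
        exact ⟨by simp [vR, vT]; linarith, .inr ⟨0, .inl rfl, by simp [vR, vT]; linarith⟩⟩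
  exact ⟨h.pt, B3, le_rfl, by change _ ≤ r; omega, C3, by change l < _; omega,
    rk.mono le_rfl (by omega), by rw [H.frz1 cl2 (C3.cl B3), z1]; exact one_ne_zero⟩

theorem Ent.sk3 (H : Ax0 P T) {c ci : Γ.J} (E : Ent P κ c ci) {L : ℤ} (hL : 1 ≤ L) : SK P T κ 3 L := by
  obtain ⟨μ, o1, o2⟩ := E.ok
  have k := (E.sk3s H o1 o2 (u := fun k => k * (L + 6)) fun k => by push_cast; linarith).2
  exact ⟨_, _, _, _, _, _, _, _, k.bas, k.tz, k.tr, k.ch, k.lo, by push_cast; omega, k.rd, k.ne⟩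

theorem St0.mono {L L' z t : ℤ} {j d : ℕ} {F : Fm Γ} {c : Cn} {u : ℕ → ℤ} (h : St0 P T κ L j F n z t d c u y)
    (k : L' ≤ L) : St0 P T κ L' j F n z t d c u y :=
  { h with gap := fun i => by have := h.gap i; omega }

/-- **P0** -/
theorem Ent.st0 (H : Ax0 P T) {c ci : Γ.J} (E : Ent P κ c ci) (L : ℤ) :
    ∃ j F n z t d c u y, St0 P T κ L j F n z t d c u y := by
  obtain ⟨l, hl, hL⟩ : ∃ l, 4 ≤ l ∧ L ≤ l := ⟨max 4 L, le_max_left _ _, le_max_right _ _⟩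
  have key : ∀ j ≤ 3, ∃ l', l ≤ l' ∧ (SK P T κ j ((j + 4) * l' + 1) →
      ∃ j F n z t d c u y, St0 P T κ L j F n z t d c u y) := fun j hj => by
    induction j with
    | zero =>
      refine ⟨l, le_rfl, fun h => ?_⟩
      rcases kstep H hj hl h with ⟨F, n, z, t, d, c, u, y, k⟩ | ⟨i, e, -⟩
      exacts [⟨_, F, n, z, t, d, c, u, y, k.mono hL⟩, by omega]
    | succ j ih =>
      obtain ⟨l', a, b⟩ := ih (by omega)
      have : l' ≤ (j + 4) * l' := le_mul_of_one_le_left (by omega) (by omega)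
      refine ⟨(j + 4) * l' + 3, by omega, fun h => ?_⟩
      rcases kstep H hj (by omega) h with ⟨F, n, z, t, d, c, u, y, k⟩ | ⟨i, e, k⟩
      · exact ⟨_, F, n, z, t, d, c, u, y, k.mono (by omega)⟩
      · obtain rfl : j = i := by omega
        exact b (by convert k using 1; ring)
  obtain ⟨l', a, b⟩ := key 3 le_rfl
  exact b (E.sk3 H (by push_cast; omega))

/-- freezing `Y₀` and a slice on `(1, 1)` -/
theorem St0.sk0s (H : Ax0 P T) {L z t : ℤ} {j d : ℕ} {F : Fm Γ} {c : Cn} {u : ℕ → ℤ} (hL : 3 ≤ L)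
    (h : St0 P T κ L j F n z t d c u y) : SKs P T κ 0 (frz (frz F (u (j + 2) + 1)) (u (j + 1) - 2)) n z
      (u (j + 1) - 2) (d + 1) (J (Bs.sA (u (j + 1) - 1) (u (j + 2))) (Bs.sS (u (j + 1))) c) (u j) (mT j y j) := by
  have B := h.bas
  have pe := h.pe
  have tr := h.tr
  have g2 := h.gap j
  have g3 : u (j + 1) + L ≤ u (j + 2) := h.gap (j + 1)
  have g4 : u (j + 2) + L ≤ u (j + 3) := h.gap (j + 2)
  have g5 := h.gap (j + 3)
  have g6 := pe.mono.monotone j.zero_le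
  have g7 := pe.le
  have g8 := pe.lo
  have a2 : u (j + 1 + 1) = u (j + 2) := rfl
  have a3 : u (j + 2 + 1) = u (j + 3) := rfl
  obtain ⟨-, -, vj, -, vj2, -⟩ := kn_v (j := j)
  have k := B.hi.resolve_right (by omega)
  have r1 := vj ▸ pe.rd j (by omega)
  have r2 := (kn_m (j := j) y).2.2.2.2.2.2.1 ▸ vj2 ▸ pe.rd (j + 2) (by omega) (u (j + 2) + 1) (by omega) (by omega)
  set F' := frz (frz F (u (j + 2) + 1)) (u (j + 1) - 2)
  have cut : F'.Cut (u (j + 1) - 2) :=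
    ⟨mem_insert_self _ _, by erw [(r1 _ (by omega) (by omega)).1]; exact one_ne_zero⟩
  have mem : ∀ a ∈ F'.fz, a = .yS (u (j + 1) - 2) ∨ a = .yS (u (j + 2) + 1) ∨ a ∈ F.fz := by simp [F', frz]
  have B' : Bas P F' n z (u (j + 1) - 2) :=
    ⟨frz_ok (frz_ok B.ok B.ls (by omega) (by omega)) B.ls (by change F.w.l ≤ _; omega) (by change _ < F.w.r; omega),
      B.ls, ⟨B.lok.ok, B.lok.mL, B.lok.mR, B.lok.ls⟩, B.p1, by change F.w.l ≤ _; omega,
      .inl ⟨cut, by omega, frz_cut (frz_cut k.2.2)⟩, fun a q => by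
        rcases mem a q with rfl | rfl | q
        exacts [le_rfl, by change _ ≤ u _ + 1; omega, by have := B.fz a q; omega]⟩
  have cw : Cw F' (u (j + 1) - 2) t z :=
    ⟨B.ls, B.ok.w, B.p1, by omega, .inr cut, .inl ⟨frz_cut (frz_cut k.1), k.2.1⟩⟩
  have far : ∀ a : Bs, u (j + 1) - 2 < a.lo → a.hi < u (j + 2) + 1 → ∀ b ∈ F'.fz, a.Far b := fun a p q b i => by
    rcases mem b i with rfl | rfl | i
    exacts [.inr (.inl p), .inl q, .inl (by have := B.fz b i; omega)]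
  have hg : ∀ A η, InV A η (u (j + 2) + 1 + 1) → F'.HgW n A η (u (j + 1) - 2) t := fun A η i =>
    ⟨_, by omega, by omega, mem_insert_of_mem (mem_insert_self _ _), by erw [r2.1]; rfl, by rw [r2.2.2]; decide, i⟩
  have kl := kt_l h.le y
  have kr := kt_r h.le y
  have SL : ∀ {φ a}, Vn φ → u j ≤ a → a < u (j + 1) → S F.w n φ a (u (j + 1)) = Sg φ (vK j) (mT j y) j (j + 1) :=
    fun k p q => pe.toPt.S k (by omega) p q le_rfl (by omega)
  have SR : ∀ {φ}, Vn φ → S F.w n φ (u (j + 1)) t = Sg φ (vK j) (mT j y) (j + 1) (j + 3) := fun k =>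
    pe.S k (by omega) le_rfl (by omega)
  have I := pe.toPt.in1 (x := u (j + 1) - 1) (y := u (j + 2)) (by omega) (by omega) (by omega) (by omega) le_rfl
    (by omega) (kt_e h.le y)
  have hj := h.le
  have h0 : ∀ η, Nq F' n ∅ η (u (j + 1) - 2) t z ((vT j).1 - (vT 0).1) ((vT j).2 - (vT 0).2)
      (S F.w n lp (u (j + 1) - 2) t) (S F.w n uu (u (j + 1) - 2) t) 1 0 0 := fun η => by
    rw [S_cut (y := u (j + 1)) (by omega) (by omega), S_cut (φ := uu) (y := u (j + 1)) (by omega) (by omega),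
      SL vn_lp (by omega) (by omega), SL vn_uu (by omega) (by omega), SR vn_lp, SR vn_uu, kl.1, kl.2, kr.1, kr.2]
    exact ⟨by interval_cases j <;> norm_num [vT, gK], .inl (hg _ _ (by simp [InV]))⟩
  have C := (((h.ch.frz B (y := u (j + 2) + 1) (by omega)).tr (F' := F') id B.ls B.ls rfl rfl
    (fun _ _ => ⟨rfl, rfl, rfl⟩) (subset_insert _ _) fun _ q => (mem_insert.1 q).elim
    (fun e => .inr (by rw [e]; change u _ - 2 ≤ t; omega)) .inl)).J (v' := vT 0) B.ls (by omega) h.tz tr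
    ⟨by change _ < u _ - 1; omega, h.lwE.hi, trivial, h.lwE.ok, far _ (by change _ < u _ - 1; omega) (lt_add_one _),
      fun σ e => win_one cw e h0 fun η => by
        cases k : η (.sA (u (j + 1) - 1) (u (j + 2)))
        · exact pc_in cw (fun b i => by rw [mem_singleton.1 i]; exact ⟨trivial, h.lwE.ok, h.lwE.hi⟩)
            (mem_singleton_self _) (by omega) k I _ (by simp)
        · refine pc_o cw h.lwE.ok (by omega) h.lwE.hi k ⟨?_, .inl (hg _ _ (by simp [InV, Bs.side, k]))⟩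
          have i : ∀ {φ}, Vn φ → S F.w n φ (u (j + 1) - 2) (u (j + 1) - 1) + S F.w n φ (u (j + 2)) t +
              vv F.w φ n (.sA (u (j + 1) - 1) (u (j + 2))) = Sg φ (vK j) (mT j y) j (j + 1) +
              Sg φ (vK j) (mT j y) (j + 1) (j + 3) - (S F.w n φ (u (j + 1) - 1) (u (j + 2)) -
              vv F.w φ n (.sA (u (j + 1) - 1) (u (j + 2)))) := fun {φ} k => by
            rw [← SL (a := u (j + 1) - 2) k (by omega) (by omega), ← SR k, ← S_cut (by omega) (by omega),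
              S_cut (x := u (j + 1) - 2) (y := u (j + 1) - 1) (z := t) (by omega) (by omega),
              S_cut (x := u (j + 1) - 1) (y := u (j + 2)) (z := t) (by omega) (by omega)]
            ring
          erw [i vn_lp, i vn_uu, I.1, I.2, kl.1, kl.2, kr.1, kr.2]
          interval_cases j <;> norm_num [vT, gK]⟩
    ⟨by change _ < u _; omega, h.lwS.hi, trivial, h.lwS.ok, far _ (by change _ < u _; omega)
      (by change u _ < _; omega), fun σ e => win_one cw e h0 fun η => by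
        cases k : η (.sS (u (j + 1)))
        · refine pc_l cw h.lwS.ok (by omega) (by omega) k ?_
          erw [SL vn_lp (by omega) (by omega), SL vn_uu (by omega) (by omega), kl.1, kl.2]
          exact ⟨by norm_num [vT], .inr ⟨0, .inl rfl, by norm_num [vT]⟩⟩
        · refine pc_r cw h.lwS.ok (by omega) (by omega) k ?_
          erw [SR vn_lp, SR vn_uu, kr.1, kr.2]
          exact nq_r hj h.tz _ _⟩
  rw [mp_id] at C
  refine ⟨B', by omega, by change _ ≤ F.w.r; omega, C, by change F.w.l < _; omega,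
    by exact_mod_cast r1.mono le_rfl (by omega), ?_⟩
  exact (H.frz F F'.fz _ _ ((subset_insert _ _).trans (subset_insert _ _))
    (h.ch.clJ B h.lwE trivial h.lwS trivial) (C.cl B')).symm.trans_ne h.ne

/-- **P0, entry for `p = 2`**: a long rod `(1, 1)`, reserve `(1/2, -1)` -/
theorem Ent.sk0 (H : Ax0 P T) {c ci : Γ.J} (E : Ent P κ c ci) (L : ℤ) : SK P T κ 0 L := by
  obtain ⟨j, F, n, z, t, d, c, u, y, h⟩ := E.st0 H (max L 1 + 2)
  have k := h.sk0s H (by omega)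
  exact ⟨_, _, _, _, _, _, _, _, k.bas, k.tz, k.tr, k.ch, k.lo, by have := h.gap j; omega, k.rd, k.ne⟩

end Crest.Agent.X212.Wd38
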