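import Crest.Agent.X212.Wd38.P0

/-!
# X212 / Wd38, part P1 (helper38): the entry states with a tail that does not depend on the length of the gap
-/

set_option autoImplicit false
noncomputable section

namespace Crest.Agent.X212.Wd38

open Crest.Agent.X212.Rod53 Crest.Agent.X212.Nm96 Finset Cn

variable {Γ : Nm} {P : Pm Γ} {T : WTh Γ} {w w' : Shp Γ} {n n' n₀ : Wt} {κ : Γ.ι} {F F' F₀ : Fm Γ} {c c' c₀ : Cn}
  {z t x x' y : ℤ} {d j : ℕ} {u u' : ℕ → ℤ}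

/-- the same tail -/
structure Sam (t : ℤ) (F₀ : Fm Γ) (n₀ : Wt) (c₀ : Cn) (F : Fm Γ) (n : Wt) (c : Cn) : Prop where
  r : F.w.r = F₀.w.r
  aq : Aq F₀.w F.w n₀ n (t ≤ ·)
  fz : F.fz = F₀.fz
  c : c = c₀.mp (fun _ => n) id ∅

theorem Aq.trans {w'' : Shp Γ} {n'' : Wt} {s : ℤ → Prop} (h : Aq w w' n n' s) (k : Aq w' w'' n' n'' s) :
    Aq w w'' n n'' s := fun j q =>
  ⟨(k j q).1.trans (h j q).1, (k j q).2.1.trans (h j q).2.1, (k j q).2.2.trans (h j q).2.2⟩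

theorem Aq.symm {s : ℤ → Prop} (h : Aq w w' n n' s) : Aq w' w n' n s := fun j q =>
  ⟨(h j q).1.symm, (h j q).2.1.symm, (h j q).2.2.symm⟩

theorem Rd.aq {v : Z2} {μ a b a' b' : ℤ} (h : Rd w n κ v μ a b) (h' : Rd w' n' κ v μ a' b') :
    Aq w w' n n' fun j => (a ≤ j ∧ j ≤ b) ∧ a' ≤ j ∧ j ≤ b' := fun j q =>
  have k := h j q.1.1 q.1.2
  have k' := h' j q.2.1 q.2.2
  ⟨k'.1.trans k.1.symm, k'.2.1.trans k.2.1.symm, k'.2.2.trans k.2.2.symm⟩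

theorem Pt.aq {V : ℕ → Z2} {m : ℕ → ℤ} {N k0 : ℕ} {a : ℤ} (h : Pt w n κ u V m N) (h' : Pt w' n' κ u' V m N)
    (e : ∀ k, k0 < k → u' k = u k) (ha : u k0 ≤ a) (ha' : u' k0 ≤ a) :
    Aq w w' n n' fun j => a ≤ j ∧ j < u (N + 1) := fun j q => by
  have i0 := (h.mono.monotone k0.zero_le).trans (ha.trans q.1)
  have i1 := ix_le h.mono i0
  have i2 := lt_ix h.mono j
  have i3 := (h.rod i0 q.2).1
  have i4 : k0 ≤ ix u j := Nat.lt_succ_iff.1 (h.mono.lt_iff_lt.1 ((ha.trans q.1).trans_lt i2))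
  generalize ix u j = k at *
  refine (h.rd k i3).aq (h'.rd k i3) j ⟨⟨i1, by omega⟩, ?_, by rw [e _ (by omega)]; omega⟩
  rcases i4.eq_or_lt with rfl | i4
  exacts [ha'.trans q.1, e k i4 ▸ i1]

theorem mp_const (c : Cn) (n : Wt) (g : Wt → Wt) :
    (c.mp (fun _ => n) id ∅).mp g id ∅ = c.mp (fun _ => g n) id ∅ := by
  rw [mp_mp]; exact mp_congr fun _ _ => ⟨rfl, by simp⟩

theorem Sam.put (s : Sam t F₀ n₀ c₀ F n c) {V : ℕ → Z2} (m : ℕ → ℤ) {N : ℕ} (h : u (N + 1) ≤ t) :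
    Sam t F₀ n₀ c₀ { F with w := F.w.put κ u V N } (n.put u m N) (c.mp (Wt.put u m N) id ∅) :=
  ⟨s.r, s.aq.trans ((put_ag n).mono fun _ q => .inr (h.trans q)), s.fz, by rw [s.c, mp_const]⟩

/-- two turns with the same right part -/
theorem Sam.aq2 (s : Sam t F₀ n₀ c₀ F n c) (s' : Sam t F₀ n₀ c₀ F' n' c') {V : ℕ → Z2} {m : ℕ → ℤ} {N k0 : ℕ} {a : ℤ}
    {v : Z2} (r : Rd F.w n κ v y x t) (r' : Rd F'.w n' κ v y x' t) (hx : x ≤ u (N + 1)) (hx' : x' ≤ u (N + 1))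
    (h : Pt (F.w.put κ u V N) (n.put u m N) κ u V m N) (h' : Pt (F'.w.put κ u' V N) (n'.put u' m N) κ u' V m N)
    (e : ∀ k, k0 < k → u' k = u k) (hk : k0 ≤ N) (ha : u k0 ≤ a) (ha' : u' k0 ≤ a) :
    Aq (F.w.put κ u V N) (F'.w.put κ u' V N) (n.put u m N) (n'.put u' m N) (a ≤ ·) := fun j q => by
  by_cases i : j < u (N + 1)
  · exact h.aq h' e ha ha' j ⟨q, i⟩
  have k : Aq F.w F'.w n n' (· = j) := fun _ q => q ▸ by
    by_cases i' : t ≤ j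
    exacts [s.aq.symm.trans s'.aq j i', r.aq r' j ⟨⟨by omega, by omega⟩, by omega, by omega⟩]
  exact ((((put_ag n).mono fun _ q => .inr (by omega)).symm.trans k).trans ((put_ag n').mono fun _ q =>
    .inr (by rw [e _ (by omega)]; omega))) j rfl

/-- long rods `(j + 1, 1)` in front of a fixed tail -/
def SKf (P : Pm Γ) (T : WTh Γ) (κ : Γ.ι) (j : ℕ) (F₀ : Fm Γ) (n₀ : Wt) (c₀ : Cn) (z t : ℤ) (d : ℕ) (y : ℤ) : Prop :=
  ∀ L, ∃ F n c x, Sam t F₀ n₀ c₀ F n c ∧ SKs P T κ j F n z t d c x y ∧ x + L ≤ t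

/-- break points: all rods have four slots, except the rods `1` and `k0` -/
def ub (t : ℤ) (j k0 : ℕ) (A B : ℤ) (k : ℕ) : ℤ :=
  t - 1 - 4 * (j + 4 - k) - (if k ≤ k0 then A else 0) - if k ≤ 1 then B else 0

theorem ub_gap {k0 : ℕ} {A B : ℤ} (hA : 0 ≤ A) (hB : 0 ≤ B) (k : ℕ) : ub t j k0 A B k + 4 ≤ ub t j k0 A B (k + 1) := by
  unfold ub; split_ifs <;> omega

theorem SKf.step (H : Ax0 P T) (hj : j ≤ 3) (h : SKf P T κ j F₀ n₀ c₀ z t d y) {k0 : ℕ} (hk : k0 ≤ j + 2) :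
    (∀ A ≥ 0, ∃ F n c x, ∃ A' ≥ A, ∃ B ≥ 0, Sam t F₀ n₀ c₀ F n c ∧ SKs P T κ j F n z t d c x y ∧
      x ≤ ub t j k0 A' B 0 ∧ St0 P T κ 4 j { F with w := F.w.put κ (ub t j k0 A' B) (vK j) (j + 3) }
        (n.put (ub t j k0 A' B) (mT j y) (j + 3)) z t d (c.mp (Wt.put (ub t j k0 A' B) (mT j y) (j + 3)) id ∅)
        (ub t j k0 A' B) y) ∨
      ∃ i F₁ n₁ c₁ t₁, j = i + 1 ∧ SKf P T κ i F₁ n₁ c₁ z t₁ (d + 1) (y - 1) := by
  refine (em _).imp_right fun hn => ?_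
  push Not at hn
  obtain ⟨A, hA, hn⟩ := hn
  have key := fun B (hB : 0 ≤ B) => (h (4 * (j + 4) + 1 + A + B)).imp fun F k => k.imp fun n k => k.imp fun c k =>
    k.imp fun x k =>
      have q : x ≤ ub t j k0 A B 0 := by simp only [ub, Nat.zero_le, if_true]; omega
      And.intro (And.intro q (And.intro k.1 k.2.1)) ((kstep0 H hj le_rfl k.2.1 (ub_gap hA hB) q
        (by unfold ub; split_ifs <;> omega)).resolve_left (hn F n c x A le_rfl B hB k.1 k.2.1 q))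
  obtain ⟨F₁, n₁, c₁, x₁, ⟨q₁, s₁, k₁⟩, i, rfl, p₁, -⟩ := key 0 le_rfl
  refine ⟨i, frz { F₁ with w := F₁.w.put κ (ub t (i + 1) k0 A 0) (vK (i + 1)) (i + 1 + 3) }
    (ub t (i + 1) k0 A 0 2 - 2), n₁.put (ub t (i + 1) k0 A 0) (mK (i + 1) y) (i + 1 + 3),
    J (Bs.sS (ub t (i + 1) k0 A 0 (i + 1 + 1))) (Bs.sA (ub t (i + 1) k0 A 0 2 - 1)
      (ub t (i + 1) k0 A 0 (i + 1 + 3))) c₀, ub t (i + 1) k0 A 0 2 - 2, rfl, fun L => ?_⟩
  obtain ⟨F, n, c, x, ⟨q, s, k⟩, i', e, p, k'⟩ := key (max L 0) (le_max_right _ _)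
  obtain rfl : i = i' := by omega
  have e : ∀ k, 1 < k → ub t (i + 1) k0 A (max L 0) k = ub t (i + 1) k0 A 0 k := fun k q => by
    simp only [ub, if_neg q.not_ge]
  have g := ub_gap (t := t) (j := i + 1) (k0 := k0) hA le_rfl 1
  have g' : ub t (i + 1) k0 A (max L 0) 1 = ub t (i + 1) k0 A 0 1 - max L 0 := by simp [ub]
  have := le_max_left L 0
  have := le_max_right L 0
  have m := p₁.mono.monotone (i + 1 + 3 + 1).zero_le
  have m' := p.mono.monotone (i + 1 + 3 + 1).zero_le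
  rw [e (i + 1 + 3 + 1) (by omega)] at m'
  rw [e 2 (by omega), e (i + 1 + 1) (by omega), e (i + 1 + 3) (by omega)] at k'
  simp only [Nat.reduceAdd] at g
  refine ⟨_, _, _, _, ?_, k', by omega⟩
  refine ⟨s.r.trans s₁.r.symm, s₁.aq2 s k₁.rd k.rd (q₁.trans m) (q.trans m') p₁ p e (by omega) (by omega)
    (by omega), ?_, ?_⟩
  · simp only [frz, s.fz, s₁.fz]
  · rw [mp_J, s.c, mp_const]

theorem Ent.skf3 (H : Ax0 P T) {c ci : Γ.J} (E : Ent P κ c ci) : ∃ F₀ n₀ c₀ z t d y, SKf P T κ 3 F₀ n₀ c₀ z t d y := by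
  obtain ⟨μ, o1, o2⟩ := E.ok
  let u : ℤ → ℕ → ℤ := fun B k => 7 * k - if k ≤ 1 then B else 0
  have g : ∀ B, 0 ≤ B → ∀ k, u B k + 7 ≤ u B (k + 1) := fun B hB k => by simp only [u]; split_ifs <;> omega
  refine ⟨F3 c ci (u 0), n3 P.Λ.x μ (u 0), J (Bs.sS 15) (Bs.sA 13 21) (gen (n3 P.Λ.x μ (u 0)) ∅), 10, 10, 0 + 1, μ,
    fun L => ?_⟩
  have := le_max_left L 0
  have h0 := le_max_right L 0
  obtain ⟨p₁, k₁⟩ := E.sk3s H o1 o2 (g 0 le_rfl)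
  obtain ⟨p, k⟩ := E.sk3s H o1 o2 (g _ h0)
  generalize max L 0 = B at *
  have u1 : ∀ B, u B 1 = 7 - B := fun B => by simp [u]
  have lt : ∀ B, 0 ≤ B → u B 1 + 1 < u B 2 - 3 := fun B hB => by rw [u1]; change _ < (11 : ℤ); omega
  refine ⟨_, _, _, _, ?_, k, by rw [u1]; omega⟩
  refine ⟨rfl, fun j (q : 10 ≤ j) => ?_, rfl, by rw [mp_J, mp_gen, image_empty, union_empty]; rfl⟩
  rcases (show j = 10 ∨ j = 11 ∨ 11 < j by omega) with rfl | rfl | q'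
  · exact k₁.rd.aq k.rd _ ⟨⟨by rw [u1]; omega, le_rfl⟩, by rw [u1]; omega, le_rfl⟩
  · obtain ⟨a1, a2, a3⟩ := can_y (J := c) (J' := ci) (μ' := μ) _ (lt 0 le_rfl)
    obtain ⟨b1, b2, b3⟩ := can_y (J := c) (J' := ci) (μ' := μ) _ (lt B h0)
    refine ⟨b1.trans a1.symm, b2.trans a2.symm, b3.trans (Eq.trans ?_ a3.symm)⟩
    exact (p₁.aq p (k0 := 1) (a := 11) (fun k q => by simp [u, q.not_ge]) (by rw [u1]; omega) (by rw [u1]; omega) 11
      ⟨le_rfl, by decide⟩).2.2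
  · refine ((((can_ag _ (lt 0 le_rfl)).mono (s' := (· = j)) fun _ e => .inr (e ▸ q')).symm.trans fun _ e => e ▸ ?_).trans
      ((can_ag _ (lt B h0)).mono fun _ e => .inr (e ▸ q'))) j rfl
    by_cases i : j < 28
    · exact p₁.aq p (k0 := 1) (a := 11) (fun k q => by simp [u, q.not_ge]) (by rw [u1]; omega) (by rw [u1]; omega) j
        ⟨q'.le, i⟩
    · obtain ⟨a1, a2, a3⟩ := put_ag (κ := Γ.cap.1) (t := u 0) (v := vC) (m := mC P.Λ.x) (N := 3) _ j (.inr (not_lt.1 i))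
      obtain ⟨b1, b2, b3⟩ := put_ag (κ := Γ.cap.1) (t := u B) (v := vC) (m := mC P.Λ.x) (N := 3) _ j (.inr (not_lt.1 i))
      exact ⟨b1.trans a1.symm, b2.trans a2.symm, b3.trans a3.symm⟩

/-- **P0, entry for `p = 1`**: a long rod `(-1, 0)` in front of a fixed tail -/
theorem Ent.st0f (H : Ax0 P T) {c ci : Γ.J} (E : Ent P κ c ci) : ∃ j F₀ n₀ c₀ z t d y, ∀ L, ∃ F n c u,
    Sam t F₀ n₀ c₀ F n c ∧ St0 P T κ 4 j F n z t d c u y ∧ u (j + 2) + L ≤ u (j + 3) ∧ u (j + 3) = t - 5 ∧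
      u (j + 3 + 1) = t - 1 ∧ Rd F.w n κ (j + 1, 1) y (t - 1) t := by
  have key : ∀ j ≤ 3, ∀ F₀ n₀ c₀ z t d y, SKf P T κ j F₀ n₀ c₀ z t d y → ∃ j F₀ n₀ c₀ z t d y, ∀ L, ∃ F n c u,
      Sam t F₀ n₀ c₀ F n c ∧ St0 P T κ 4 j F n z t d c u y ∧ u (j + 2) + L ≤ u (j + 3) ∧ u (j + 3) = t - 5 ∧
        u (j + 3 + 1) = t - 1 ∧ Rd F.w n κ (j + 1, 1) y (t - 1) t := fun j => by
    induction j using Nat.strong_induction_on with
    | _ j ih =>
      intro hj F₀ n₀ c₀ z t d y h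
      rcases h.step H hj le_rfl with k | ⟨i, F₁, n₁, c₁, t₁, rfl, k⟩
      · refine ⟨j, F₀, n₀, c₀, z, t, d, y, fun L => ?_⟩
        obtain ⟨F, n, c, x, A, hA, B, hB, s, k1, q, k2⟩ := k (max L 0) (le_max_right _ _)
        have := le_max_left L 0
        have e : ub t j (j + 2) A B (j + 3 + 1) = t - 1 := by unfold ub; split_ifs <;> omega
        have m := k2.pe.mono.monotone (j + 3 + 1).zero_le
        exact ⟨_, _, _, _, s.put _ (by omega), k2, by unfold ub; split_ifs <;> omega,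
          by unfold ub; split_ifs <;> omega, e, (k1.rd.mono (by omega) le_rfl).ag (put_ag n) fun i a _ =>
            .inr (by omega)⟩
      · exact ih i (by omega) (by omega) _ _ _ _ _ _ _ k
  obtain ⟨F₀, n₀, c₀, z, t, d, y, h⟩ := E.skf3 H
  exact key 3 le_rfl _ _ _ _ _ _ _ h

/-- **P0, entry for `p = 2`**: a long rod `(1, 1)` in front of a fixed tail -/
theorem Ent.skf0 (H : Ax0 P T) {c ci : Γ.J} (E : Ent P κ c ci) :
    ∃ F₀ n₀ c₀ z t d y, SKf P T κ 0 F₀ n₀ c₀ z t d y := by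
  have key : ∀ j ≤ 3, ∀ F₀ n₀ c₀ z t d y, SKf P T κ j F₀ n₀ c₀ z t d y →
      ∃ F₀ n₀ c₀ z t d y, SKf P T κ 0 F₀ n₀ c₀ z t d y := fun j => by
    induction j with
    | zero => exact fun _ _ _ _ _ _ _ _ h => ⟨_, _, _, _, _, _, _, h⟩
    | succ j ih =>
      intro hj F₀ n₀ c₀ z t d y h
      rcases h.step H hj (k0 := j + 1) (by omega) with k | ⟨i, F₁, n₁, c₁, t₁, e, k⟩
      · obtain ⟨F₁, n₁, c₁, x₁, A₁, hA₁, B₁, hB₁, s₁, k₁, q₁, p₁⟩ := k 0 le_rfl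
        refine ⟨frz (frz { F₁ with w := F₁.w.put κ (ub t (j + 1) (j + 1) A₁ B₁) (vK (j + 1)) (j + 1 + 3) }
          (t - 9 + 1)) (t - 13 - 2), n₁.put (ub t (j + 1) (j + 1) A₁ B₁) (mT (j + 1) y) (j + 1 + 3),
          J (Bs.sA (t - 13 - 1) (t - 9)) (Bs.sS (t - 13)) c₀, z, t - 13 - 2, d + 1,
          mT (j + 1) y (j + 1), fun L => ?_⟩
        obtain ⟨F, n, c, x, A, hA, B, hB, s, k, q, p⟩ := k (max L 0) (le_max_right _ _)
        have := le_max_left L 0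
        have := le_max_right L 0
        have e : ∀ k, j + 1 < k → ub t (j + 1) (j + 1) A B k = ub t (j + 1) (j + 1) A₁ B₁ k := fun k q => by
          unfold ub; split_ifs <;> omega
        have k' := p.sk0s H (by omega)
        have m := p₁.pe.mono.monotone (j + 1 + 3 + 1).zero_le
        have m' := p.pe.mono.monotone (j + 1 + 3 + 1).zero_le
        rw [e (j + 1 + 3 + 1) (by omega)] at m'
        rw [show ub t (j + 1) (j + 1) A B (j + 1 + 1) = t - 13 by unfold ub; split_ifs <;> omega,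
          show ub t (j + 1) (j + 1) A B (j + 1 + 2) = t - 9 by unfold ub; split_ifs <;> omega] at k'
        refine ⟨_, _, _, _, ?_, k', by unfold ub; split_ifs <;> omega⟩
        refine ⟨s.r.trans s₁.r.symm, s₁.aq2 s k₁.rd k.rd (q₁.trans m) (q.trans m') p₁.pe.toPt p.pe.toPt e
          (by omega) (by unfold ub; split_ifs <;> omega) (by unfold ub; split_ifs <;> omega), ?_, ?_⟩
        · simp only [frz, s.fz, s₁.fz]
        · rw [mp_J, s.c, mp_const]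
      · obtain rfl : j = i := by omega
        exact ih (by omega) _ _ _ _ _ _ _ k
  obtain ⟨F₀, n₀, c₀, z, t, d, y, h⟩ := E.skf3 H
  exact key 3 le_rfl _ _ _ _ _ _ _ h

end Crest.Agent.X212.Wd38
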