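import Crest.Agent.X212.Wd38.Pt

/-!
# X212 / Wd38, part Rs (helper38): `Fm.RS` for a turn, good toric cells, twists on a pattern
-/

set_option autoImplicit false
noncomputable section

namespace Crest.Agent.X212.Wd38

open Crest.Agent.X212.Rod53 Crest.Agent.X212.Nm96 Finset

variable {Γ : Nm} {w : Shp Γ} {n : Wt} {κ : Γ.ι} {t : ℕ → ℤ} {v : ℕ → Z2} {m : ℕ → ℤ} {N : ℕ}

theorem sum_Ioc_last {M : Type*} [AddCommMonoid M] (G : ℤ → M) {a b : ℤ} (h : a < b) :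
    ∑ c ∈ Ioc a b, G c = ∑ c ∈ Ioc a (b - 1), G c + G b := by
  rw [show Ioc a b = insert b (Ioc a (b - 1)) from Finset.ext fun c => by
    simp only [mem_insert, mem_Ioc]; omega, sum_insert (by simp), add_comm]

/-- the zero class -/
def Wt.o : Wt := ⟨fun _ => 0, fun _ => 0, 0, 0⟩

theorem lb_self (u : Z2) (x y x' y' : ℤ) : lb u u x y x' y' = 0 := by simp [lb, dt_self]

namespace Tn

variable (h : Tn w n κ t v m N)
include h

theorem cls {a : ℕ → ℤ} (a0 : a 0 = 0) (aN : a N = 0) : Tn w Wt.o κ t v a N :=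
  ⟨h.mono, h.lo, h.hi, fun j x y => ⟨(h.rd j x y).1, a0.symm, a0.symm⟩, h.uni, h.vN, by rw [a0, aN, neg_zero]⟩

theorem tok (ok : w.OK) {a : ℕ → ℤ} (a0 : a 0 = 0) (aN : a N = 0) : TOK (w.put κ t v N) (Wt.o.put t a N) :=
  have k := ((h.cls a0 aN).ok (Λ := ⟨fun _ _ _ => True, 0⟩) ok ⟨rfl, rfl, fun _ _ _ _ _ => rfl,
    fun _ _ _ _ _ => trivial, fun _ _ _ _ => rfl, fun _ _ _ _ => rfl⟩).2
  ⟨k.rod, k.eq, k.neg⟩

/-- sums over the whole turn -/
theorem sum {M : Type*} [AddCommMonoid M] {n' : Wt} {m' : ℕ → ℤ} (h' : Tn w n' κ t v m' N)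
    (φ : Z2 → Z2 → ℤ → ℤ → ℤ → ℤ → M) (hφ : ∀ u u' x y x' y', dt u u' = 0 → φ u u' x y x' y' = 0) :
    ∑ c ∈ Ioc (t 0) (t (N + 1)), φ ((w.put κ t v N).lf c) ((w.put κ t v N).rt c) ((n.put t m N).nr (c - 1))
      ((n.put t m N).nl c) ((n'.put t m' N).nr (c - 1)) ((n'.put t m' N).nl c) =
      ∑ k ∈ Ioc 0 N, φ (v (k - 1)) (v k) (m (k - 1)) (m k) (m' (k - 1)) (m' k) := by
  have a := h.pt.lt N
  rw [sum_Ioc_last _ h.lt, h.pt.sum h'.pt φ (fun u _ _ _ _ => hφ _ _ _ _ _ _ (dt_self u)) le_rfl le_rfl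
    (h.pt.lt 0) (by omega) (by omega), hφ, add_zero]
  rw [h.pt.lf le_rfl a le_rfl, Shp.rt, (h.rdN _ le_rfl le_rfl).1, h.vN]
  exact dt_neg_self _

theorem sup {ι : Type} {ε : ι → Wt} {i : ι} {a : ℕ → ℤ} (e : ε i = Wt.o.put t a N) {b x y : ℤ} {k0 k1 : ℕ}
    (hx : x < t (k0 + 1)) (hy : t k1 ≤ y) (s : ∀ k ≤ N, k ≤ k0 ∨ k1 ≤ k → a k + b * dt (v 0) (v k) = 0) :
    Sup x y (cmb {i} (fun _ => 1) ε b (fib (w.put κ t v N) (t 0) (t (N + 1)))) := fun j q => by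
  simp only [cmb, sum_singleton, e, Wt.put, fib, one_mul]
  by_cases c : t 0 < j ∧ j < t (N + 1)
  · obtain ⟨p, r⟩ := h.pt.rod c.1.le c.2
    have i1 := ix_le h.mono c.1.le
    have i2 := lt_ix h.mono j
    simp only [if_pos c]
    rw [r, h.pt.s (Nat.zero_le _) le_rfl (h.pt.lt 0)]
    have := s _ p (q.imp (fun q => Nat.lt_succ_iff.1 (h.mono.lt_iff_lt.1 (i1.trans_lt (q.trans_lt hx))))
      fun q => Nat.lt_succ_iff.1 (h.mono.lt_iff_lt.1 ((hy.trans q).trans_lt i2)))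
    exact ⟨this, this⟩
  · simp [if_neg c, Wt.o]

/-- **`RS` for a turn** -/
theorem rs (ok : w.OK) (fz : Finset Bs) {M : ℕ} (hN : N = M + 2) (A : Fin M → ℕ → ℤ) (i0 : Fin M)
    (A0 : ∀ i, A i 0 = 0 ∧ A i N = 0)
    (gr : ∀ i j, ∑ k ∈ Ioc 0 N, lb (v (k - 1)) (v k) (A i (k - 1)) (A i k) (A j (k - 1)) (A j k) =
      if i = j then -1 else 0)
    (dg : ∀ i, |∑ k ∈ Ioc 0 N, lb (v (k - 1)) (v k) (m (k - 1)) (m k) (A i (k - 1)) (A i k)| =
      if i = i0 then 0 else 1)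
    {x y x' y' b b' : ℤ} {k0 k1 k0' k1' : ℕ} (x0 : t 0 < x) (hx : x < t (k0 + 1)) (hy : t k1 ≤ y)
    (yN : y < t (N + 1)) (x0' : t 0 < x') (hx' : x' < t (k0' + 1)) (hy' : t k1' ≤ y') (yN' : y' < t (N + 1))
    (s : ∀ k ≤ N, k ≤ k0 ∨ k1 ≤ k → A i0 k + b * dt (v 0) (v k) = 0)
    (s' : ∀ k ≤ N, k ≤ k0' ∨ k1' ≤ k → A i0 k + b' * dt (v 0) (v k) = 0) (o : Odd (b - b')) :
    Fm.RS ⟨w.put κ t v N, fz, ∅⟩ (n.put t m N) (t 0) (t (N + 1)) (.sA x y) (.sA x' y') := by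
  have c := fun i => h.cls (A0 i).1 (A0 i).2
  refine ⟨M, fun i => Wt.o.put t (A i) N, {i0}, fun _ => 1, b, b', ?_, fun i => ⟨h.tok ok (A0 i).1 (A0 i).2,
    fun j q => ((put_ag (w := w) (κ := κ) (v := v)) Wt.o j q).2⟩, fun i j => ?_, fun i => ?_, by simp, by simp,
    by simp, by simp, trivial, trivial, x0, yN, trivial, trivial, x0', yN', h.sup rfl hx hy s,
    h.sup rfl hx' hy' s', o⟩
  · rw [card_filter, h.sum h (fun u u' _ _ _ _ => if dt u u' ≠ 0 then 1 else 0) fun _ _ _ _ _ _ e => by simp [e],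
      sum_congr rfl fun k hk => if_pos ?_]
    · simp [hN]
    · rw [mem_Ioc] at hk
      have := h.uni (k - 1) (by omega)
      rw [show k - 1 + 1 = k by omega, Uni] at this
      omega
  · rw [← gr]
    exact (c i).sum (c j) lb fun _ _ _ _ _ _ e => by simp [lb, e]
  · simp only [mem_singleton]
    rw [← dg]
    exact congrArg _ (h.sum (c i) lb fun _ _ _ _ _ _ e => by simp [lb, e])

end Tn

/-! ### toric cells -/

variable {P : Pm Γ} {F : Fm Γ} {σ : Finset Wl}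

theorem inj_b (h : ∀ a ∈ σ, a.tw = []) : Set.InjOn Wl.b σ := fun a ha b hb e => by
  cases a; cases b
  have := h _ ha; have := h _ hb
  simp_all

theorem gc_tor (ok : F.OK P) (lok : F.LOK P n) (h : ∀ a ∈ σ, a.tw = []) (T : F.Tor P n (σ.image Wl.b)) :
    F.GC P n σ :=
  ⟨ok, lok, inj_b h, fun a ha => ⟨(T.ok _ (mem_image_of_mem _ ha)).2, .inr (h a ha)⟩, [], trivial, h, T⟩

theorem image_b_erase (h : ∀ a ∈ σ, a.tw = []) {a : Wl} (ha : a ∈ σ) :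
    (σ.erase a).image Wl.b = (σ.image Wl.b).erase a.b := by
  ext b
  simp only [mem_image, mem_erase]
  exact ⟨fun ⟨c, k, e⟩ => ⟨fun q => k.1 (inj_b h k.2 ha (e.trans q)), c, k.2, e⟩,
    fun ⟨q, c, k, e⟩ => ⟨c, ⟨fun r => q (r ▸ e.symm), k⟩, e⟩⟩

theorem gc1_tor (ok : F.OK P) (lok : F.LOK P n) (h : ∀ a ∈ σ, a.tw = []) (T : F.Tor P n (σ.image Wl.b))
    (T' : ∀ a ∈ σ.image Wl.b, F.Tor P n ((σ.image Wl.b).erase a)) : F.GC1 P n σ :=
  ⟨gc_tor ok lok h T, fun _ ha => gc_tor ok lok (fun b hb => h b (mem_of_mem_erase hb))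
    (image_b_erase h ha ▸ T' _ (mem_image_of_mem _ ha))⟩

/-! ### the twist in a sphere of square `-2` -/

/-- the twist in the sphere of the rod `k + 1` -/
def twk (t : ℕ → ℤ) (v : ℕ → Z2) (k : ℕ) : Tw := ⟨t (k + 1), t (k + 2) - 1, v k, v (k + 1), 2, 1⟩

theorem Pt.twk_ok (h : Pt w n κ t v m N) {k : ℕ} (hk : k + 2 ≤ N) (u : Uni (v k) (v (k + 1)))
    (e : v (k + 2) = -v k + (2 : ℤ) • v (k + 1)) : (twk t v k).OK w := by
  have a := h.lt k
  have b : t (k + 1) < t (k + 2) := h.lt (k + 1)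
  have c := h.lt (k + 2)
  have d := h.mono.monotone k.zero_le
  have f := h.mono.monotone (show k + 2 + 1 ≤ N + 1 by omega)
  refine ⟨h.rg (by simp only [twk]; omega) (by simp only [twk]; omega) (by simp only [twk]; omega),
    by simp only [twk]; omega, u, rfl, .inl (h.lf (by omega) a le_rfl),
    fun j x y => .inl (h.rt (by omega) x (Int.lt_of_le_sub_one y)), .inl ?_⟩
  simp only [twk, sub_add_cancel]
  exact (h.rt hk le_rfl c).trans e

theorem Pt.twk_act (h : Pt w n κ t v m N) {k : ℕ} (hk : k + 2 ≤ N)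
    (e : v (k + 2) = -v k + (2 : ℤ) • v (k + 1)) :
    Pt w ((twk t v k).act w n) κ t v (Function.update m (k + 1) (m k + m (k + 2) - m (k + 1))) N := by
  have a := h.lt k
  have b : t (k + 1) < t (k + 2) := h.lt (k + 1)
  have c := h.lt (k + 2)
  refine ⟨h.mono, h.lo, h.hi, fun i hi j x y => ⟨(h.rd i hi j x y).1, ?_⟩⟩
  simp only [Tw.act, twk, sub_add_cancel, Tw.sg]
  by_cases q : i = k + 1
  · subst q
    have z : t (k + 1) ≤ j ∧ j ≤ t (k + 2) - 1 := ⟨x, y⟩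
    simp only [if_pos z, h.lf (show k ≤ N by omega) a le_rfl, h.rt hi x (Int.lt_of_le_sub_one y),
      (h.rt hk le_rfl c).trans e, h.nr (k := k) (j := t (k + 1) - 1) (by omega) (by omega) (by omega),
      h.nl hk le_rfl c, h.nl hi x (Int.lt_of_le_sub_one y), h.nr hi x (Int.lt_of_le_sub_one y)]
    simp
  · have : ¬(t (k + 1) ≤ j ∧ j ≤ t (k + 2) - 1) := fun r =>
      q ((ix_eq h.mono x (by omega)).symm.trans (ix_eq h.mono r.1 (Int.lt_of_le_sub_one r.2)))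
    rw [if_neg this, if_neg this, Function.update_of_ne q]
    exact (h.rd i hi j x y).2

theorem act_ag (τ : Tw) : Aq w w n (τ.act w n) fun j => j < τ.x ∨ τ.y < j := fun j q =>
  ⟨rfl, if_neg (by omega), if_neg (by omega)⟩

end Crest.Agent.X212.Wd38
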