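import Crest.Agent.X212.Wd38.Rs
import Crest.Agent.X212.Nm96.Win2

/-!
# X212 / Wd38, part Cf (helper38): closed forms for `Fm.Win` without lens arcs

* `S φ n x y` vertex sums, `Pt.S`; `P1` (all `|p| ≤ 1`), `ssum_cong` (congruence mod 4);
* `En` (ends of a window), `pc_of` (one piece from numbers), `Br` (pieces born in the window), `head`.
-/

set_option autoImplicit false
noncomputable section

namespace Crest.Agent.X212.Wd38

open Crest.Agent.X212.Rod53 Crest.Agent.X212.Nm96 Finset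

variable {Γ : Nm} {w : Shp Γ} {n n' : Wt} {φ : Z2 → Z2 → ℤ → ℤ → ℝ} {B σ : Finset Bs} {η : Bs → Bool}
  {s t x y z : ℤ} {a b : Bs}

/-! ### congruence -/

theorem sq_cong {c c' : ℤ} (h : Odd (c' - c)) : ∃ j, c' * c' + c * c - 1 = 4 * j := by
  obtain ⟨k, hk⟩ := h
  obtain ⟨i, hi⟩ := Int.even_mul_succ_self c
  exact ⟨i + c * k + k * k + k, by rw [show c' = c + 2 * k + 1 by omega]; linear_combination 2 * hi⟩

theorem nul_cong {e a x y x' y' : ℤ} (he : e = 1 ∨ e = -1) (hx : Even (x' - x - a)) (hy : Even (y' - y)) :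
    ∃ j, (2 * e * x' * y' + a * y' * y') + (2 * e * x * y + a * y * y) = 4 * j := by
  obtain ⟨k, hk⟩ := hx
  obtain ⟨l, hl⟩ := hy
  obtain ⟨i, hi⟩ := Int.even_mul_succ_self (e * y)
  have e2 : e * e = 1 := by rcases he with rfl | rfl <;> rfl
  exact ⟨e * (x * y + x * l + a * l + k * y + 2 * k * l) + a * (l * y + l * l) + a * i, by
    rw [show x' = x + a + 2 * k by omega, show y' = y + 2 * l by omega]
    linear_combination 2 * a * hi - 2 * a * y * y * e2⟩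

theorem site_cong {u v : Z2} {x y x' y' : ℤ} (hu : |u.2| ≤ 1) (hv : |v.2| ≤ 1) (h : dt u v = 0 ∨ Uni u v)
    (hx : Even (x' - x - u.1 * u.2)) (hy : Even (y' - y - v.1 * v.2)) :
    ∃ j : ℤ, lq u v x' y' + uu u v x y = 4 * j := by
  rcases h with h | h
  · exact ⟨0, by simp [lq, uu, lb, lg, nn, h]⟩
  obtain ⟨a, p⟩ := u
  obtain ⟨b, q⟩ := v
  have A : ∀ {e d : ℤ}, e = 1 ∨ e = -1 → Odd (x' - e * y' - (x - e * y)) → ∀ {X : ℝ},
      X = d * (((x' - e * y') * (x' - e * y') + (x - e * y) * (x - e * y) - 1 : ℤ) : ℝ) → ∃ j : ℤ, X = 4 * j :=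
    fun {e d} _ o X k => by
      obtain ⟨j, hj⟩ := sq_cong o
      exact ⟨d * j, by rw [k, hj]; push_cast; ring⟩
  have C : ∀ {e a x y x' y' : ℤ}, e = 1 ∨ e = -1 → Even (x' - x - a) → Even (y' - y) → ∀ {X : ℝ},
      X = (((2 * e * x' * y' + a * y' * y') + (2 * e * x * y + a * y * y) : ℤ) : ℝ) → ∃ j : ℤ, X = 4 * j :=
    fun he hx hy X k => by
      obtain ⟨j, hj⟩ := nul_cong he hx hy
      exact ⟨j, by rw [k, hj]; push_cast; ring⟩
  simp only [Uni, dt, abs_le] at *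
  rw [Int.even_iff] at hx hy
  rcases (show p = 1 ∨ p = 0 ∨ p = -1 by omega) with rfl | rfl | rfl <;>
    rcases (show q = 1 ∨ q = 0 ∨ q = -1 by omega) with rfl | rfl | rfl
  · rcases (show a = b + 1 ∨ a = b - 1 by omega) with rfl | rfl
    · exact A (e := 1) (d := -1) (by simp) (by rw [Int.odd_iff]; omega) (by simp [lq, uu, lb, lg, nn, dt, Nm96.rho]; ring)
    · exact A (e := 1) (d := 1) (by simp) (by rw [Int.odd_iff]; omega) (by simp [lq, uu, lb, lg, nn, dt, Nm96.rho]; ring)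
  · rcases (show b = 1 ∨ b = -1 by omega) with rfl | rfl
    · exact C (e := -1) (a := a) (x := x) (y := y) (x' := x') (y' := y') (by simp) (by rw [Int.even_iff]; omega)
        (by rw [Int.even_iff]; omega) (by simp [lq, uu, lb, lg, nn, dt, Nm96.rho]; ring)
    · exact C (e := 1) (a := a) (x := x) (y := y) (x' := x') (y' := y') (by simp) (by rw [Int.even_iff]; omega)
        (by rw [Int.even_iff]; omega) (by simp [lq, uu, lb, lg, nn, dt, Nm96.rho]; ring)
  · rcases (show a = -b + 1 ∨ a = -b - 1 by omega) with rfl | rfl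
    · exact A (e := -1) (d := -1) (by simp) (by rw [Int.odd_iff]; omega) (by simp [lq, uu, lb, lg, nn, dt, Nm96.rho]; ring)
    · exact A (e := -1) (d := 1) (by simp) (by rw [Int.odd_iff]; omega) (by simp [lq, uu, lb, lg, nn, dt, Nm96.rho]; ring)
  · rcases (show a = 1 ∨ a = -1 by omega) with rfl | rfl
    · exact C (e := 1) (a := -b) (x := y) (y := x) (x' := y') (y' := x') (by simp) (by rw [Int.even_iff]; omega)
        (by rw [Int.even_iff]; omega) (by simp [lq, uu, lb, lg, nn, dt, Nm96.rho]; ring)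
    · exact C (e := -1) (a := -b) (x := y) (y := x) (x' := y') (y' := x') (by simp) (by rw [Int.even_iff]; omega)
        (by rw [Int.even_iff]; omega) (by simp [lq, uu, lb, lg, nn, dt, Nm96.rho]; ring)
  · omega
  · rcases (show a = 1 ∨ a = -1 by omega) with rfl | rfl
    · exact C (e := -1) (a := b) (x := y) (y := x) (x' := y') (y' := x') (by simp) (by rw [Int.even_iff]; omega)
        (by rw [Int.even_iff]; omega) (by simp [lq, uu, lb, lg, nn, dt, Nm96.rho]; ring)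
    · exact C (e := 1) (a := b) (x := y) (y := x) (x' := y') (y' := x') (by simp) (by rw [Int.even_iff]; omega)
        (by rw [Int.even_iff]; omega) (by simp [lq, uu, lb, lg, nn, dt, Nm96.rho]; ring)
  · rcases (show a = -b + 1 ∨ a = -b - 1 by omega) with rfl | rfl
    · exact A (e := -1) (d := 1) (by simp) (by rw [Int.odd_iff]; omega) (by simp [lq, uu, lb, lg, nn, dt, Nm96.rho]; ring)
    · exact A (e := -1) (d := -1) (by simp) (by rw [Int.odd_iff]; omega) (by simp [lq, uu, lb, lg, nn, dt, Nm96.rho]; ring)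
  · rcases (show b = 1 ∨ b = -1 by omega) with rfl | rfl
    · exact C (e := 1) (a := -a) (x := x) (y := y) (x' := x') (y' := y') (by simp) (by rw [Int.even_iff]; omega)
        (by rw [Int.even_iff]; omega) (by simp [lq, uu, lb, lg, nn, dt, Nm96.rho]; ring)
    · exact C (e := -1) (a := -a) (x := x) (y := y) (x' := x') (y' := y') (by simp) (by rw [Int.even_iff]; omega)
        (by rw [Int.even_iff]; omega) (by simp [lq, uu, lb, lg, nn, dt, Nm96.rho]; ring)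
  · rcases (show a = b + 1 ∨ a = b - 1 by omega) with rfl | rfl
    · exact A (e := 1) (d := 1) (by simp) (by rw [Int.odd_iff]; omega) (by simp [lq, uu, lb, lg, nn, dt, Nm96.rho]; ring)
    · exact A (e := 1) (d := -1) (by simp) (by rw [Int.odd_iff]; omega) (by simp [lq, uu, lb, lg, nn, dt, Nm96.rho]; ring)

/-- all slopes have `|p| ≤ 1` -/
def P1 (w : Shp Γ) : Prop := ∀ j, |(w.s j).l.2.2| ≤ 1 ∧ |(w.s j).r.2.2| ≤ 1

theorem ssum_cong (ok : w.OK) (p : P1 w) (tp : Tp w n n' s t) (hB : ∀ a ∈ B, a.pin ∧ a.OK w ∧ a.hi < t) :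
    ∃ j : ℤ, ssum w B η s t lq n' + ssum w B η s t uu n = 4 * j := by
  have Q : ∀ {α : Type} (S : Finset α) (f g : α → ℝ), (∀ a ∈ S, ∃ j : ℤ, f a + g a = 4 * j) →
      ∃ j : ℤ, ∑ a ∈ S, f a + ∑ a ∈ S, g a = 4 * j := fun S f g h => by
    rw [← sum_add_distrib]
    exact sum_induction _ (fun X : ℝ => ∃ j : ℤ, X = 4 * j)
      (fun _ _ ⟨i, a⟩ ⟨j, b⟩ => ⟨i + j, by rw [a, b]; push_cast; ring⟩) ⟨0, by simp⟩ h
  unfold ssum
  rw [add_add_add_comm]
  obtain ⟨i, hi⟩ := Q _ (fun c => lq (w.lf c) (w.rt c) (n'.nr (c - 1)) (n'.nl c))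
    (fun c => uu (w.lf c) (w.rt c) (n.nr (c - 1)) (n.nl c)) fun c
      (hc : c ∈ {c ∈ Ioc w.l w.r | s < c ∧ c ≤ t ∧ InV B η c}) => by
    obtain ⟨c1, c2, c3, -⟩ := mem_filter.1 hc
    rw [mem_Ioc] at c1
    refine site_cong (p _).2 (p _).1 ((ok.st c c1.1 c1.2).2.imp_left ?_)
      (tp.r _ (by omega) (by omega) (by omega) (by omega)) (tp.l c c2 c3 c1.1 c1.2)
    rintro (e | e) <;> rw [Shp.lf, e]
    exacts [dt_self _, dt_neg_self _]
  obtain ⟨j, hj⟩ := Q _ (fun a => (if η a then 1 else -1) *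
      lq (w.s a.lo).r.2 (w.s a.hi).l.2 (n'.nr a.lo) (n'.nl a.hi))
    (fun a => (if η a then 1 else -1) * uu (w.s a.lo).r.2 (w.s a.hi).l.2 (n.nr a.lo) (n.nl a.hi)) fun a
      (ha : a ∈ {a ∈ B | a.arc ∧ s ≤ a.lo ∧ a.lo < t ∧ Adj B η a}) => by
    obtain ⟨a1, a2, a3, a4, -⟩ := mem_filter.1 ha
    obtain ⟨b1, b2, b3⟩ := hB a a1
    cases a <;> simp only [Bs.arc, Bs.pin] at a2 b1
    obtain ⟨⟨r1, r2, r3, -⟩, u⟩ := b2
    simp only [Bs.lo, Bs.hi] at *
    obtain ⟨j, hj⟩ := site_cong (p _).2 (p _).1 (.inr u) (tp.r _ a3 a4 r1 (by omega))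
      (tp.l _ (by omega) b3.le (by omega) r3)
    rw [← mul_add, hj]
    split_ifs
    exacts [⟨j, one_mul _⟩, ⟨-j, by push_cast; ring⟩]
  exact ⟨i + j, by rw [hi, hj]; push_cast; ring⟩

/-! ### vertex sums -/

/-- the sum over the vertices in `(x, y]` -/
def S (w : Shp Γ) (n : Wt) (φ : Z2 → Z2 → ℤ → ℤ → ℝ) (x y : ℤ) : ℝ :=
  ∑ c ∈ Ioc w.l w.r with x < c ∧ c ≤ y, vx w φ n c

theorem S_two {x' y' : ℤ} (h : y ≤ x') {p : ℤ → Prop} [DecidablePred p]
    (e : ∀ c, p c ↔ (x < c ∧ c ≤ y) ∨ (x' < c ∧ c ≤ y')) :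
    ∑ c ∈ Ioc w.l w.r with p c, vx w φ n c = S w n φ x y + S w n φ x' y' := by
  simp only [S, sum_filter, ← sum_add_distrib, e]
  refine sum_congr rfl fun c _ => ?_
  split_ifs <;> first | omega | simp

theorem S_cut (h : x ≤ y) (h' : y ≤ z) : S w n φ x z = S w n φ x y + S w n φ y z :=
  S_two le_rfl fun c => by omega

theorem S_eq (h : w.l ≤ x) (h' : y ≤ w.r) : S w n φ x y = ∑ c ∈ Ioc x y, vx w φ n c :=
  sum_congr (Finset.ext fun c => by simp only [mem_filter, mem_Ioc]; omega) fun _ _ => rfl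

/-- no contribution of the points that are no vertices -/
def Vn (φ : Z2 → Z2 → ℤ → ℤ → ℝ) : Prop := ∀ u u' x y, dt u u' = 0 → φ u u' x y = 0

theorem vn_lp : Vn lp := fun _ _ _ _ h => if_pos h

theorem vn_uu : Vn uu := fun _ _ _ _ h => by simp [uu, lq, lb, lg, nn, h]

theorem S_zero (hφ : Vn φ) (h : ∀ c, x < c → c ≤ y → w.l < c → c ≤ w.r → dt (w.lf c) (w.rt c) = 0) :
    S w n φ x y = 0 := sum_eq_zero fun c hc => by
  obtain ⟨a, b⟩ := mem_filter.1 hc
  rw [mem_Ioc] at a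
  exact hφ _ _ _ _ (h c b.1 b.2 a.1 a.2)

theorem S_self : S w n φ x x = 0 := sum_eq_zero fun c hc => by have := (mem_filter.1 hc).2; omega

theorem Pt.S {κ : Γ.ι} {t : ℕ → ℤ} {v : ℕ → Z2} {m : ℕ → ℤ} {N k0 k1 : ℕ} (h : Pt w n κ t v m N) (hφ : Vn φ)
    (hk : k1 ≤ N) (h0 : t k0 ≤ x) (h0' : x < t (k0 + 1)) (h1 : t k1 ≤ y) (h1' : y < t (k1 + 1)) :
    S w n φ x y = ∑ k ∈ Ioc k0 k1, φ (v (k - 1)) (v k) (m (k - 1)) (m k) := by
  have := h.mono.monotone k0.zero_le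
  have := h.mono.monotone (Nat.add_le_add_right hk 1)
  have := h.lo
  have := h.hi
  rw [S_eq (by omega) (by omega)]
  exact h.sum h (fun u u' x y _ _ => φ u u' x y) (fun u _ _ _ _ => hφ _ _ _ _ (dt_self u)) hk h0 h0' h1 h1'

theorem Pt.vv {κ : Γ.ι} {t : ℕ → ℤ} {v : ℕ → Z2} {m : ℕ → ℤ} {N k0 k1 : ℕ} (h : Pt w n κ t v m N)
    (hk0 : k0 ≤ N) (hk : k1 ≤ N) (h0 : t k0 ≤ x) (h0' : x < t (k0 + 1)) (h1 : t k1 ≤ y) (h1' : y < t (k1 + 1)) :
    vv w φ n (.sA x y) = φ (v k0) (v k1) (m k0) (m k1) := by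
  simp only [Nm96.vv, Bs.lo, Bs.hi, h.s hk0 h0 h0', h.s hk h1 h1', h.nr hk0 h0 h0', h.nl hk h1 h1']
  rfl

/-! ### one piece -/

variable {F : Fm Γ} {v v' : ℝ × ℝ} {ch : Bs → Bool → ℤ}

/-- the setting -/
structure Cw (F : Fm Γ) (s t z : ℤ) : Prop where
  ls : F.ls = ∅
  ok : F.w.OK
  p1 : P1 F.w
  lt : s < t
  lo : s = F.w.l - 1 ∨ F.Cut s
  hi : (F.Cut t ∧ t ≤ z) ∨ (t = F.w.r + 1 ∧ z = s)

theorem Cw.loc (H : Cw F s t z) (h : F.Loc n' B η s t) : ssum F.w B η s (ee z B η t) lq n' ≤ 0 := by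
  unfold ee
  split_ifs with k
  · rcases H.hi with e | e
    · omega
    · rw [e.2, ssum_self]
  · refine h s t le_rfl le_rfl H.lo (H.hi.elim (fun e => .inr e.1) fun e => .inl ⟨e.1, fun q => k ⟨?_, e.1 ▸ q⟩⟩)
    have := H.lt; omega

/-- the residue `r` of the square of an abelian class -/
def Rr (U r : ℝ) : Prop := ∀ j : ℤ, 4 * j ≤ U → 4 * j ≤ U - r

theorem asum_of {U : Finset Bs} (A : Finset Bs) (h : ∀ b, b ∈ A ↔ b ∈ U ∧ s ≤ b.lo ∧ b.lo < t ∧ Adj B η b)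
    (f : Bs → ℝ) : asum U B η s t f = ∑ a ∈ A, f a :=
  sum_congr (Finset.ext fun b => by rw [mem_filter, h]) fun _ _ => rfl

/-- the signed virtual vertex -/
def sv (w : Shp Γ) (n : Wt) (η : Bs → Bool) (φ : Z2 → Z2 → ℤ → ℤ → ℝ) (a : Bs) : ℝ :=
  if a.arc then (if η a then 1 else -1) * vv w φ n a else 0

theorem pc_gen (H : Cw F s t z) (hB : ∀ a ∈ B, a.pin ∧ a.OK F.w ∧ a.hi < t) {x' y' : ℤ} (A : Finset Bs)
    (hI : ∀ c, s < c → c ≤ t → (InV B η c ↔ (x < c ∧ c ≤ y) ∨ (x' < c ∧ c ≤ y')))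
    (hA : ∀ b, b ∈ A ↔ b ∈ B ∧ s ≤ b.lo ∧ b.lo < t ∧ Adj B η b) (h0 : s ≤ x) (h1 : y ≤ x') (h2 : y' ≤ t)
    (h3 : x ≤ y) (h4 : x' ≤ y') {β U m r : ℝ}
    (hβ : S F.w n lp x y + S F.w n lp x' y' + ∑ a ∈ A, sv F.w n η lp a = β)
    (hU : S F.w n uu x y + S F.w n uu x' y' + ∑ a ∈ A, sv F.w n η uu a = U)
    (hm : m ≤ asum (σ \ B) B η s t fun _ => 1)
    (k1 : dp B η s t v.1 v'.1 ≤ -3 / 4 * β + U / 2 + m / 4 +
      ∑ a ∈ A, ((if a.side (a.lo + 1) = η a then 13 / 4 else 0) - ch a (η a) : ℝ))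
    (k2 : F.HgW n B η s t ∨ ((r = 0 ∨ ((¬InV B η t ∨ t ≤ z) ∧ Rr U r)) ∧ dp B η s t v.2 v'.2 ≤ 3 / 2 * r - 3 * β +
      U / 2 + m + ∑ a ∈ A, ((if a.side (a.lo + 1) = η a then 1 else 0) - ch a (η a) : ℝ))) :
    F.Pc z 0 n σ B ch s t v v' η := by
  have e : ∀ φ, ssum F.w B η s t φ n = S F.w n φ x y + S F.w n φ x' y' + ∑ a ∈ A, sv F.w n η φ a := fun φ => by
    rw [ssum_eq, asum_of A hA, S_two (x := x) (y := y) (x' := x') (y' := y') h1 fun c => by
      have := hI c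
      refine ⟨fun q => (this (by omega) (by omega)).1 q.2.2, fun q => ⟨by omega, by omega, ?_⟩⟩
      exact (this (by omega) (by omega)).2 q]
    rfl
  have m4 : asum (σ \ B) B η s t (fun _ => 1 / 4) = asum (σ \ B) B η s t (fun _ => 1) / 4 := by
    simp only [asum, sum_div]
  have l0 : ∀ f, asum F.ls B η s t f = 0 := fun f => by simp [asum, H.ls]
  refine ⟨?_, k2.imp_right fun ⟨k, k'⟩ n' tp lc => ?_⟩
  · rw [Fm.Ev, ssum_al, e, e, hβ, hU, l0, m4, asum_of A hA, sub_zero]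
    linarith
  · rw [Fm.Ev, ssum_om, e, e, hβ, hU, l0, asum_of A hA, sub_zero]
    have q := H.loc lc
    suffices ssum F.w B η s (ee z B η t) lq n' ≤ -r by linarith
    rcases k with rfl | ⟨k, k''⟩
    · rwa [neg_zero]
    · rw [ee, if_neg fun i => k.elim (· i.2) i.1.not_ge] at q ⊢
      obtain ⟨j, hj⟩ := ssum_cong (η := η) H.ok H.p1 tp hB
      rw [e uu, hU] at hj
      linarith [k'' j (by linarith)]

theorem asum_nn {U : Finset Bs} : 0 ≤ asum U B η s t fun _ => 1 := sum_nonneg fun _ _ => zero_le_one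

/-- the empty piece -/
theorem pc_nil (H : Cw F s t z) (hB : ∀ a ∈ B, a.pin ∧ a.OK F.w ∧ a.hi < t)
    (hI : ∀ c, s < c → c ≤ t → ¬InV B η c) (hA : ∀ b ∈ B, ¬Adj B η b) : F.Pc z 0 n σ B ch s t v v' η := by
  have d : ∀ a b, dp B η s t a b = 0 := fun a b => by
    rw [dp, if_neg (hI t H.lt le_rfl), if_neg (hI _ (by omega) H.lt), sub_zero]
  refine pc_gen (x := s) (y := s) (x' := s) (y' := s) (β := 0) (U := 0) (m := 0) (r := 0) H hB ∅
    (fun c a b => ⟨fun q => (hI c a b q).elim, fun q => by omega⟩)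
    (fun b => ⟨by simp, fun q => (hA b q.1 q.2.2.2).elim⟩) le_rfl le_rfl H.lt.le le_rfl le_rfl
    (by simp [S_self]) (by simp [S_self]) asum_nn (by simp [d]) (.inr ⟨.inl rfl, by simp [d]⟩)

/-- the standard charges -/
def cf (c : ℤ) (a : Bs) (b : Bool) : ℤ := if a.arc then (if b then -3 else 3) else if b then c else -c

/-- the inside of the arc has `b⁺ = 0`, `Λ² - σ = 1` -/
def In1 (w : Shp Γ) (n : Wt) (x y : ℤ) : Prop :=
  S w n lp x y - vv w lp n (.sA x y) = 0 ∧ S w n uu x y - vv w uu n (.sA x y) = 1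

theorem rr1 : Rr 1 1 := fun j h => by
  have : 4 * j ≤ 1 := by exact_mod_cast h
  have : 4 * j ≤ 0 := by omega
  rw [sub_self]; exact_mod_cast this

/-- the inside of an innermost arc -/
theorem pc_in (H : Cw F s t z) (hB : ∀ a ∈ B, a.pin ∧ a.OK F.w ∧ a.hi < t) (ha : .sA x y ∈ B) (hs : s < x)
    (hη : η (.sA x y) = false) (I : In1 F.w n x y) (c : ℤ)
    (far : ∀ b ∈ B, b ≠ .sA x y → b.hi < x ∨ y < b.lo ∨ (b.arc ∧ b.lo < x ∧ y < b.hi)) :
    F.Pc z 0 n σ B (cf c) s t v v' η := by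
  obtain ⟨-, ⟨⟨-, xy, -⟩, -⟩, yt⟩ := hB _ ha
  change y < t at yt
  have sd : ∀ b ∈ B, b ≠ .sA x y → ∀ c, x < c → c ≤ y → b.side c = b.side (x + 1) := fun b hb e c c1 c2 => by
    have := far b hb e
    have := (wf_of_ok (hB b hb).2.1).1.1
    rw [Bool.eq_iff_iff]
    by_cases k : b.arc
    · rw [side_arc k, side_arc k]; omega
    · have := (side_sl (c := 0) k).2
      rw [(side_sl k).1, (side_sl k).1]
      simp only [k, false_and, or_false] at *; omega
  have i0 : ∀ c, InV B η c → x < c ∧ c ≤ y := fun c q => by simpa [Bs.side, hη] using q _ ha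
  have a0 : ∀ b ∈ B, b ≠ .sA x y → ¬Adj B η b := fun b hb e q => by
    have := far b hb e
    have := (wf_of_ok (hB b hb).2.1).1.1
    have := q.side ha (Ne.symm e)
    simp only [Bs.side, hη, Bool.not_eq_eq_eq_not, Bool.not_false, decide_eq_true_eq] at this
    omega
  by_cases k : Adj B η (.sA x y)
  · have d : ∀ a b, dp B η s t a b = 0 := fun a b => by
      rw [dp, if_neg fun q => by have := i0 _ q; omega, if_neg fun q => by have := i0 _ q; omega, sub_zero]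
    refine pc_gen (x := x) (y := y) (x' := y) (y' := y) (β := 0) (U := 1) (m := 0) (r := 1) H hB {.sA x y}
      (fun c _ _ => ⟨fun q => .inl (i0 c q), fun q b hb => ?_⟩)
      (fun b => ⟨fun q => ?_, fun q => mem_singleton.2 (by_contra fun e => a0 b q.1 e q.2.2.2)⟩) hs.le le_rfl yt.le
      xy.le le_rfl (by simpa [S_self, sv, Bs.arc, hη, sub_eq_add_neg] using I.1)
      (by simpa [S_self, sv, Bs.arc, hη, sub_eq_add_neg] using I.2) asum_nn ?_
      (.inr ⟨.inr ⟨.inl fun q => by have := i0 _ q; omega, rr1⟩, ?_⟩)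
    · by_cases e : b = .sA x y
      · subst e; simp only [Bs.side, hη, Bool.not_eq_eq_eq_not, Bool.not_false, decide_eq_true_eq]; omega
      · rw [sd b hb e c (by omega) (by omega)]; exact k.side hb e
    · rw [mem_singleton.1 q]; exact ⟨ha, hs.le, xy.trans yt, k⟩
    all_goals rw [d, sum_singleton]; simp [Bs.side, Bs.lo, Bs.arc, cf, hη, xy]; norm_num
  · refine pc_nil H hB (fun c _ _ q => k fun b hb => ?_) fun b hb => ?_
    · obtain ⟨e, hb⟩ := mem_erase.1 hb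
      exact (sd b hb e c (i0 c q).1 (i0 c q).2).symm.trans (q b hb)
    · by_cases e : b = .sA x y
      exacts [e ▸ k, a0 b hb e]

/-- the inequalities for a piece with numbers `β`, `U`, `m`, `e` entry walls and charge `q` -/
def Nq (F : Fm Γ) (n : Wt) (B : Finset Bs) (η : Bs → Bool) (s t z : ℤ) (D D' β U m e q : ℝ) : Prop :=
  D ≤ -3 / 4 * β + U / 2 + m / 4 + (13 / 4 * e - q) ∧ (F.HgW n B η s t ∨ ∃ r,
    (r = 0 ∨ ((¬InV B η t ∨ t ≤ z) ∧ Rr U r)) ∧ D' ≤ 3 / 2 * r - 3 * β + U / 2 + m + (e - q))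

theorem pc_ne (H : Cw F s t z) (hB : ∀ a ∈ B, a.pin ∧ a.OK F.w ∧ a.hi < t) {x' y' : ℤ} (A : Finset Bs)
    (hI : ∀ c, s < c → c ≤ t → (InV B η c ↔ (x < c ∧ c ≤ y) ∨ (x' < c ∧ c ≤ y')))
    (hA : ∀ b, b ∈ A ↔ b ∈ B ∧ s ≤ b.lo ∧ b.lo < t ∧ Adj B η b) (h0 : s ≤ x) (h1 : y ≤ x') (h2 : y' ≤ t)
    (h3 : x ≤ y) (h4 : x' ≤ y') {β U m e q D D' : ℝ}
    (hβ : S F.w n lp x y + S F.w n lp x' y' + ∑ a ∈ A, sv F.w n η lp a = β)
    (hU : S F.w n uu x y + S F.w n uu x' y' + ∑ a ∈ A, sv F.w n η uu a = U)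
    (hm : m ≤ asum (σ \ B) B η s t fun _ => 1) (hD : dp B η s t v.1 v'.1 = D) (hD' : dp B η s t v.2 v'.2 = D')
    (he : ∀ ε : ℝ, ∑ a ∈ A, ((if a.side (a.lo + 1) = η a then ε else 0) - ch a (η a) : ℝ) = ε * e - q)
    (k : Nq F n B η s t z D D' β U m e q) : F.Pc z 0 n σ B ch s t v v' η := by
  rcases k with ⟨k1, k2 | ⟨r, k2, k3⟩⟩
  · exact pc_gen (r := 0) H hB A hI hA h0 h1 h2 h3 h4 hβ hU hm (by rw [hD, he]; exact k1) (.inl k2)
  · exact pc_gen H hB A hI hA h0 h1 h2 h3 h4 hβ hU hm (by rw [hD, he]; exact k1)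
      (.inr ⟨k2, by rw [hD', he, one_mul]; exact k3⟩)

section shapes
variable (H : Cw F s t z) {c x' y' : ℤ} {m : ℝ}
include H

/-- no wall is broken -/
theorem pc_0 (hm : m ≤ #(wn s t σ))
    (k : Nq F n ∅ η s t z (v'.1 - v.1) (v'.2 - v.2) (S F.w n lp s t) (S F.w n uu s t) m 0 0) :
    F.Pc z 0 n σ ∅ ch s t v v' η :=
  pc_ne (x := s) (y := t) (x' := t) (y' := t) H (by simp) ∅ (fun c a b => by simp [InV, a, b]) (by simp)
    le_rfl le_rfl le_rfl H.lt.le le_rfl (by simp [S_self]) (by simp [S_self])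
    (by simpa [asum, wn, Adj, InV] using hm) (by simp [dp, InV]) (by simp [dp, InV]) (by simp) k

/-- left of a slice -/
theorem pc_l (o : (Bs.sS x).OK F.w) (h : s < x) (h' : x < t) (hη : η (.sS x) = false)
    (k : Nq F n {.sS x} η s t z (-v.1) (-v.2) (S F.w n lp s x) (S F.w n uu s x) 0 0 (-c)) :
    F.Pc z 0 n σ {.sS x} (cf c) s t v v' η :=
  pc_ne (x := s) (y := x) (x' := x) (y' := x) H (by simpa [Bs.pin, Bs.hi, o]) {.sS x}
    (fun c a b => by simp [InV, Bs.side, hη, a]) (by simp +contextual [Adj, InV, Bs.lo, h.le, h'])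
    le_rfl le_rfl h'.le h.le le_rfl (by simp [S_self, sv, Bs.arc]) (by simp [S_self, sv, Bs.arc]) asum_nn
    (by simp [dp, InV, Bs.side, hη, h', h])
    (by simp [dp, InV, Bs.side, hη, h', h])
    (fun ε => by rw [sum_singleton]; simp [Bs.side, Bs.lo, Bs.arc, cf, hη]) k

/-- right of a slice -/
theorem pc_r (o : (Bs.sS x).OK F.w) (h : s < x) (h' : x < t) (hη : η (.sS x) = true)
    (k : Nq F n {.sS x} η s t z v'.1 v'.2 (S F.w n lp x t) (S F.w n uu x t) 0 1 c) :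
    F.Pc z 0 n σ {.sS x} (cf c) s t v v' η :=
  pc_ne (x := x) (y := t) (x' := t) (y' := t) H (by simpa [Bs.pin, Bs.hi, o]) {.sS x}
    (fun c a b => by simp [InV, Bs.side, hη, b]) (by simp +contextual [Adj, InV, Bs.lo, h.le, h'])
    h.le le_rfl le_rfl h'.le le_rfl (by simp [S_self, sv, Bs.arc]) (by simp [S_self, sv, Bs.arc]) asum_nn
    (by simp [dp, InV, Bs.side, hη, h', h])
    (by simp [dp, InV, Bs.side, hη, h', h])
    (fun ε => by rw [sum_singleton]; simp [Bs.side, Bs.lo, Bs.arc, cf, hη]) k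

/-- outside an arc -/
theorem pc_o (o : (Bs.sA x y).OK F.w) (h : s < x) (h' : y < t) (hη : η (.sA x y) = true)
    (k : Nq F n {.sA x y} η s t z (v'.1 - v.1) (v'.2 - v.2)
      (S F.w n lp s x + S F.w n lp y t + vv F.w lp n (.sA x y))
      (S F.w n uu s x + S F.w n uu y t + vv F.w uu n (.sA x y)) 0 0 (-3)) :
    F.Pc z 0 n σ {.sA x y} (cf c) s t v v' η :=
  have xy := o.1.lt
  pc_ne (x := s) (y := x) (x' := y) (y' := t) H (by simpa [Bs.pin, Bs.hi, o]) {.sA x y}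
    (fun c a b => by simp [InV, Bs.side, hη, a, b])
    (by simp +contextual [Adj, InV, Bs.lo, h.le, xy.trans h'])
    le_rfl xy.le le_rfl h.le h'.le (by simp [sv, Bs.arc, hη]) (by simp [sv, Bs.arc, hη]) asum_nn
    (by simp [dp, InV, Bs.side, hη, h', h])
    (by simp [dp, InV, Bs.side, hη, h', h])
    (fun ε => by rw [sum_singleton]; simp [Bs.side, Bs.lo, Bs.arc, cf, hη, xy]) k

omit H in
theorem adj_two (ab : a ≠ b) {d : Bs} : d ∈ ({a, b} : Finset Bs) ∧ s ≤ d.lo ∧ d.lo < t ∧ Adj {a, b} η d ↔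
    (d = a ∧ s ≤ a.lo ∧ a.lo < t ∧ b.side (a.lo + 1) = η b) ∨
      (d = b ∧ s ≤ b.lo ∧ b.lo < t ∧ a.side (b.lo + 1) = η a) := by
  have e1 : ({a, b} : Finset Bs).erase a = {b} := erase_insert (by simpa using ab)
  have e2 : ({a, b} : Finset Bs).erase b = {a} := by rw [pair_comm]; exact erase_insert (by simpa using ab.symm)
  simp only [mem_insert, mem_singleton, or_and_right]
  refine or_congr (and_congr_right fun e => ?_) (and_congr_right fun e => ?_) <;> subst e <;>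
    simp [Adj, InV, e1, e2]

/-- right of a slice, an arc left of it -/
theorem pc_ar (o : (Bs.sA x y).OK F.w) (o' : (Bs.sS x').OK F.w) (h : s < x) (h1 : y < x') (h' : x' < t)
    (hη : η (.sA x y) = true) (hη' : η (.sS x') = true)
    (k : Nq F n {.sA x y, .sS x'} η s t z v'.1 v'.2 (S F.w n lp x' t) (S F.w n uu x' t) 0 1 c) :
    F.Pc z 0 n σ {.sA x y, .sS x'} (cf c) s t v v' η :=
  have xy := o.1.lt
  have ne : Bs.sA x y ≠ .sS x' := nofun
  pc_ne (x := x') (y := t) (x' := t) (y' := t) H (by simp [Bs.pin, Bs.hi, o, o', h', h1.trans h']) {.sS x'}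
    (fun c a b => by simp [InV, Bs.side, hη, hη', b]; omega)
    (fun b => by
      rw [adj_two ne]
      simp [Bs.lo, Bs.side, hη, hη', h', show s ≤ x' by omega, show y ≤ x' by omega, show ¬x' ≤ x by omega])
    (by omega) le_rfl le_rfl h'.le le_rfl (by simp [S_self, sv, Bs.arc]) (by simp [S_self, sv, Bs.arc]) asum_nn
    (by simp [dp, InV, Bs.side, hη, hη', h', h, h1.trans h', show ¬x' ≤ s by omega])
    (by simp [dp, InV, Bs.side, hη, hη', h', h, h1.trans h', show ¬x' ≤ s by omega])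
    (fun ε => by rw [sum_singleton]; simp [Bs.side, Bs.lo, Bs.arc, cf, hη']) k

/-- right of a slice, outside an arc right of it -/
theorem pc_ra (o : (Bs.sA x y).OK F.w) (o' : (Bs.sS x').OK F.w) (h : s < x') (h1 : x' < x) (h' : y < t)
    (hη : η (.sA x y) = true) (hη' : η (.sS x') = true)
    (k : Nq F n {.sA x y, .sS x'} η s t z v'.1 v'.2 (S F.w n lp x' x + S F.w n lp y t + vv F.w lp n (.sA x y))
      (S F.w n uu x' x + S F.w n uu y t + vv F.w uu n (.sA x y)) 0 1 (c - 3)) :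
    F.Pc z 0 n σ {.sA x y, .sS x'} (cf c) s t v v' η :=
  have xy := o.1.lt
  have ne : Bs.sA x y ≠ .sS x' := nofun
  pc_ne (x := x') (y := x) (x' := y) (y' := t) H (by simp [Bs.pin, Bs.hi, o, o', h']; omega) {.sA x y, .sS x'}
    (fun c a b => by simp [InV, Bs.side, hη, hη', b]; omega)
    (fun b => by
      rw [adj_two ne]
      simp [Bs.lo, Bs.side, hη, hη', h.le, h1, h1.le, show s ≤ x by omega, show x < t by omega,
        show x' < t by omega])
    h.le xy.le le_rfl h1.le h'.le (by rw [sum_pair ne]; simp [sv, Bs.arc, hη])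
    (by rw [sum_pair ne]; simp [sv, Bs.arc, hη]) asum_nn
    (by simp [dp, InV, Bs.side, hη, hη', h', h, show x' < t by omega])
    (by simp [dp, InV, Bs.side, hη, hη', h', h, show x' < t by omega])
    (fun ε => by rw [sum_pair ne]; simp [Bs.side, Bs.lo, Bs.arc, cf, hη, hη', xy]; ring) k

/-- between two arcs -/
theorem pc_aa (o : (Bs.sA x y).OK F.w) (o' : (Bs.sA x' y').OK F.w) (h : s < x') (h1 : x' < x) (h2 : y < y')
    (h' : y' < t) (hη : η (.sA x y) = true) (hη' : η (.sA x' y') = false)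
    (k : Nq F n {.sA x y, .sA x' y'} η s t z 0 0
      (S F.w n lp x' x + S F.w n lp y y' + (vv F.w lp n (.sA x y) - vv F.w lp n (.sA x' y')))
      (S F.w n uu x' x + S F.w n uu y y' + (vv F.w uu n (.sA x y) - vv F.w uu n (.sA x' y'))) 0 1 0) :
    F.Pc z 0 n σ {.sA x y, .sA x' y'} (cf c) s t v v' η :=
  have xy := o.1.lt
  have ne : Bs.sA x y ≠ .sA x' y' := fun e => by cases e; omega
  pc_ne (x := x') (y := x) (x' := y) (y' := y') H (by simp [Bs.pin, Bs.hi, o, o', h']; omega)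
    {.sA x y, .sA x' y'} (fun c a b => by simp [InV, Bs.side, hη, hη']; omega)
    (fun b => by
      rw [adj_two ne]
      simp [Bs.lo, Bs.side, hη, hη', h.le, h1, h1.le, show s ≤ x by omega, show x < t by omega,
        show x' < t by omega, show x < y' by omega])
    h.le xy.le h'.le h1.le h2.le (by rw [sum_pair ne]; simp [sv, Bs.arc, hη, hη', sub_eq_add_neg])
    (by rw [sum_pair ne]; simp [sv, Bs.arc, hη, hη', sub_eq_add_neg]) asum_nn
    (by simp [dp, InV, Bs.side, hη', h'.not_ge, h.not_ge]) (by simp [dp, InV, Bs.side, hη', h'.not_ge, h.not_ge])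
    (fun ε => by
      rw [sum_pair ne]; simp [Bs.side, Bs.lo, Bs.arc, cf, hη, hη', xy, show x' < y' by omega]) k

end shapes

/-! ### windows -/

theorem win_of (ls : F.ls = ∅) (h : ∀ B ⊆ wn s t σ, (∀ a ∈ B, a.pin) → ∃ c, |c| ≤ 1 ∧
    ∀ η, F.Pc z 0 n σ B (cf c) s t v v' η) : F.Win z 0 n σ s t v v' := fun B hB hp => by
  obtain ⟨c, hc, k⟩ := h B hB hp
  rw [abs_le] at hc
  refine ⟨cf c, ?_, fun a _ => ?_, k⟩
  · rw [ls, sum_eq_zero fun a _ => by unfold cf; split_ifs <;> simp_all]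
    simp [wn]
  · unfold Sz cf; split_ifs <;> simp_all; omega

/-- the pieces that begin in the window -/
def Br (F : Fm Γ) (z : ℤ) (n : Wt) (σ B : Finset Bs) (s t : ℤ) (v' : ℝ × ℝ) : Prop :=
  ∃ c, |c| ≤ 1 ∧ ∀ η, ¬InV B η (s + 1) → F.Pc z 0 n σ B (cf c) s t 0 v' η

theorem Ev_ge (ls : F.ls = ∅) (hB : B ⊆ σ) {c : ℤ} (hc : |c| ≤ 1) {μ e : ℝ} (hμ : 0 ≤ μ) (he : 0 ≤ e) :
    -(∑ c ∈ Ioc F.w.l F.w.r, |vx F.w φ n c| + ∑ a ∈ σ, (|vv F.w φ n a| + 3)) ≤
      F.Ev n σ B η (cf c) φ μ e s t := by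
  have key : ∀ {α : Type} [DecidableEq α] (T U : Finset α) (f g : α → ℝ), T ⊆ U → (∀ a, 0 ≤ g a) →
      (∀ a, -g a ≤ f a) → -∑ a ∈ U, g a ≤ ∑ a ∈ T, f a := fun T U f g h h0 h1 => by
    rw [neg_le, ← sum_neg_distrib]
    exact (sum_le_sum fun a _ => neg_le.1 (h1 a)).trans (sum_le_sum_of_subset_of_nonneg h fun a _ _ => h0 a)
  have k1 := key {c ∈ Ioc F.w.l F.w.r | s + 1 ≤ c ∧ c < t + 1 ∧ InV B η c} _ (vx F.w φ n) _ (filter_subset _ _)
    (fun a => abs_nonneg _) fun a => neg_abs_le _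
  have k2 := key {a ∈ B | s ≤ a.lo ∧ a.lo < t ∧ Adj B η a} σ (sv F.w n η φ) (fun a => |vv F.w φ n a|)
    ((filter_subset _ _).trans hB) (fun a => abs_nonneg _) fun a => by
      have := neg_abs_le (vv F.w φ n a)
      have := le_abs_self (vv F.w φ n a)
      unfold sv; split_ifs <;> linarith
  have k3 := key {a ∈ B | s ≤ a.lo ∧ a.lo < t ∧ Adj B η a} σ
    (fun a => (if a.side (a.lo + 1) = η a then e else 0) - cf c a (η a)) (fun _ => 3)
    ((filter_subset _ _).trans hB) (fun a => by norm_num) fun a => by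
      have : cf c a (η a) ≤ 3 := by rw [abs_le] at hc; unfold cf; split_ifs <;> omega
      have : (cf c a (η a) : ℝ) ≤ 3 := by exact_mod_cast this
      split_ifs <;> linarith
  have k4 : 0 ≤ asum (σ \ B) B η s t fun _ => μ := sum_nonneg fun _ _ => hμ
  rw [Fm.Ev, ssum_eq, ls, sum_add_distrib]
  simp only [asum, filter_empty, sum_empty] at k4 ⊢
  unfold sv at k2
  linarith

/-- **a large reserve is enough for the pieces that come in** -/
theorem head (H : Cw F s t z) (h : ∀ B ⊆ wn s t σ, (∀ a ∈ B, a.pin) → Br F z n σ B s t v') :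
    ∃ v, F.Win z 0 n σ s t v v' := by
  let C := fun φ => ∑ c ∈ Ioc F.w.l F.w.r, |vx F.w φ n c| + ∑ a ∈ σ, (|vv F.w φ n a| + 3)
  refine ⟨(|v'.1| + C al, |v'.2| + C om), win_of H.ls fun B hB hp => ?_⟩
  obtain ⟨c, hc, k⟩ := h B hB hp
  refine ⟨c, hc, fun η => ?_⟩
  by_cases i : InV B η (s + 1)
  · have hB' : B ⊆ σ := hB.trans (filter_subset _ _)
    have d : ∀ a b : ℝ, dp B η s t (|a| + b) a ≤ -b := fun a b => by
      have := le_abs_self a
      have := abs_nonneg a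
      rw [dp, if_pos i]; split_ifs <;> linarith
    refine ⟨(d _ _).trans (Ev_ge H.ls hB' hc (by norm_num) (by norm_num)), .inr fun n' _ lc => (d _ _).trans ?_⟩
    have := H.loc lc
    have k : -C om ≤ _ := Ev_ge (n := n) (η := η) (s := s) (t := t) H.ls hB' hc zero_le_one
      (show (0 : ℝ) ≤ 1 - 0 by norm_num)
    exact k.trans (le_add_of_nonneg_left (by linarith))
  · simpa only [Fm.Pc, dp, if_neg i] using k η i

theorem br_nil : Br F z n σ ∅ s t v' := ⟨0, by simp, fun η h => (h (by simp [InV])).elim⟩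

section br
variable (H : Cw F s t z) {c x' y' : ℤ}
include H

theorem br_a (o : (Bs.sA x y).OK F.w) (h : s < x) (h' : y < t) (I : In1 F.w n x y) :
    Br F z n σ {.sA x y} s t v' := ⟨0, by simp, fun η i =>
  pc_in H (by simpa [Bs.pin, Bs.hi, o]) (mem_singleton_self _) h (by simpa [InV, Bs.side, h.not_ge] using i) I _
    (by simp)⟩

theorem br_s (o : (Bs.sS x).OK F.w) (h : s < x) (h' : x < t) (hc : |c| ≤ 1)
    (k : ∀ η, η (.sS x) = true → Nq F n {.sS x} η s t z v'.1 v'.2 (S F.w n lp x t) (S F.w n uu x t) 0 1 c) :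
    Br F z n σ {.sS x} s t v' := ⟨c, hc, fun η i =>
  have e : η (.sS x) = true := by simpa [InV, Bs.side, h.not_ge] using i
  pc_r H o h h' e (k η e)⟩

theorem br_as (o : (Bs.sA x y).OK F.w) (o' : (Bs.sS x').OK F.w) (h : s < x) (h1 : y < x') (h' : x' < t)
    (I : In1 F.w n x y) (hc : |c| ≤ 1) (k : ∀ η, η (.sS x') = true →
      Nq F n {.sA x y, .sS x'} η s t z v'.1 v'.2 (S F.w n lp x' t) (S F.w n uu x' t) 0 1 c) :
    Br F z n σ {.sA x y, .sS x'} s t v' := ⟨c, hc, fun η i => by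
  have xy := o.1.lt
  cases e : η (.sA x y)
  · exact pc_in H (by simp [Bs.pin, Bs.hi, o, o', h', h1.trans h']) (by simp) h e I _ (by simp [Bs.lo, h1])
  · have e' : η (.sS x') = true := by simpa [InV, Bs.side, h, e, show ¬x' ≤ s by omega] using i
    exact pc_ar H o o' h h1 h' e e' (k η e')⟩

theorem br_sa (o : (Bs.sA x y).OK F.w) (o' : (Bs.sS x').OK F.w) (h : s < x') (h1 : x' < x) (h' : y < t)
    (I : In1 F.w n x y) (hc : |c| ≤ 1) (k : ∀ η,
      Nq F n {.sA x y, .sS x'} η s t z v'.1 v'.2 (S F.w n lp x' x + S F.w n lp y t + vv F.w lp n (.sA x y))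
        (S F.w n uu x' x + S F.w n uu y t + vv F.w uu n (.sA x y)) 0 1 (c - 3)) :
    Br F z n σ {.sA x y, .sS x'} s t v' := ⟨c, hc, fun η i => by
  have xy := o.1.lt
  cases e : η (.sA x y)
  · exact pc_in H (by simp [Bs.pin, Bs.hi, o, o', h']; omega) (by simp) (by omega) e I _ (by simp [Bs.hi, h1])
  · exact pc_ra H o o' h h1 h' e (by simpa [InV, Bs.side, h.not_ge, e, show ¬x ≤ s by omega] using i) (k η)⟩

theorem br_aa (o : (Bs.sA x y).OK F.w) (o' : (Bs.sA x' y').OK F.w) (h : s < x') (h1 : x' < x) (h2 : y < y')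
    (h' : y' < t) (I : In1 F.w n x y) (k : ∀ η, Nq F n {.sA x y, .sA x' y'} η s t z 0 0
      (S F.w n lp x' x + S F.w n lp y y' + (vv F.w lp n (.sA x y) - vv F.w lp n (.sA x' y')))
      (S F.w n uu x' x + S F.w n uu y y' + (vv F.w uu n (.sA x y) - vv F.w uu n (.sA x' y'))) 0 1 0) :
    Br F z n σ {.sA x y, .sA x' y'} s t v' := ⟨0, by simp, fun η i => by
  have xy := o.1.lt
  cases e : η (.sA x y)
  · exact pc_in H (by simp [Bs.pin, Bs.hi, o, o', h']; omega) (by simp) (by omega) e I _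
      (by simp [Bs.hi, Bs.lo, Bs.arc, h1, h2])
  · exact pc_aa H o o' h h1 h2 h' e (by simpa [InV, Bs.side, h.not_ge, e, show ¬x ≤ s by omega] using i) (k η)⟩

end br

end Crest.Agent.X212.Wd38
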