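import Crest.Agent.X212.Wd38.Tl

/-!
# X212 / Wd38, part Kn (helper38): the numbers of the turns of the descent `1/4, 1/3, 1/2, 1`
-/

set_option autoImplicit false
noncomputable section

namespace Crest.Agent.X212.Wd38

open Crest.Agent.X212.Rod53 Crest.Agent.X212.Nm96 Finset

/-- the rods of the turn on `(j + 1, 1)` -/
def vK (j k : ℕ) : Z2 :=
  if k ≤ j + 1 then ((j : ℤ) + 1 - k, 1) else if k = j + 2 then (-1, 0) else (-((j : ℤ) + 1), -1)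

/-- the total height -/
def gK (j : ℕ) : ℤ := if j = 0 then 1 else 3

/-- the orders -/
def mK (j : ℕ) (y : ℤ) (k : ℕ) : ℤ :=
  if k = 0 then y else if k ≤ j then y - 1 else if k = j + 1 then y - gK j else if k = j + 2 then -1 else -y

/-- the orders after the twists -/
def mT (j : ℕ) (y : ℤ) (k : ℕ) : ℤ := if k < j then y else if k = j then y + 1 - gK j else mK j y k

/-- the classes of the exceptional spheres -/
def aK (j i k : ℕ) : ℤ := if i < k ∧ k ≤ j + 1 then 1 else 0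

/-- sums over the vertices -/
def Sg (φ : Z2 → Z2 → ℤ → ℤ → ℝ) (v : ℕ → Z2) (m : ℕ → ℤ) (a b : ℕ) : ℝ :=
  ∑ k ∈ Ioc a b, φ (v (k - 1)) (v k) (m (k - 1)) (m k)

/-- the virtual vertex -/
def Vg (φ : Z2 → Z2 → ℤ → ℤ → ℝ) (v : ℕ → Z2) (m : ℕ → ℤ) (a b : ℕ) : ℝ := φ (v a) (v b) (m a) (m b)

/-- the local intersection numbers -/
def lZ (j k : ℕ) (x y x' y' : ℤ) : ℤ := if k ≤ j + 1 then -((x - y) * (x' - y')) else
  if k = j + 2 then x * y' + x' * y else x * y' + x' * y - (j + 1) * x * x'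

variable {j : ℕ}

theorem vK_cases {k : ℕ} (h : 0 < k) (h' : k ≤ j + 3) : (k ≤ j + 1 ∧ ∃ a, vK j (k - 1) = (a + 1, 1) ∧ vK j k = (a, 1)) ∨
    (k = j + 2 ∧ vK j (k - 1) = (0, 1) ∧ vK j k = (-1, 0)) ∨
    (k = j + 3 ∧ vK j (k - 1) = (-1, 0) ∧ vK j k = (-((j : ℤ) + 1), -1)) := by
  rcases (show k ≤ j + 1 ∨ k = j + 2 ∨ k = j + 3 by omega) with e | rfl | rfl
  · refine .inl ⟨e, j + 1 - k, ?_, if_pos e⟩
    rw [vK, if_pos (by omega), Nat.cast_sub h]; congr 1; push_cast; ring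
  · exact .inr (.inl ⟨rfl, by simp [vK], by simp [vK]⟩)
  · exact .inr (.inr ⟨rfl, by simp [vK], by simp [vK]⟩)

theorem lb_K {k : ℕ} (h : 0 < k) (h' : k ≤ j + 3) (x y x' y' : ℤ) :
    lb (vK j (k - 1)) (vK j k) x y x' y' = lZ j k x y x' y' := by
  rcases vK_cases h h' with ⟨e, a, e1, e2⟩ | ⟨e, e1, e2⟩ | ⟨e, e1, e2⟩ <;> rw [e1, e2] <;>
    simp [lb, lZ, dt, Nm96.rho, e] <;> ring

theorem Sg_lp (m : ℕ → ℤ) (a : ℕ) {b : ℕ} (h : b ≤ j + 3) :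
    Sg lp (vK j) m a b = ∑ k ∈ Ioc a b, if k ≤ j + 1 then 0 else 1 / 2 := sum_congr rfl fun k hk => by
  rw [mem_Ioc] at hk
  rcases vK_cases (j := j) (k := k) (by omega) (by omega) with ⟨e, a, e1, e2⟩ | ⟨e, e1, e2⟩ | ⟨e, e1, e2⟩ <;>
    rw [e1, e2] <;> simp [Nm96.lp, nn, dt, e]

theorem Sg_uu (m : ℕ → ℤ) (a : ℕ) {b : ℕ} (h : b ≤ j + 3) : Sg uu (vK j) m a b =
    (∑ k ∈ Ioc a b, (lZ j k (m (k - 1)) (m k) (m (k - 1)) (m k) + if k ≤ j + 1 then 1 else 0) : ℤ) := by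
  rw [Int.cast_sum]
  refine sum_congr rfl fun k hk => ?_
  rw [mem_Ioc] at hk
  rw [uu, lq, lb_K (by omega) (by omega)]
  rcases vK_cases (j := j) (k := k) (by omega) (by omega) with ⟨e, a, e1, e2⟩ | ⟨e, e1, e2⟩ | ⟨e, e1, e2⟩ <;>
    rw [e1, e2] <;> simp [lg, nn, dt, e]

theorem Vg_0 (m : ℕ → ℤ) {a : ℕ} (h : a ≤ j + 1) : Vg lp (vK j) m a (j + 2) = 1 / 2 ∧ Vg uu (vK j) m a (j + 2) =
    (2 * m a * m (j + 2) + (j + 1 - a) * m (j + 2) * m (j + 2) : ℤ) := by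
  simp [Vg, vK, h, Nm96.lp, uu, lq, lb, lg, nn, dt, Nm96.rho, div_neg]; ring

variable (hj : j ≤ 3) (y : ℤ)

theorem kn_v2 : Vg lp (vK j) (mK j y) 1 (j + 3) = 1 ∧ Vg uu (vK j) (mK j y) 1 (j + 3) = 0 := by
  have : mK j y 1 = y - 1 := by rcases j with _ | j <;> simp [mK, gK]
  rw [Vg, Vg, this]
  simp [vK, mK, Nm96.lp, uu, lq, lb, lg, nn, dt, Nm96.rho]; ring

include hj

macro "knum" : tactic => `(tactic| (simp only [Sg_lp, Sg_uu, Vg_0, kn_v2, Nat.le_add_left, Nat.le_add_right,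
  Nat.zero_le, le_refl, Nat.add_le_add_iff_left, Nat.reduceLeDiff]; interval_cases j <;>
    simp [mK, mT, gK, lZ, Finset.Ioc_ofNat_ofNat] <;> ring_nf <;> simp))

theorem kn_d1 : Sg lp (vK j) (mK j y) 0 (j + 2) - Vg lp (vK j) (mK j y) 0 (j + 2) = 0 ∧
    Sg uu (vK j) (mK j y) 0 (j + 2) - Vg uu (vK j) (mK j y) 0 (j + 2) = 1 := by knum

theorem kn_d2 : Sg lp (vK j) (mK j y) 1 (j + 3) - Vg lp (vK j) (mK j y) 1 (j + 3) = 0 ∧
    Sg uu (vK j) (mK j y) 1 (j + 3) - Vg uu (vK j) (mK j y) 1 (j + 3) = 1 := by knum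

theorem kn_r : Sg lp (vK j) (mK j y) (j + 1) (j + 3) = 1 ∧
    Sg uu (vK j) (mK j y) (j + 1) (j + 3) = 2 * gK j - (j + 1) := by knum

theorem kn_l (h : j ≠ 0) : Sg lp (vK j) (mK j y) 1 (j + 1) = 0 ∧ Sg uu (vK j) (mK j y) 1 (j + 1) = j - 4 := by
  revert h; knum

theorem kt_d1 : Sg lp (vK j) (mT j y) 0 (j + 2) - Vg lp (vK j) (mT j y) 0 (j + 2) = 0 ∧
    Sg uu (vK j) (mT j y) 0 (j + 2) - Vg uu (vK j) (mT j y) 0 (j + 2) = 1 := by knum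

theorem kt_e : Sg lp (vK j) (mT j y) j (j + 2) - Vg lp (vK j) (mT j y) j (j + 2) = 0 ∧
    Sg uu (vK j) (mT j y) j (j + 2) - Vg uu (vK j) (mT j y) j (j + 2) = 1 := by knum

theorem kt_b : Sg lp (vK j) (mT j y) 0 j + (Vg lp (vK j) (mT j y) j (j + 2) - Vg lp (vK j) (mT j y) 0 (j + 2)) = 0 ∧
    Sg uu (vK j) (mT j y) 0 j + (Vg uu (vK j) (mT j y) j (j + 2) - Vg uu (vK j) (mT j y) 0 (j + 2)) = 0 := by
  knum

theorem kt_r : Sg lp (vK j) (mT j y) (j + 1) (j + 3) = 1 ∧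
    Sg uu (vK j) (mT j y) (j + 1) (j + 3) = 2 * gK j - (j + 1) := by knum

theorem kt_l : Sg lp (vK j) (mT j y) j (j + 1) = 0 ∧ Sg uu (vK j) (mT j y) j (j + 1) = 0 := by knum

theorem kn_gr (i i' : Fin (j + 1)) : ∑ k ∈ Ioc 0 (j + 3), lb (vK j (k - 1)) (vK j k) (aK j i (k - 1)) (aK j i k)
    (aK j i' (k - 1)) (aK j i' k) = if i = i' then -1 else 0 := by
  rw [sum_congr rfl fun k hk => lb_K (mem_Ioc.1 hk).1 (mem_Ioc.1 hk).2 _ _ _ _, ← Int.cast_sum,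
    show ∑ k ∈ Ioc 0 (j + 3), lZ j k (aK j i (k - 1)) (aK j i k) (aK j i' (k - 1)) (aK j i' k) =
      if i = i' then -1 else 0 by revert i i'; interval_cases j <;> decide]
  split_ifs <;> simp

theorem kn_dg (i : Fin (j + 1)) : |∑ k ∈ Ioc 0 (j + 3), lb (vK j (k - 1)) (vK j k) (mK j y (k - 1)) (mK j y k)
    (aK j i (k - 1)) (aK j i k)| = if i = 0 then 0 else 1 := by
  rw [sum_congr rfl fun k hk => lb_K (mem_Ioc.1 hk).1 (mem_Ioc.1 hk).2 _ _ _ _]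
  interval_cases j <;> fin_cases i <;> simp [mK, gK, aK, lZ, Finset.Ioc_ofNat_ofNat] <;> norm_num

theorem kn_uni : ∀ k < j + 3, Uni (vK j k) (vK j (k + 1)) := by
  unfold Uni; interval_cases j <;> decide

theorem kn_s : (∀ k ≤ j + 3, k ≤ 0 ∨ j + 2 ≤ k → aK j 0 k + 0 * dt (vK j 0) (vK j k) = 0) ∧
    ∀ k ≤ j + 3, k ≤ 1 ∨ j + 3 ≤ k → aK j 0 k + -1 * dt (vK j 0) (vK j k) = 0 := by
  interval_cases j <;> decide

theorem kn_u : Uni (vK j 0) (vK j (j + 2)) ∧ Uni (vK j 1) (vK j (j + 3)) ∧ Uni (vK j j) (vK j (j + 2)) ∧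
    ∀ k < j, vK j (k + 2) = -vK j k + (2 : ℤ) • vK j (k + 1) := by
  unfold Uni; interval_cases j <;> decide

omit hj in
theorem kn_p (k : ℕ) : |(vK j k).2| ≤ 1 := by unfold vK; split_ifs <;> simp

omit hj in
theorem kn_v : vK j 0 = ((j : ℤ) + 1, 1) ∧ vK j 1 = ((j : ℤ), 1) ∧ vK j j = (1, 1) ∧ vK j (j + 1) = (0, 1) ∧
    vK j (j + 2) = (-1, 0) ∧ vK j (j + 3) = (-((j : ℤ) + 1), -1) := by simp [vK]

omit hj in
theorem kn_m : mK j y 0 = y ∧ mK j y (j + 3) = -y ∧ mT j y 0 = y ∧ mT j y (j + 3) = -y ∧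
    mT j y j = y + 1 - gK j ∧ mT j y (j + 1) = y - gK j ∧ mT j y (j + 2) = -1 ∧ (j ≠ 0 → mK j y 1 = y - 1) := by
  rcases j with _ | j <;> simp [mK, mT, gK]
  omega

end Crest.Agent.X212.Wd38
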