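import Crest.Agent.X212.Wd38.Kn

/-!
# X212 / Wd38, part Kt (helper38): one step of the descent; the state `St0`
-/

set_option autoImplicit false
noncomputable section

namespace Crest.Agent.X212.Wd38

open Crest.Agent.X212.Rod53 Crest.Agent.X212.Nm96 Finset Cn

variable {Γ : Nm} {P : Pm Γ} {F : Fm Γ} {T : WTh Γ} {w : Shp Γ} {n n' : Wt} {κ : Γ.ι} {z s t x y : ℤ} {v : ℝ × ℝ}
  {u : ℕ → ℤ} {V : ℕ → Z2} {m m' : ℕ → ℤ} {N k0 k1 d : ℕ} {c : Cn} {φ : Z2 → Z2 → ℤ → ℤ → ℝ}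

theorem p1_put (h : P1 w) (k : ∀ i, |(V i).2| ≤ 1) : P1 (w.put κ u V N) := fun j => by
  simp only [Shp.put]; split_ifs
  exacts [⟨k _, k _⟩, h j]

/-- a pattern, then no vertex up to `t` -/
structure Pe (w : Shp Γ) (n : Wt) (κ : Γ.ι) (u : ℕ → ℤ) (V : ℕ → Z2) (m : ℕ → ℤ) (N : ℕ) (t : ℤ) : Prop
    extends Pt w n κ u V m N where
  le : u (N + 1) < t
  en : ∀ c, u (N + 1) ≤ c → c ≤ t → c ≤ w.r → dt (w.lf c) (w.rt c) = 0

theorem Tn.pe (h : Tn w n κ u V m N) (ht : u (N + 1) < t)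
    (rd : ∀ j, u (N + 1) ≤ j → j ≤ t → j ≤ w.r → w.s j = .rod (κ, V 0)) :
    Pe (w.put κ u V N) (n.put u m N) κ u V m N t := by
  refine ⟨h.pt, ht, fun c a b b' => ?_⟩
  have e := fun j q => (put_ag (w := w) (κ := κ) (t := u) (v := V) (m := m) (N := N) n j (.inr q)).1
  rw [Shp.rt, e c a, rd c a b b']
  rcases a.eq_or_lt with rfl | a
  · rw [h.pt.lf le_rfl (h.pt.lt N) le_rfl, h.vN]; exact dt_neg_self _
  · rw [Shp.lf, e _ (by omega), rd _ (by omega) (by omega) (by have : c ≤ w.r := b'; omega)]; exact dt_self _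

theorem Pe.S (h : Pe w n κ u V m N t) (hφ : Vn φ) (hk : k0 ≤ N) (h0 : u k0 ≤ x) (h0' : x < u (k0 + 1)) :
    S w n φ x t = Sg φ V m k0 N := by
  have := h.mono.monotone (Nat.add_le_add_right hk 1)
  have := h.lt N
  have := h.le
  rw [S_cut (y := u (N + 1) - 1) (by omega) (by omega), h.toPt.S hφ le_rfl h0 h0' (by omega) (by omega),
    S_zero hφ fun c a b _ e => h.en c (by omega) b e, add_zero, Sg]

namespace Pt

variable (h : Pt w n κ u V m N) (a0 : k0 ≤ N) (h0 : u k0 ≤ x) (h0' : x < u (k0 + 1))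
include h a0 h0 h0'

theorem okS (e : (V k0).1 = 0) : (Bs.sS x).OK w := by
  have := h.mono.monotone k0.zero_le
  have := h.mono.monotone (Nat.add_le_add_right a0 1)
  have := h.lo
  have := h.hi
  exact ⟨by omega, by omega, by rw [h.s a0 h0 h0']; exact e⟩

variable (a1 : k1 ≤ N) (h1 : u k1 ≤ y) (h1' : y < u (k1 + 1))
include a1 h1 h1'

theorem okA (xy : x < y) (e : Uni (V k0) (V k1)) : (Bs.sA x y).OK w := by
  have := h.mono.monotone k0.zero_le
  have := h.mono.monotone (Nat.add_le_add_right a1 1)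
  exact ⟨h.rg (by omega) xy (by omega), by rw [h.s a0 h0 h0', h.s a1 h1 h1']; exact e⟩

theorem in1 (e : Sg lp V m k0 k1 - Vg lp V m k0 k1 = 0 ∧ Sg uu V m k0 k1 - Vg uu V m k0 k1 = 1) : In1 w n x y := by
  rw [In1, h.S vn_lp a1 h0 h0' h1 h1', h.S vn_uu a1 h0 h0' h1 h1', h.vv a0 a1 h0 h0' h1 h1',
    h.vv a0 a1 h0 h0' h1 h1']
  exact e

end Pt

theorem Bas.lwA (B : Bas P F n z t) (o : (Bs.sA x y).OK F.w) (h : y < t) (I : In1 F.w n x y) :
    Lw F n z t v (.sA x y) := ⟨o, trivial, h, fun _ _ => br_a B.cw o (by have := o.1.lo; omega) h I⟩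

theorem rr_int (U : ℤ) : Rr U (U % 4 : ℤ) := fun j h => by
  have : 4 * j ≤ U := by exact_mod_cast h
  exact_mod_cast (by omega : 4 * j ≤ U - U % 4)

/-- the reserve of the tail of the turn on `(j + 1, 1)` -/
def vT (j : ℕ) : ℝ × ℝ := (1 - (j + 1) / 2, -1)

theorem nq_r {j : ℕ} (hj : j ≤ 3) (tz : t ≤ z) (B : Finset Bs) (η : Bs → Bool) :
    Nq F n B η s t z (vT j).1 (vT j).2 1 (2 * gK j - (j + 1)) 0 1 (1 : ℤ) := by
  have := rr_int (2 * gK j - (j + 1))
  push_cast at this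
  refine ⟨?_, .inr ⟨_, .inr ⟨.inr tz, this⟩, ?_⟩⟩ <;> interval_cases j <;> norm_num [vT, gK]

/-! ### twists -/

theorem eq_put (h : Pt w n' κ u V m N) (e : ∀ j, j ≤ u 0 ∨ u (N + 1) ≤ j → n'.nl j = n.nl j ∧ n'.nr j = n.nr j)
    (mL : n'.mL = n.mL) (mR : n'.mR = n.mR) : n' = n.put u m N := by
  have k : ∀ j, n'.nl j = (n.put u m N).nl j ∧ n'.nr j = (n.put u m N).nr j := fun j => by
    simp only [Wt.put]
    split_ifs with q
    · exact ⟨h.nl (h.rod q.1.le q.2).1 (ix_le h.mono q.1.le) (lt_ix h.mono j),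
        h.nr (h.rod q.1.le q.2).1 (ix_le h.mono q.1.le) (lt_ix h.mono j)⟩
    · exact e j (by omega)
  cases n'
  simp only [Wt.put, Wt.mk.injEq] at *
  exact ⟨funext fun j => (k j).1, funext fun j => (k j).2, mL, mR⟩

theorem Pt.congr (h : Pt w n κ u V m N) (e : ∀ k ≤ N, m k = m' k) : Pt w n κ u V m' N :=
  ⟨h.mono, h.lo, h.hi, fun k hk => e k hk ▸ h.rd k hk⟩

theorem acts_out (ts : List Tw) (n : Wt) {j : ℤ} (h : ∀ τ ∈ ts, j < τ.x ∨ τ.y < j) :
    ((acts w ts n).nl j = n.nl j ∧ (acts w ts n).nr j = n.nr j) ∧ (acts w ts n).mL = n.mL ∧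
      (acts w ts n).mR = n.mR := by
  induction ts generalizing n with
  | nil => exact ⟨⟨rfl, rfl⟩, rfl, rfl⟩
  | cons τ ts ih =>
    obtain ⟨⟨a, b⟩, c⟩ := ih (τ.act w n) fun τ' q => h τ' (List.mem_cons_of_mem _ q)
    have := act_ag (w := w) (n := n) τ j (h τ List.mem_cons_self)
    exact ⟨⟨a.trans this.2.1, b.trans this.2.2⟩, c⟩

theorem pops_nil (ts : List Tw) {a : Wl} (h : a.tw = []) : pops ts a = a := by
  induction ts with
  | nil => rfl
  | cons τ ts ih => rw [pops, pop, if_neg (by simp [h]), ih]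

theorem pops_of (ls : F.ls = ∅) (ts : List Tw) {S : Finset Wl} (h : ∀ a ∈ S, a.tw = [])
    (k : ∀ τ ∈ ts, τ.OK F.w ∧ (∀ b ∈ F.fz, τ.Off b) ∧ ∀ a ∈ S, τ.Off a.b) : F.Pops ts S := by
  induction ts with
  | nil => trivial
  | cons τ ts ih =>
    obtain ⟨a, b, c⟩ := k τ List.mem_cons_self
    refine ⟨a, b, by simp [ls], fun a q => .inr ⟨c a q, by simp [h a q]⟩, ?_⟩
    rw [image_congr (f := pop τ) (g := id) fun a q => if_neg (by simp [h a q]), image_id]
    exact ih fun τ' q => k τ' (List.mem_cons_of_mem _ q)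

theorem Ax0.twist (H : Ax0 P T) (ls : F.ls = ∅) (ts : List Tw) (h : ∀ a ∈ c.walls, a.tw = [])
    (k : ∀ τ ∈ ts, τ.OK F.w ∧ (∀ b ∈ F.fz, τ.Off b) ∧ ∀ a ∈ c.walls, τ.Off a.b) (cl : F.Cl P d c)
    (cl' : F.Cl P d (c.mp (acts F.w ts) id ∅)) : T.Z F d (c.mp (acts F.w ts) id ∅) = T.Z F d c := by
  have e : c.mp (acts F.w ts) (pops ts) ∅ = c.mp (acts F.w ts) id ∅ := mp_congr fun p hp => ⟨rfl, by
    rw [image_congr (f := pops ts) (g := id) fun a q => pops_nil ts (h a (mem_walls.2 ⟨p, hp, q⟩))]⟩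
  rw [← e, ← H.twi F ts d c ls (pops_of ls ts h k) (fun a p b q r => by
    rwa [pops_nil ts (h a p), pops_nil ts (h b q)] at r) cl (e ▸ cl')]

theorem kt_acts {j : ℕ} (hj : j ≤ 3) (h : Pt w n κ u (vK j) (mK j y) (j + 3)) :
    Pt w (acts w ((List.range j).map (twk u (vK j))) n) κ u (vK j) (mT j y) (j + 3) := by
  have e := (kn_u hj).2.2.2
  interval_cases j
  · exact h.congr fun k hk => by interval_cases k <;> simp [mK, mT, gK]
  · exact (h.twk_act (k := 0) (by omega) (e 0 (by omega))).congr fun k hk => by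
      interval_cases k <;> (simp [mK, mT, gK]; try ring)
  · exact ((h.twk_act (k := 0) (by omega) (e 0 (by omega))).twk_act (k := 1) (by omega) (e 1 (by omega))).congr
      fun k hk => by interval_cases k <;> (simp [mK, mT, gK]; try ring)
  · exact (((h.twk_act (k := 0) (by omega) (e 0 (by omega))).twk_act (k := 1) (by omega) (e 1 (by omega))).twk_act
      (k := 2) (by omega) (e 2 (by omega))).congr fun k hk => by interval_cases k <;> (simp [mK, mT, gK]; try ring)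

/-! ### the states -/

/-- before the turn on `(j + 1, 1)` -/
def SK (P : Pm Γ) (T : WTh Γ) (κ : Γ.ι) (j : ℕ) (L : ℤ) : Prop :=
  ∃ F n z t d c x y, Bas P F n z t ∧ t ≤ z ∧ t ≤ F.w.r ∧ Ch P F n z t (vT j) d c ∧ F.w.l < x ∧ x + L ≤ t ∧
    Rd F.w n κ (j + 1, 1) y x t ∧ T.Z F d c ≠ 0

/-- the same with names -/
structure SKs (P : Pm Γ) (T : WTh Γ) (κ : Γ.ι) (j : ℕ) (F : Fm Γ) (n : Wt) (z t : ℤ) (d : ℕ) (c : Cn) (x y : ℤ) :
    Prop where
  bas : Bas P F n z t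
  tz : t ≤ z
  tr : t ≤ F.w.r
  ch : Ch P F n z t (vT j) d c
  lo : F.w.l < x
  rd : Rd F.w n κ (j + 1, 1) y x t
  ne : T.Z F d c ≠ 0

/-- **the end of the descent**: rods `vK j k` of order `mT j y k` on the slots `u k, …, u (k + 1) - 1`; in particular
`(1, 1)`, `(0, 1)`, `(-1, 0)`, `(-(j + 1), -1)` for `k = j, …, j + 3` -/
structure St0 (P : Pm Γ) (T : WTh Γ) (κ : Γ.ι) (L : ℤ) (j : ℕ) (F : Fm Γ) (n : Wt) (z t : ℤ) (d : ℕ) (c : Cn)
    (u : ℕ → ℤ) (y : ℤ) : Prop where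
  le : j ≤ 3
  bas : Bas P F n z t
  tz : t ≤ z
  tr : t ≤ F.w.r
  ch : Ch P F n z t (vT j) d c
  pe : Pe F.w n κ u (vK j) (mT j y) (j + 3) t
  gap : ∀ k, u k + L ≤ u (k + 1)
  lwE : Lw F n z t (vT j) (.sA (u (j + 1) - 1) (u (j + 2)))
  lwS : Lw F n z t (vT j) (.sS (u (j + 1)))
  ne : T.Z F (d + 1) (J (Bs.sA (u (j + 1) - 1) (u (j + 2))) (Bs.sS (u (j + 1))) c) ≠ 0

theorem Bas.frz (B : Bas P F n z t) (tz : t ≤ z) (tr : t ≤ F.w.r) (lo : F.w.l ≤ y) (lt : y < t)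
    (p : (F.w.s y).r.2.2 ≠ 0) : Bas P (frz F y) n z y :=
  have k := B.hi.resolve_right (by omega)
  ⟨frz_ok B.ok B.ls lo (lt.trans_le tr), B.ls, ⟨B.lok.ok, B.lok.mL, B.lok.mR, B.lok.ls⟩, B.p1, lo,
    .inl ⟨⟨mem_insert_self _ _, p⟩, lt.le.trans tz, frz_cut k.2.2⟩,
    fun a q => (mem_insert.1 q).elim (fun e => e ▸ le_rfl) fun q => lt.le.trans (B.fz a q)⟩

theorem Bas.cw' (B : Bas P F n z t) (tr : t ≤ F.w.r) (B' : Bas P (Wd38.frz F y) n z y) (lt : y < t) :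
    Cw (Wd38.frz F y) y t z :=
  have k := B.hi.resolve_right (by omega)
  ⟨B.ls, B.ok.w, B.p1, lt, .inr (B'.hi.resolve_right fun q => by have : y = F.w.r + 1 := q.1; omega).1,
    .inl ⟨frz_cut k.1, k.2.1⟩⟩

theorem Ch.frz (B : Bas P F n z t) (C : Ch P F n z t v d c) (h : y ≤ t) : Ch P (frz F y) n z t v d c :=
  mp_id c ▸ C.tr (F' := Wd38.frz F y) id B.ls B.ls rfl rfl (fun _ _ => ⟨rfl, rfl, rfl⟩) (subset_insert _ _)
    fun _ q => (mem_insert.1 q).elim (fun e => .inr (e ▸ h)) .inl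

theorem Bas.far (B : Bas P F n z t) {a : Bs} (lo : y < a.lo) (hi : a.hi < t) : ∀ b ∈ (Wd38.frz F y).fz, a.Far b :=
  fun b q => (mem_insert.1 q).elim (fun e => e ▸ .inr (.inl lo)) fun q => .inl (hi.trans_le (B.fz b q))

theorem win_one {v' : ℝ × ℝ} {a : Bs} {σ : Finset Bs} (H : Cw F s t z) (e : wn s t σ = {a})
    (h0 : ∀ η, Nq F n ∅ η s t z (v'.1 - v.1) (v'.2 - v.2) (S F.w n lp s t) (S F.w n uu s t) 1 0 0)
    (h1 : ∀ η, F.Pc z 0 n σ {a} (cf 1) s t v v' η) : F.Win z 0 n σ s t v v' := win_of H.ls fun A hA _ => by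
  rcases subset_singleton_iff.1 (e ▸ hA) with rfl | rfl
  exacts [⟨1, by simp, fun η => pc_0 H (by simp [e]) (h0 η)⟩, ⟨1, by simp, h1⟩]

theorem kstep0 (H : Ax0 P T) {j : ℕ} (hj : j ≤ 3) {l : ℤ} (hl : 4 ≤ l) (h : SKs P T κ j F n z t d c x y)
    (g : ∀ k, u k + l ≤ u (k + 1)) (u0 : x ≤ u 0) (uN : u (j + 3 + 1) < t) :
    St0 P T κ l j { F with w := F.w.put κ u (vK j) (j + 3) } (n.put u (mT j y) (j + 3)) z t d
      (c.mp (Wt.put u (mT j y) (j + 3)) id ∅) u y ∨ ∃ i, j = i + 1 ∧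
      Pt (F.w.put κ u (vK j) (j + 3)) (n.put u (mK j y) (j + 3)) κ u (vK j) (mK j y) (j + 3) ∧
      SKs P T κ i (frz { F with w := F.w.put κ u (vK j) (j + 3) } (u 2 - 2)) (n.put u (mK j y) (j + 3)) z (u 2 - 2)
        (d + 1) (J (Bs.sS (u (j + 1))) (Bs.sA (u 2 - 1) (u (j + 3))) (c.mp (Wt.put u (mK j y) (j + 3)) id ∅))
        (u 1) (y - 1) := by
  obtain ⟨B, tz, tr, C, lo, rd, ne⟩ := h
  have mono : StrictMono u := strictMono_nat_of_lt_succ fun k => by have := g k; omega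
  have g0 : u 0 + l ≤ u 1 := g 0
  have g1 : u 1 + l ≤ u 2 := g 1
  have g2 := g j
  have g3 : u (j + 1) + l ≤ u (j + 2) := g (j + 1)
  have g4 : u (j + 2) + l ≤ u (j + 3) := g (j + 2)
  have g5 := g (j + 3)
  have g6 := mono.monotone j.zero_le
  have g8 : u 2 ≤ u (j + 2) := mono.monotone (by omega)
  have a0 : u (0 + 1) = u 1 := rfl
  have a1 : u (1 + 1) = u 2 := rfl
  have a2 : u (j + 1 + 1) = u (j + 2) := rfl
  have a3 : u (j + 2 + 1) = u (j + 3) := rfl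
  obtain ⟨v0, v1, vj, vj1, vj2, vj3⟩ := kn_v (j := j)
  obtain ⟨m0, m3, t0, t3, -, -, -, m1⟩ := kn_m (j := j) y
  obtain ⟨q1, q2, q3, q4⟩ := kn_u hj
  have tn : ∀ m : ℕ → ℤ, m 0 = y → m (j + 3) = -y → Tn F.w n κ u (vK j) m (j + 3) := fun m a b =>
    ⟨mono, by omega, by omega, by rw [v0, a]; exact rd.mono u0 (by omega), kn_uni hj, by rw [v0, vj3]; rfl,
      by rw [a, b]⟩
  set F' : Fm Γ := { F with w := F.w.put κ u (vK j) (j + 3) } with hF
  have ag := fun m => (put_ag (w := F.w) (κ := κ) (t := u) (v := vK j) (m := m) (N := j + 3) n).mono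
    (s' := (t ≤ ·)) fun i q => .inr (by omega)
  have bas : ∀ {m}, Tn F.w n κ u (vK j) m (j + 3) → Bas P F' (n.put u m (j + 3)) z t := fun {m} h =>
    B.tr (h.ok B.ok.w B.lok.ok).1 (h.ok B.ok.w B.lok.ok).2 (p1_put B.p1 kn_p) rfl rfl (fun i q => (ag m i q).1)
      rfl rfl
  have ch := fun m => C.tr (F' := F') (Wt.put u m (j + 3)) B.ls B.ls rfl rfl (ag m) Subset.rfl fun _ => .inl
  have pe : ∀ {m}, Tn F.w n κ u (vK j) m (j + 3) → Pe F'.w (n.put u m (j + 3)) κ u (vK j) m (j + 3) t :=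
    fun h => h.pe (by omega) fun i a b _ => v0 ▸ (rd i (by omega) b).1
  have lwA : ∀ {m a b k0 k1}, Tn F.w n κ u (vK j) m (j + 3) → k0 ≤ j + 3 → k1 ≤ j + 3 → u k0 ≤ a → a < u (k0 + 1) →
      u k1 ≤ b → b < u (k1 + 1) → a < b → Uni (vK j k0) (vK j k1) → _ →
      Lw F' (n.put u m (j + 3)) z t (vT j) (.sA a b) := fun h a0 a1 h0 h0' h1 h1' ab e I =>
    (bas h).lwA (h.pt.okA a0 h0 h0' a1 h1 h1' ab e)
      (by have := mono.monotone (Nat.add_le_add_right a1 1); omega) (h.pt.in1 a0 h0 h0' a1 h1 h1' I)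
  have okS := fun {m} (h : Tn F.w n κ u (vK j) m (j + 3)) =>
    h.pt.okS (k0 := j + 1) (by omega) le_rfl (mono (by omega)) (by rw [vj1])
  have lwS : ∀ {m}, Tn F.w n κ u (vK j) m (j + 3) → (Sg lp (vK j) m (j + 1) (j + 3) = 1 ∧
      Sg uu (vK j) m (j + 1) (j + 3) = 2 * gK j - (j + 1)) → Lw F' (n.put u m (j + 3)) z t (vT j) (.sS (u (j + 1))) :=
    fun h I => ⟨okS h, trivial, by change u _ < t; omega, fun _ _ => br_s (c := 1) (bas h).cw (okS h)
      (by change F.w.l - 1 < _; omega) (by omega) (by simp) fun η _ => by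
        rw [(pe h).S vn_lp (by omega) le_rfl (mono (by omega)), (pe h).S vn_uu (by omega) le_rfl (mono (by omega)),
          I.1, I.2]
        exact nq_r hj tz _ _⟩
  have hK := tn _ m0 m3
  have hT := tn _ t0 t3
  have BK := bas hK
  have BT := bas hT
  have d1 := lwA (a := u 0 + 1) (b := u (j + 2) + 1) hK (by omega) (by omega) (by omega) (by omega) (by omega)
    (by omega) (by omega) q1 (kn_d1 hj y)
  have d2 := lwA (a := u 2 - 1) (b := u (j + 3)) hK (by omega) (by omega) (by omega) (by omega) le_rfl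
    (by omega) (by omega) q2 (kn_d2 hj y)
  have s1 := lwS hK (kn_r hj y)
  have e1 := H.turn B C hK (by omega) BK (B.ls ▸ hK.rs B.ok.w F.fz rfl (fun i => aK j i) 0
    (fun i => by simp [aK]) (kn_gr hj) (kn_dg hj y) (k0 := 0) (k1 := j + 2) (k0' := 1) (k1' := j + 3) (by omega)
    (by omega) (by omega) (by omega) (by omega) (by omega) le_rfl (by omega) (kn_s hj).1 (kn_s hj).2
    (by decide)) d1 d2
  rw [← e1, H.split BK (ch _) d1 s1 d2 trivial trivial trivial] at ne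
  rcases ne_zero_or ne with ne | ne
  · -- twist, replace `d1` by `E`
    have d1' := lwA (a := u 0 + 1) (b := u (j + 2) + 1) hT (by omega) (by omega) (by omega) (by omega) (by omega)
      (by omega) (by omega) q1 (kt_d1 hj y)
    have E := lwA (a := u (j + 1) - 1) (b := u (j + 2)) hT (by omega) (by omega) (by omega) (by omega) le_rfl
      (by omega) (by omega) q3 (kt_e hj y)
    have s2 := lwS hT (kt_r hj y)
    have tx : ∀ τ ∈ (List.range j).map (twk u (vK j)), τ.OK F'.w ∧ u 1 ≤ τ.x ∧ τ.y < u (j + 1) := fun τ q => by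
      obtain ⟨k, hk, rfl⟩ := List.mem_map.1 q
      rw [List.mem_range] at hk
      exact ⟨hK.pt.twk_ok (by omega) (kn_uni hj k (by omega)) (q4 k hk), mono.monotone (by omega),
        Int.sub_one_lt_iff.2 (mono.monotone (by omega))⟩
    have ea : acts F'.w ((List.range j).map (twk u (vK j))) (n.put u (mK j y) (j + 3)) = n.put u (mT j y) (j + 3) :=
      have o := fun i (q : i ≤ u 0 ∨ u (j + 3 + 1) ≤ i) => acts_out (w := F'.w) _ (n.put u (mK j y) (j + 3)) (j := i)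
        fun τ k => by have := tx τ k; omega
      eq_put (kt_acts hj hK.pt) (fun i q => ⟨(o i q).1.1.trans (if_neg (by omega)),
        (o i q).1.2.trans (if_neg (by omega))⟩) (o _ (.inl le_rfl)).2.1 (o _ (.inl le_rfl)).2.2
    have ec : (c.mp (Wt.put u (mK j y) (j + 3)) id ∅).mp (acts F'.w ((List.range j).map (twk u (vK j)))) id ∅ =
        c.mp (Wt.put u (mT j y) (j + 3)) id ∅ := by
      rw [mp_mp]
      exact mp_congr fun p hp => ⟨by rw [(C.cell p hp).1]; exact ea, by simp⟩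
    have wl : ∀ a ∈ (J (Bs.sA (u 0 + 1) (u (j + 2) + 1)) (Bs.sS (u (j + 1)))
        (c.mp (Wt.put u (mK j y) (j + 3)) id ∅)).walls, a.tw = [] ∧
          (a.b = .sA (u 0 + 1) (u (j + 2) + 1) ∨ u (j + 1) ≤ a.b.lo) := fun a q => by
      obtain ⟨p, hp, k⟩ := mem_walls.1 q
      obtain ⟨p', hp', rfl | rfl⟩ := mem_J hp <;> obtain ⟨-, k1, k2⟩ := (ch _).cell p' hp' <;>
        rcases mem_insert.1 k with rfl | k
      exacts [⟨rfl, .inl rfl⟩, ⟨k1 a k, .inr (by have := (k2.ok _ (mem_image_of_mem Wl.b k)).1; omega)⟩,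
        ⟨rfl, .inr le_rfl⟩, ⟨k1 a k, .inr (by have := (k2.ok _ (mem_image_of_mem Wl.b k)).1; omega)⟩]
    rw [← H.twist BK.ls ((List.range j).map (twk u (vK j))) (fun a q => (wl a q).1) (fun τ q => ⟨(tx τ q).1,
      fun b k => .inr (.inl (by have := tx τ q; have := BK.fz b k; omega)), fun a k => by
        have := tx τ q
        rcases (wl a k).2 with e | e
        · rw [e]; exact .inr (.inr ⟨trivial, by change u 0 + 1 < _; omega, by change _ < u _ + 1; omega⟩)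
        · exact .inr (.inl (by omega))⟩) ((ch _).clJ BK d1 trivial s1 trivial)
      (by rw [mp_J, ec]; exact (ch _).clJ BT d1' trivial s2 trivial), mp_J, ec,
      H.split BT (ch _) d1' E s2 trivial trivial trivial, J_comm, H.two BT (ch _) E d1' trivial trivial
      (.inr (.inr (.inr ⟨trivial, by change u 0 + 1 < u _ - 1; omega, by change u _ < u _ + 1; omega, trivial⟩)))
      fun σ => br_aa BT.cw E.ok d1'.ok (by change F.w.l - 1 < _; omega) (by omega) (by omega) (by omega)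
        (hT.pt.in1 (by omega) (by omega) (by omega) (by omega) le_rfl (by omega) (kt_e hj y)) fun η => ?_,
      zero_add] at ne
    · exact .inl ⟨hj, BT, tz, tr, ch _, pe hT, g, E, s2, ne⟩
    · have k := kt_b hj y
      rw [hT.pt.S (k0 := 0) (k1 := j) vn_lp (by omega) (by omega) (by omega) (by omega) (by omega),
        hT.pt.S (k0 := 0) (k1 := j) vn_uu (by omega) (by omega) (by omega) (by omega) (by omega),
        hT.pt.S (k0 := j + 2) (k1 := j + 2) vn_lp (by omega) (by omega) (by omega) (by omega) (by omega),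
        hT.pt.S (k0 := j + 2) (k1 := j + 2) vn_uu (by omega) (by omega) (by omega) (by omega) (by omega)]
      have e1 : ∀ φ, vv F'.w φ (n.put u (mT j y) (j + 3)) (.sA (u (j + 1) - 1) (u (j + 2))) =
          Vg φ (vK j) (mT j y) j (j + 2) := fun φ =>
        hT.pt.vv (by omega) (by omega) (by omega) (by omega) le_rfl (by omega)
      have e2 : ∀ φ, vv F'.w φ (n.put u (mT j y) (j + 3)) (.sA (u 0 + 1) (u (j + 2) + 1)) =
          Vg φ (vK j) (mT j y) 0 (j + 2) := fun φ =>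
        hT.pt.vv (by omega) (by omega) (by omega) (by omega) (by omega) (by omega)
      simp only [e1, e2, Ioc_self, sum_empty, add_zero]
      unfold Sg at k
      rw [k.1, k.2]
      exact ⟨by norm_num, .inr ⟨0, .inl rfl, by norm_num⟩⟩
  have vv2 : ∀ φ, vv F'.w φ (n.put u (mK j y) (j + 3)) (.sA (u 2 - 1) (u (j + 3))) = Vg φ (vK j) (mK j y) 1 (j + 3) :=
    fun φ => hK.pt.vv (by omega) le_rfl (by omega) (by omega) le_rfl (by omega)
  have SN : ∀ {φ}, Vn φ → S F'.w (n.put u (mK j y) (j + 3)) φ (u (j + 3)) t = 0 := fun k => by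
    rw [(pe hK).S k le_rfl le_rfl (by omega), Sg, Ioc_self, sum_empty]
  have S1 : ∀ {φ a}, Vn φ → u 1 ≤ a → a < u 2 → S F'.w (n.put u (mK j y) (j + 3)) φ a (u 2 - 1) = 0 :=
    fun k p q => by rw [hK.pt.S (k0 := 1) (k1 := 1) k (by omega) p q (by omega) (by omega), Ioc_self, sum_empty]
  have I2 := hK.pt.in1 (x := u 2 - 1) (y := u (j + 3)) (by omega) (by omega) (by omega) le_rfl le_rfl (by omega)
    (kn_d2 hj y)
  rcases j with _ | i
  · rw [J_comm, H.two BK (ch _) d2 s1 trivial trivial (.inr (.inl (by change u _ < u 2 - 1; omega))) fun σ =>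
      br_sa (c := 1) BK.cw d2.ok s1.ok (by change F.w.l - 1 < _; omega) (by omega) (by omega) I2 (by simp)
        fun η => ?_] at ne
    · exact (ne rfl).elim
    · rw [vv2, vv2, SN vn_lp, SN vn_uu, S1 vn_lp le_rfl (by omega), S1 vn_uu le_rfl (by omega), (kn_v2 y).1,
        (kn_v2 y).2]
      exact ⟨by norm_num [vT], .inr ⟨0, .inl rfl, by norm_num [vT]⟩⟩
  have g7 : u 2 ≤ u (i + 1 + 1) := mono.monotone (by omega)
  have r1 := hK.pt.rd 1 (by omega)
  rw [v1, m1 i.succ_ne_zero] at r1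
  have B2 := BK.frz (y := u 2 - 2) tz tr (by change F.w.l ≤ _; omega) (by omega)
    (by rw [(r1 _ (by omega) (by omega)).1]; exact one_ne_zero)
  have cw := BK.cw' tr B2 (by omega)
  have kl := kn_l hj y i.succ_ne_zero
  have kr := kn_r hj y
  have SL : ∀ {φ}, Vn φ → S F'.w (n.put u (mK (i + 1) y) (i + 1 + 3)) φ (u 2 - 2) (u (i + 1 + 1)) =
      Sg φ (vK (i + 1)) (mK (i + 1) y) 1 (i + 1 + 1) := fun k =>
    hK.pt.S k (by omega) (by omega) (by omega) le_rfl (by omega)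
  have SR : ∀ {φ}, Vn φ → S F'.w (n.put u (mK (i + 1) y) (i + 1 + 3)) φ (u (i + 1 + 1)) t =
      Sg φ (vK (i + 1)) (mK (i + 1) y) (i + 1 + 1) (i + 1 + 3) := fun k => (pe hK).S k (by omega) le_rfl (by omega)
  have h0 : ∀ η, Nq (frz F' (u 2 - 2)) (n.put u (mK (i + 1) y) (i + 1 + 3)) ∅ η (u 2 - 2) t z
      ((vT (i + 1)).1 - (vT i).1) ((vT (i + 1)).2 - (vT i).2)
      (S F'.w (n.put u (mK (i + 1) y) (i + 1 + 3)) lp (u 2 - 2) t)
      (S F'.w (n.put u (mK (i + 1) y) (i + 1 + 3)) uu (u 2 - 2) t) 1 0 0 := fun η => by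
    rw [S_cut (y := u (i + 1 + 1)) (by omega) (by omega), S_cut (φ := uu) (y := u (i + 1 + 1)) (by omega) (by omega),
      SL vn_lp, SL vn_uu, SR vn_lp, SR vn_uu, kl.1, kl.2, kr.1, kr.2,
      show ((i + 1 : ℕ) : ℝ) - 4 + (2 * gK (i + 1) - ((i + 1 : ℕ) + 1)) = 1 by simp [gK]; ring]
    exact ⟨by simp [vT]; linarith, .inr ⟨1, .inr ⟨.inr tz, rr1⟩, by norm_num [vT]⟩⟩
  have C2 := ((ch _).frz BK (y := u 2 - 2) (by omega)).J (v' := vT i) BK.ls (by omega) tz tr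
    ⟨by change _ < u _; omega, s1.hi, trivial, s1.ok, BK.far (by change _ < u _; omega) s1.hi, fun σ e =>
      win_one cw e h0 fun η => by
        cases k : η (.sS (u (i + 1 + 1)))
        · refine pc_l cw s1.ok (by omega) (by omega) k ?_
          have hi : i ≤ 2 := by omega
          have := rr_int (i + 1 - 4)
          push_cast at this
          erw [SL vn_lp, SL vn_uu, kl.1, kl.2]
          refine ⟨?_, .inr ⟨_, .inr ⟨.inr tz, by simpa using this⟩, ?_⟩⟩ <;>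
            interval_cases i <;> norm_num [vT]
        · refine pc_r cw s1.ok (by omega) (by omega) k ?_
          erw [SR vn_lp, SR vn_uu, kr.1, kr.2]
          exact nq_r hj tz _ _⟩
    ⟨by change _ < u 2 - 1; omega, d2.hi, trivial, d2.ok, BK.far (by change _ < u 2 - 1; omega) d2.hi, fun σ e =>
      win_one cw e h0 fun η => by
        cases k : η (.sA (u 2 - 1) (u (i + 1 + 3)))
        · exact pc_in cw (by simpa [Bs.pin] using ⟨d2.ok, d2.hi⟩) (mem_singleton_self _) (by omega) k I2 _ (by simp)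
        · refine pc_o cw d2.ok (by omega) d2.hi k ?_
          erw [vv2, vv2, SN vn_lp, SN vn_uu, S1 vn_lp (by omega) (by omega), S1 vn_uu (by omega) (by omega),
            (kn_v2 y).1, (kn_v2 y).2]
          exact ⟨by simp [vT]; linarith, .inr ⟨0, .inl rfl, by norm_num [vT]⟩⟩⟩
  exact .inr ⟨i, rfl, hK.pt, B2, by omega, by change _ ≤ F.w.r; omega, C2,
    by change F.w.l < _; omega, by exact_mod_cast r1.mono le_rfl (by omega),
    by rwa [H.frz1 ((ch _).clJ BK s1 trivial d2 trivial) (C2.cl B2)]⟩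

theorem kstep (H : Ax0 P T) {j : ℕ} (hj : j ≤ 3) {l : ℤ} (hl : 4 ≤ l) (h : SK P T κ j ((j + 4) * l + 1)) :
    (∃ F n z t d c u y, St0 P T κ l j F n z t d c u y) ∨ ∃ i, j = i + 1 ∧ SK P T κ i (l - 2) := by
  obtain ⟨F, n, z, t, d, c, x, y, B, tz, tr, C, lo, len, rd, ne⟩ := h
  obtain ⟨u, u0, g, uN⟩ : ∃ u : ℕ → ℤ, u 0 = x ∧ (∀ k, u (k + 1) = u k + l) ∧ u (j + 3 + 1) = x + (j + 4) * l :=
    ⟨fun k => x + k * l, by simp, fun k => by push_cast; ring, by push_cast; ring⟩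
  rcases kstep0 H hj hl ⟨B, tz, tr, C, lo, rd, ne⟩ (fun k => (g k).ge) u0.ge (by omega) with k | ⟨i, e, -, k⟩
  · exact .inl ⟨_, _, _, _, _, _, _, _, k⟩
  · exact .inr ⟨i, e, _, _, _, _, _, _, _, _, k.bas, k.tz, k.tr, k.ch, k.lo,
      by have : u 2 = u 1 + l := g 1; omega, k.rd, k.ne⟩

end Crest.Agent.X212.Wd38
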