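import Crest.Agent.X212.Wd38.Defs
import Crest.Agent.X212.Wd38.Sh

/-!
# X212 / Wd38, part Rz (helper38): the manifold of a word

* `Cx Γ` : knots, junction diffeomorphisms, the closed manifold with a neck that gives the two caps;
* `w.v x y`, `C.tp w x y` : the rod manifold of a range; `C.pR`, `C.pL` : its product regions;
* `Rz C w X` : `X` realises `w` (charts `B`, `kL`, `kR`); `exists_rz`, `C.X hw`, `C.rz hw`.
-/

set_option autoImplicit false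
set_option linter.unusedSectionVars false

open Set Filter Topology Function Metric TopologicalSpace
open scoped ContDiff Manifold
open Crest.Agent.R208.F (Ext)
open Crest.GeometryTopology.DehnSurgery

noncomputable section

namespace Crest.Agent.X212.Wd38

open Crest.Agent.X212.Glue52 Crest.Agent.X212.Rod53 Crest.Agent.X212.Int54 Crest.Agent.X212.Orx52
  Crest.Agent.X212.M Crest.Agent.X212.Cyf70
open Crest.Agent.X212.Cyl58 hiding ld_id ld_congr ld_of_comp ld_comp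
open Crest.Agent.X212.Ext52 (KD Fill)

variable {Γ : Nm}

/-! ### ranges -/

/-- the times of a range -/
def II (x y : ℤ) : Set ℝ := Ioo ((x : ℝ) + 1 / 4) (y + 3 / 4)

theorem isOpen_II (x y : ℤ) : IsOpen (II x y) := isOpen_Ioo

theorem II_mono {x y x' y' : ℤ} (h : x ≤ x') (h' : y' ≤ y) : II x' y' ⊆ II x y :=
  Ioo_subset_Ioo (by gcongr) (by gcongr)

theorem II_sub (x y : ℤ) : II x y ⊆ Ioo (x : ℝ) (y + 1) := Ioo_subset_Ioo (by linarith) (by linarith)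

theorem add_mem_II {x y d : ℤ} {t : ℝ} : t + d ∈ II (x + d) (y + d) ↔ t ∈ II x y := by
  simp only [II, mem_Ioo, Int.cast_add]
  constructor <;> exact fun h => ⟨by linarith [h.1], by linarith [h.2]⟩

theorem II_le {x y x' y' : ℤ} {t : ℝ} (h : t ∈ II x y) (h' : t ∈ II x' y') : x ≤ y' := by
  have : (x : ℝ) < y' + 1 := by linarith [h.1, h'.2]
  exact Int.lt_add_one_iff.1 (by exact_mod_cast this)

theorem exists_II {x y : ℤ} (h : x < y) {t : ℝ} (ht : t ∈ II x y) : ∃ j, x ≤ j ∧ j < y ∧ t ∈ II j (j + 1) := by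
  have h1 : x ≤ ⌈t - 1 / 4⌉ - 1 := Int.le_sub_one_iff.2 (Int.lt_ceil.2 (by linarith [ht.1]))
  have h2 := Int.ceil_lt_add_one (t - 1 / 4)
  have h3 := Int.le_ceil (t - 1 / 4)
  rcases lt_or_ge (⌈t - 1 / 4⌉ - 1) y with k | k
  · exact ⟨_, h1, k, by push_cast; linarith, by push_cast; linarith⟩
  · have k' : (y : ℝ) ≤ ⌈t - 1 / 4⌉ - 1 := by exact_mod_cast k
    exact ⟨y - 1, by omega, by omega, by push_cast; linarith, by push_cast; linarith [ht.2]⟩

theorem half_mem (j : ℤ) : (j : ℝ) + 1 / 2 ∈ II j j := ⟨by linarith, by linarith⟩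

theorem wd_add (a : ℤ → Z2) (d : ℤ) (t : ℝ) : wd a (t + d) = wd (fun j => a (j + d)) t := by
  have e := Int.floor_add_intCast t d
  unfold wd
  rw [e, add_sub_right_comm]
  have k : (t + d = ((⌊t⌋ + d : ℤ) : ℝ)) ↔ t = ⌊t⌋ := by rw [Int.cast_add, add_left_inj]
  by_cases h : t = ⌊t⌋ ∧ ¬PM (a (⌊t⌋ - 1 + d)) (a (⌊t⌋ + d))
  · rw [if_pos h, if_pos ⟨k.2 h.1, h.2⟩]
  · rw [if_neg h, if_neg fun h' => h ⟨k.1 h'.1, h'.2⟩]

namespace Shp

variable {w w' : Shp Γ} {x y x' y' j d : ℤ}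

theorem Rg.lr (h : w.Rg x y) (h1 : x < j) (h2 : j < y) : (w.s j).l = (w.s j).r := by
  obtain ⟨τ, e⟩ := h.fr j h1 h2
  rw [e]
  rfl

theorem Rg.mono (h : w.Rg x y) (h1 : x ≤ x') (h2 : x' < y') (h3 : y' ≤ y) : w.Rg x' y' :=
  ⟨h.lo.trans h1, h2, h3.trans h.hi, fun j a b => h.fr j (by omega) (by omega)⟩

theorem rg_one (h1 : w.l ≤ j) (h2 : j < w.r) : w.Rg j (j + 1) := ⟨h1, by omega, h2, fun _ _ _ => by omega⟩

theorem Rg.union (h : w.Rg x y) (h' : w.Rg x' y') (h2 : x' ≤ y)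
    (h3 : x' = y → ∃ τ, w.s y = .rod τ) : w.Rg x (max y y') :=
  ⟨h.lo, lt_max_of_lt_left h.lt, max_le h.hi h'.hi, fun j a b => by
    rcases lt_trichotomy j y with k | rfl | k
    · exact h.fr j a k
    · rcases h2.eq_or_lt with e | e
      exacts [h3 e, h'.fr j e (by omega)]
    · exact h'.fr j (by omega) (by omega)⟩

theorem Rg.kn_l (hw : w.OK) (h : w.Rg x y) (h1 : x < j) (h2 : j ≤ y) : (w.s j).l.1 = w.kn x := by
  induction j, h1 using Int.leInduction with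
  | base => simpa [kn] using (hw.st (x + 1) (by linarith [h.lo]) (h2.trans h.hi)).1.symm
  | succ j k ih =>
    have := (hw.st (j + 1) (by linarith [h.lo]) (h2.trans h.hi)).1
    rw [add_sub_cancel_right, ← h.lr k h2] at this
    exact this.symm.trans (ih (by omega))

theorem Rg.kn_eq (hw : w.OK) (h : w.Rg x y) (h1 : x ≤ j) (h2 : j < y) : w.kn j = w.kn x := by
  rcases h1.eq_or_lt with rfl | k
  · rfl
  · rw [← h.kn_l hw k h2.le, h.lr k h2, kn]

theorem bw_le (h : j ≤ x) : w.bw x y j = (w.s x).r.2 := if_pos h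

theorem bw_mid (h : x < j) (h' : j ≤ y) : w.bw x y j = (w.s j).l.2 := by rw [bw, if_neg h.not_ge, min_eq_left h']

theorem bw_ge (h : x < y) (h' : y ≤ j) : w.bw x y j = (w.s y).l.2 := by
  rw [bw, if_neg (by omega), min_eq_right h']

theorem Rg.bw_r (h : w.Rg x y) (h1 : x ≤ j) (h2 : j < y) : w.bw x y j = (w.s j).r.2 := by
  rcases h1.eq_or_lt with rfl | k
  exacts [bw_le le_rfl, (bw_mid k h2.le).trans (congrArg _ (h.lr k h2))]

theorem Rg.isWd (hw : w.OK) (h : w.Rg x y) : IsWd (w.bw x y) := by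
  have := h.lo; have := h.hi; have := h.lt
  refine ⟨fun i => ?_, fun i => ?_⟩
  · unfold bw
    split_ifs
    exacts [(hw.pr x h.lo (by omega)).2, (hw.pr _ (by omega) (by omega)).1]
  · rcases le_or_gt i x with k | k
    · exact Or.inl (by rw [bw_le k, bw_le (by omega)]; exact PM.refl _)
    · rcases le_or_gt i y with k' | k'
      · rw [h.bw_r (by omega) (by omega), bw_mid k k']
        exact (hw.st i (by omega) (by omega)).2
      · exact Or.inl (by rw [bw_ge h.lt (by omega), bw_ge h.lt k'.le]; exact PM.refl _)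

theorem Rg.bw_eq (h : w.Rg x y) (h1 : x ≤ x') (h2 : x' < y') (h3 : y' ≤ y) (h4 : x' ≤ j) (h5 : j ≤ y') :
    w.bw x' y' j = w.bw x y j := by
  rcases h4.eq_or_lt with rfl | k
  · rw [bw_le le_rfl, h.bw_r h1 (by omega)]
  · rw [bw_mid k h5, bw_mid (by omega) (by omega)]

open Classical in
/-- the rods of a range, with a junk value -/
def bz (w : Shp Γ) (x y : ℤ) : ℤ → Z2 := if IsWd (w.bw x y) then w.bw x y else fun _ => (0, 1)

theorem isWd_bz (w : Shp Γ) (x y : ℤ) : IsWd (w.bz x y) := by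
  unfold bz
  split_ifs with h
  exacts [h, ⟨fun _ => ⟨_, uni_std⟩, fun _ => Or.inl (PM.refl _)⟩]

theorem Rg.bz_eq (hw : w.OK) (h : w.Rg x y) : w.bz x y = w.bw x y := if_pos (h.isWd hw)

/-- the rod structure of a range -/
def v (w : Shp Γ) (x y : ℤ) : ℝ → Z2 := wd (w.bz x y)

theorem loc (w : Shp Γ) (x y : ℤ) : Loc (w.v x y) := (w.isWd_bz x y).loc

theorem Rg.v_eq (hw : w.OK) (h : w.Rg x y) : w.v x y = wd (w.bw x y) := by rw [v, h.bz_eq hw]

theorem v_congr (hw : w.OK) (hw' : w'.OK) (h : w.Rg x y) (h' : w'.Rg x' y') {a b : ℤ}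
    (e : ∀ j, a ≤ j → j ≤ b → w.bw x y j = w'.bw x' y' (j + d)) {t : ℝ} (ht : t ∈ Ioo (a : ℝ) (b + 1)) :
    w.v x y t = w'.v x' y' (t + d) := by
  rw [h.v_eq hw, h'.v_eq hw', wd_add]
  exact wd_congr e ht

theorem Rg.v_sub (hw : w.OK) (h : w.Rg x y) (h1 : x ≤ x') (h2 : x' < y') (h3 : y' ≤ y) {t : ℝ}
    (ht : t ∈ II x' y') : w.v x' y' t = w.v x y t := by
  simpa using v_congr (d := 0) hw hw (h.mono h1 h2 h3) h
    (fun j a b => by rw [add_zero]; exact h.bw_eq h1 h2 h3 a b) (II_sub _ _ ht)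

theorem Rg.v_slot (hw : w.OK) (h : w.Rg x y) {t : ℝ} (ht : t ∈ II j j) : w.v x y t = w.bw x y j := by
  rw [h.v_eq hw, wd_of_mem (II_sub _ _ ht)]

theorem Rg.jr (hw : w.OK) (h : w.Rg x y) : II j j ⊆ Jr (w.v x y) (w.bw x y j) :=
  interior_maximal (fun _ ht => Or.inl (h.v_slot hw ht)) (isOpen_II j j)

end Shp

/-! ### the context -/

instance (t : Ext52.Tube) (σ : FillingData) : SecondCountableTopology (Fill t σ) :=
  ChartedSpace.secondCountable_of_sigmaCompact E3 _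

open Classical in
/-- filling data of a slope -/
def fd (a : Z2) : FillingData := if h : ∃ σ, sa σ = a then h.choose else ⟨1, 0, 0, -1, by simp⟩

theorem sa_fd {a : Z2} (h : Pr a) : sa (fd a) = a := by
  obtain ⟨b, hb⟩ := h
  have : ∃ σ, sa σ = a := ⟨⟨a.2, a.1, dt a b * b.2, dt a b * b.1, by
    have := hb.sq; unfold dt at this ⊢; linear_combination this⟩, rfl⟩
  rw [fd, dif_pos this, this.choose_spec]

/-- the filling of a type -/
abbrev mF (kd : Γ.ι → KD) (τ : Γ.ι × Z2) : Mf 3 := Mf.ofB 3 (𝓡 3) (Fill (kd τ.1).toTube (fd τ.2)) (by simp)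

/-- its orientation -/
abbrev oY (kd : Γ.ι → KD) (τ : Γ.ι × Z2) : (mF kd τ).M → Ext E3 := oF (kd τ.1).toTube (fd τ.2)

variable (Γ) in
/-- knots, junctions, caps -/
structure Cx : Type 1 where
  kd : Γ.ι → KD
  g : ∀ j, (mF kd (Γ.src j)).M ≃ₘ^∞⟮𝓡 3, 𝓡 3⟯ (mF kd (Γ.tgt j)).M
  pos : ∀ j, Pos (𝓡 3) (𝓡 3) (g j) univ (oY kd (Γ.src j)) (oY kd (Γ.tgt j))
  X0 : Mf 4
  [cpt : CompactSpace X0.M]
  [con : ConnectedSpace X0.M]
  S : Sep X0.pc (mF kd Γ.cap).pc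
  o0 : X0.M → Ext X0.E
  ori : Ori X0.I o0
  pS : Pos (IC (𝓡 3)) X0.I S.n univ (pr (oY kd Γ.cap) oR) (-o0)

attribute [instance] Cx.cpt Cx.con

namespace Cx

variable (C : Cx Γ) {w w' : Shp Γ} {x y x' y' j d : ℤ} {τ : Γ.ι × Z2}

/-- the tube of a knot -/
abbrev T (k : Γ.ι) : Tb (𝓡 3) S3 := ofTube (C.kd k).toTube

/-- the rod manifold of a range -/
abbrev XR (w : Shp Γ) (x y : ℤ) : Type := Rod53.X (C.T (w.kn x)) (w.v x y)

/-- the rod manifold of a range as a timed piece -/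
abbrev tp (w : Shp Γ) (x y : ℤ) : TP V4 := (C.T (w.kn x)).tp (w.loc x y)

/-- the time on the rod manifold of a range -/
abbrev tm (p : C.XR w x y) : ℝ := (C.T (w.kn x)).time (w.v x y) p

/-- the cylinder of a type -/
abbrev cy (τ : Γ.ι × Z2) : TP (E3 × ℝ) := cylT (mF C.kd τ).pc

/-- the filling of a type -/
def F {k : Γ.ι} (τ : Γ.ι × Z2) (e : τ.1 = k) :
    Fl (C.T k) (sa (fd τ.2)) (sb (fd τ.2)) (𝓡 3) (mF C.kd τ).M := flc (ofFill _ _) (congrArg C.T e)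

/-- the product region over a slot -/
def pt (hw : w.OK) (h : w.Rg x y) (j : ℤ) (τ : Γ.ι × Z2) (e : τ.1 = w.kn x) (e' : w.bw x y j = τ.2) :
    TIso (C.cy τ) (C.tp w x y) (II j j) :=
  Fl.tiso (Y := (mF C.kd τ).pc) (C.F τ e) (w.loc x y) (uni_s _) (isOpen_II j j) (by
    rw [sa_fd (e' ▸ (h.isWd hw).prim j), ← e']
    exact h.jr hw)

theorem nr_pt (hw : w.OK) (hw' : w'.OK) (h : w.Rg x y) (h' : w'.Rg x' y') {j' : ℤ} (hj : j' = j + d)
    (e : τ.1 = w.kn x) (e' : w.bw x y j = τ.2) (f : τ.1 = w'.kn x') (f' : w'.bw x' y' j' = τ.2)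
    (q : (mF C.kd τ).M) {t : ℝ} (ht : t ∈ II j j) :
    NR (T' := C.T (w.kn x)) (v' := w.v x y) (T := C.T (w'.kn x')) (v := w'.v x' y') d
      (C.pt hw h j τ e e' (q, t)) (C.pt hw' h' j' τ f f' (q, t + d)) := by
  subst hj
  have k := sa_fd (e' ▸ (h.isWd hw).prim j : Pr τ.2)
  refine NR.cyf _ _ _ _ q ?_ ?_ ?_
  · rw [k, ← e']; exact h.jr hw ht
  · rw [k, ← f']; exact h'.jr hw' (add_mem_II.2 ht)
  · rw [h.v_slot hw ht, h'.v_slot hw' (add_mem_II.2 ht), e', f']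

theorem nr_pt0 (hw : w.OK) (hw' : w'.OK) (h : w.Rg x y) (h' : w'.Rg x' y')
    (e : τ.1 = w.kn x) (e' : w.bw x y j = τ.2) (f : τ.1 = w'.kn x') (f' : w'.bw x' y' j = τ.2)
    (q : (mF C.kd τ).M) {t : ℝ} (ht : t ∈ II j j) :
    NR (T' := C.T (w.kn x)) (v' := w.v x y) (T := C.T (w'.kn x')) (v := w'.v x' y') 0
      (C.pt hw h j τ e e' (q, t)) (C.pt hw' h' j τ f f' (q, t)) := by
  have := C.nr_pt (d := 0) hw hw' h h' (add_zero _).symm e e' f f' q ht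
  rwa [Int.cast_zero, add_zero] at this

/-- the product region at the left end of a range -/
def pR (hw : w.OK) (h : w.Rg x y) (e : (w.s x).r = τ) : TIso (C.cy τ) (C.tp w x y) (II x x) :=
  C.pt hw h x τ (congrArg Prod.fst e).symm ((Shp.bw_le le_rfl).trans (congrArg Prod.snd e))

/-- the product region at the right end of a range -/
def pL (hw : w.OK) (h : w.Rg x y) (e : (w.s y).l = τ) : TIso (C.cy τ) (C.tp w x y) (II y y) :=
  C.pt hw h y τ ((congrArg Prod.fst e).symm.trans (h.kn_l hw h.lt le_rfl))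
    ((Shp.bw_ge h.lt le_rfl).trans (congrArg Prod.snd e))

/-- the cap, with its neck over the slot `j` -/
def cap (j : ℤ) : TP V4 := (C.S.tp (T := 1 / 4) (by norm_num)).shift (j + 1 / 2)

/-- the neck of the cap -/
def pC (j : ℤ) : TIso (C.cy Γ.cap) (C.cap j) (II j j) :=
  ((C.S.k (T := 1 / 4) (by norm_num)).shiftC isOpen_Ioo (j + 1 / 2)).cast (by
    ext t
    simp only [II, mem_ofPred_eq, mem_Ioo]
    constructor <;> exact fun h => ⟨by linarith [h.1], by linarith [h.2]⟩)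

theorem pC_apply (j : ℤ) (p : (mF C.kd Γ.cap).M × ℝ) : C.pC j p = C.S.n (p.1, p.2 + -(j + 1 / 2)) := rfl

theorem cap_mem (j : ℤ) (p : C.X0.M) : (C.cap j).τ p ∈ Icc ((j : ℝ) + 1 / 4) (j + 3 / 4) := by
  have := C.S.τ_mem (T := 1 / 4) (by norm_num) p
  change C.S.τ (1 / 4) p + _ ∈ _
  exact ⟨by linarith [this.1], by linarith [this.2]⟩

theorem tm_nr {p : C.XR w x y} {q : C.XR w' x' y'} {d : ℝ} (h : NR d p q) : C.tm q = C.tm p + d := h.time

theorem mem_nr {p : C.XR w x y} {q : C.XR w' x' y'} (h : NR 0 p q) {L : Set ℝ} : C.tm q ∈ L ↔ C.tm p ∈ L := by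
  rw [C.tm_nr h, add_zero]

theorem T_eq (hw : w.OK) (h : w.Rg x y) (h1 : x ≤ j) (h2 : j < y) : C.T (w.kn j) = C.T (w.kn x) :=
  congrArg C.T (h.kn_eq hw h1 h2)

end Cx

theorem Shp.OK.lr {w : Shp Γ} (hw : w.OK) : (w.s w.l).r = Γ.cap := congrArg Sl.r hw.sl
theorem Shp.OK.rl {w : Shp Γ} (hw : w.OK) : (w.s w.r).l = Γ.cap := congrArg Sl.l hw.sr

/-- `X` realises the word `w` -/
structure Rz (C : Cx Γ) {w : Shp Γ} (hw : w.OK) (X : TP V4) where
  B : ∀ {x y}, w.Rg x y → TIso (C.tp w x y) X (II x y)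
  kL : TIso (C.cap w.l) X (Iio (w.l + 3 / 4))
  kR : TIso (C.cap w.r) X (Ioi (w.r + 1 / 4))
  nest : ∀ {x y x' y'} (h : w.Rg x y) (h' : w.Rg x' y'), x ≤ x' → y' ≤ y →
    ∀ (p : C.XR w x' y') (q : C.XR w x y), C.tm p ∈ II x' y' → NR 0 p q → B h q = B h' p
  jn : ∀ {x j y J} (h : w.Rg x j) (h' : w.Rg j y) (e : w.s j = .jn J) q, ∀ t ∈ II j j,
    B h' (C.pR (τ := Γ.tgt J) hw h' (congrArg Sl.r e) (C.g J q, t)) = B h (C.pL (τ := Γ.src J) hw h (congrArg Sl.l e) (q, t))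
  cL : ∀ {y} (h : w.Rg w.l y) q, ∀ t ∈ II w.l w.l, B h (C.pR hw h hw.lr (q, t)) = kL (C.pC w.l (q, t))
  cR : ∀ {x} (h : w.Rg x w.r) q, ∀ t ∈ II w.r w.r, B h (C.pL hw h hw.rl (q, t)) = kR (C.pC w.r (q, t))

section Ex

variable (C : Cx Γ) {w : Shp Γ} (hw : w.OK)

/-- the transition over a slot -/
structure Tr {x j y : ℤ} (h : w.Rg x j) (h' : w.Rg j y) (g : C.XR w x j → C.XR w j y) : Prop where
  rod : ∀ τ, w.s j = .rod τ → ∀ p, C.tm p ∈ II j j → NR 0 p (g p)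
  jn : ∀ J (e : w.s j = .jn J) q, ∀ t ∈ II j j,
    g (C.pL (τ := Γ.src J) hw h (congrArg Sl.l e) (q, t)) = C.pR (τ := Γ.tgt J) hw h' (congrArg Sl.r e) (C.g J q, t)

theorem exists_tr {x j y : ℤ} (h : w.Rg x j) (h' : w.Rg j y) :
    ∃ g : TIso (C.tp w x j) (C.tp w j y) (II j j), Tr C hw h h' g := by
  cases e : w.s j with
  | rod τ =>
    have e1 : C.T (w.kn x) = C.T (w.kn j) := congrArg C.T (by rw [← h.kn_l hw h.lt le_rfl, Shp.kn, e]; rfl)
    have e2 : ∀ t ∈ II j j, w.v x j t = w.v j y t := fun t ht => by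
      rw [h.v_slot hw ht, h'.v_slot hw ht, Shp.bw_ge h.lt le_rfl, Shp.bw_le le_rfl, e]; rfl
    exact ⟨f0 e1 _ _ (isOpen_II j j) e2, fun _ _ p hp => nr_f0 e1 _ _ _ e2 hp, fun J k => by simp [e] at k⟩
  | jn J =>
    refine ⟨junc (C.pL (τ := Γ.src J) hw h (congrArg Sl.l e)) (C.pR (τ := Γ.tgt J) hw h' (congrArg Sl.r e)) (C.g J) (isOpen_II j j),
      fun τ k => by simp [e] at k, fun J' k q t ht => ?_⟩
    obtain rfl : J = J' := by simpa [e] using k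
    exact junc_apply _ _ _ _ q ht

/-- the slots -/
def zs (l : ℤ) : ℕ → ℤ
  | 0 => l
  | i + 1 => zs l i + 1

theorem zs_eq (l : ℤ) (i : ℕ) : zs l i = l + i := by
  induction i with
  | zero => simp [zs]
  | succ i ih => rw [zs, ih]; push_cast; ring

/-- the letters, glued -/
theorem exists_mid : ∃ (X : TP V4) (K : ∀ j, w.l ≤ j → j < w.r → TIso (C.tp w j (j + 1)) X (II j (j + 1))),
    ∀ j h1 h2 h3 h4, ∃ g : C.XR w j (j + 1) → C.XR w (j + 1) (j + 1 + 1),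
      Tr C hw (Shp.rg_one h1 h2) (Shp.rg_one h3 h4) g ∧
      ∀ p, C.tm p ∈ II (j + 1) (j + 1) → K (j + 1) h3 h4 (g p) = K j h1 h2 p := by
  obtain ⟨n, hn⟩ : ∃ n : ℕ, w.r = w.l + n + 1 := ⟨(w.r - w.l - 1).toNat, by have := hw.lt; omega⟩
  have r1 : ∀ i ≤ n, w.Rg (zs w.l i) (zs w.l i + 1) := fun i hi =>
    Shp.rg_one (by rw [zs_eq]; omega) (by rw [zs_eq]; omega)
  choose g hg using fun i (hi : i < n) => exists_tr C hw (r1 i hi.le) (r1 (i + 1) hi)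
  let W : Wd V4 :=
    { n := n
      A := fun i => C.tp w (zs w.l i) (zs w.l i + 1)
      a := fun i => (zs w.l (i + 1) : ℤ) + 1 / 4
      b := fun i => (zs w.l (i + 1) : ℤ) + 3 / 4
      g := g
      lt := fun i _ => by linarith
      le := fun i _ => by rw [zs_eq, zs_eq]; push_cast; linarith
      ne := fun _ => ⟨(C.T _).ext _ ((C.T (w.kn w.l)).τ (1, 1), w.l), by
        refine (Tb.time_ext _ ((C.T _).τ_mem.2 one_ne_zero)).trans_lt ?_
        rw [zs_eq]; push_cast; linarith⟩ }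
  have hJ : ∀ i, II (zs w.l i) (zs w.l i + 1) ⊆ W.J i := fun i t ht =>
    ⟨fun j e => by subst e; exact ht.1, fun _ => ht.2⟩
  have key : ∀ j, w.l ≤ j → j < w.r → ∃ i ≤ n, zs w.l i = j := fun j a b =>
    ⟨(j - w.l).toNat, by omega, by rw [zs_eq]; omega⟩
  have inj : ∀ i i', zs w.l i = zs w.l i' → i = i' := fun i i' e => by rw [zs_eq, zs_eq] at e; omega
  have : ∀ j, w.l ≤ j → j < w.r → ∃ K : TIso (C.tp w j (j + 1)) W.X (II j (j + 1)),
      ∀ i hi (e : zs w.l i = j) p, K (e ▸ p) = W.chn.k i hi p := fun j a b => by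
    obtain ⟨i, hi, rfl⟩ := key j a b
    refine ⟨(W.chn.k i hi).restr (isOpen_II _ _) (hJ i), fun i' hi' e p => ?_⟩
    obtain rfl := inj _ _ e
    rfl
  choose K hK using this
  refine ⟨W.X, K, fun j h1 h2 h3 h4 => ?_⟩
  obtain ⟨i, hi, rfl⟩ := key j h1 h2
  have hi' : i < n := by rw [zs_eq] at h4; omega
  exact ⟨g i hi', hg i hi', fun p hp => (hK _ h3 h4 (i + 1) hi' rfl _).trans
    ((W.chn.eq i hi' p hp).trans (hK _ h1 h2 i hi rfl p).symm)⟩

theorem nr_pR {x y y' : ℤ} {τ : Γ.ι × Z2} (h : w.Rg x y) (h' : w.Rg x y') (e : (w.s x).r = τ)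
    (q : (mF C.kd τ).M) {t : ℝ} (ht : t ∈ II x x) :
    NR 0 (C.pR hw h e (q, t) : C.XR w x y) (C.pR hw h' e (q, t) : C.XR w x y') :=
  C.nr_pt0 hw hw h h' _ _ _ _ q ht

theorem nr_pL {x x' y : ℤ} {τ : Γ.ι × Z2} (h : w.Rg x y) (h' : w.Rg x' y) (e : (w.s y).l = τ)
    (q : (mF C.kd τ).M) {t : ℝ} (ht : t ∈ II y y) :
    NR 0 (C.pL hw h e (q, t) : C.XR w x y) (C.pL hw h' e (q, t) : C.XR w x' y) :=
  C.nr_pt0 hw hw h h' _ _ _ _ q ht

/-- the charts of the ranges -/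
theorem exists_big : ∃ (X : TP V4) (B : ∀ {x y}, w.Rg x y → TIso (C.tp w x y) X (II x y)),
    (∀ {x y x' y'} (h : w.Rg x y) (h' : w.Rg x' y'), x ≤ x' → y' ≤ y →
      ∀ (p : C.XR w x' y') (q : C.XR w x y), C.tm p ∈ II x' y' → NR 0 p q → B h q = B h' p) ∧
    ∀ {x j y J} (h : w.Rg x j) (h' : w.Rg j y) (e : w.s j = .jn J) q, ∀ t ∈ II j j,
      B h' (C.pR (τ := Γ.tgt J) hw h' (congrArg Sl.r e) (C.g J q, t)) = B h (C.pL (τ := Γ.src J) hw h (congrArg Sl.l e) (q, t)) := by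
  obtain ⟨X, K, hK⟩ := exists_mid C hw
  have key : ∀ x y (h : w.Rg x y), ∃ B : TIso (C.tp w x y) X (II x y), ∀ j (h1 : x ≤ j) (h2 : j < y)
      (p : C.XR w x y) (q : C.XR w j (j + 1)), C.tm p ∈ II j (j + 1) → NR 0 p q →
      B p = K j (h.lo.trans h1) (h2.trans_le h.hi) q := fun x y h => by
    let f : ∀ j : Ico x y, TIso (C.tp w x y) (C.tp w j (j + 1)) (II j (j + 1)) := fun j =>
      f0 (C.T_eq hw h j.2.1 j.2.2).symm _ _ (isOpen_II _ _) fun t ht =>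
        (h.v_sub hw j.2.1 (lt_add_one _) j.2.2 ht).symm
    have hf : ∀ (j : Ico x y) (p : C.XR w x y), C.tm p ∈ II j (j + 1) → NR 0 p (f j p : C.XR w j (j + 1)) :=
      fun j p hp => nr_f0 _ _ _ _ _ hp
    have h0 : ∀ (i j : Ico x y) (p : C.XR w x y), (j : ℤ) = i + 1 → C.tm p ∈ II i (i + 1) →
        C.tm p ∈ II j (j + 1) → K i (h.lo.trans i.2.1) (i.2.2.trans_le h.hi) (f i p) =
          K j (h.lo.trans j.2.1) (j.2.2.trans_le h.hi) (f j p) := by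
      rintro i ⟨j, hj⟩ p (rfl : j = _) hi hj'
      obtain ⟨g, g1, g2⟩ := hK i _ (i.2.2.trans_le h.hi) (h.lo.trans hj.1) (hj.2.trans_le h.hi)
      obtain ⟨τ, e⟩ := h.fr _ (Int.lt_add_one_iff.2 i.2.1) hj.2
      have t : C.tm (f i p : C.XR w i (i + 1)) ∈ II (i + 1) (i + 1) := by
        exact (C.mem_nr (hf i p hi)).2 ⟨hj'.1, hi.2⟩
      rw [← g2 _ t, ((hf i p hi).trans0 (g1.rod τ e _ t)).uq (hf ⟨_, hj⟩ p hj')]
    obtain ⟨B, hB⟩ := TIso.exists_glue' (L := II x y) (fun j : Ico x y => isOpen_II j (j + 1))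
      (Subset.antisymm (iUnion_subset fun j => II_mono j.2.1 j.2.2) fun t ht =>
        let ⟨j, a, b, c⟩ := exists_II h.lt ht; mem_iUnion.2 ⟨⟨j, a, b⟩, c⟩)
      (fun j => (f j).trans (K j (h.lo.trans j.2.1) (j.2.2.trans_le h.hi))) fun i j p hi hj => by
        have a := II_le hi hj
        have b := II_le hj hi
        obtain e | e | e : i = j ∨ (j : ℤ) = i + 1 ∨ (i : ℤ) = j + 1 := by
          rw [Subtype.ext_iff]; omega
        exacts [e ▸ rfl, h0 i j p e hi hj, (h0 j i p e hj hi).symm]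
    exact ⟨B, fun j h1 h2 p q hp l => (hB ⟨j, h1, h2⟩ p hp).trans
      (congrArg _ ((hf ⟨j, h1, h2⟩ p hp).uq l))⟩
  choose B hB using key
  have ex : ∀ {x y j} (h : w.Rg x y), x ≤ j → j < y → ∀ p : C.XR w x y, C.tm p ∈ II j (j + 1) →
      ∃ q : C.XR w j (j + 1), NR 0 p q := fun h a b p hp =>
    ⟨_, nr_f0 (C.T_eq hw h a b).symm (w.loc _ _) (w.loc _ _) (isOpen_II _ _)
      (fun t ht => (h.v_sub hw a (lt_add_one _) b ht).symm) hp⟩
  refine ⟨X, fun h => B _ _ h, fun h h' a b p q hp l => ?_, fun {x j y J} h h' e q t ht => ?_⟩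
  · obtain ⟨j, j1, j2, j3⟩ := exists_II h'.lt hp
    obtain ⟨z, hz⟩ := ex h' j1 j2 p j3
    rw [hB _ _ h' j j1 j2 p z j3 hz, hB _ _ h j (a.trans j1) (j2.trans_le b) q z
      ((C.mem_nr l).2 j3) (l.symm0.trans0 hz)]
  · obtain ⟨i, rfl⟩ : ∃ i, j = i + 1 := ⟨j - 1, by omega⟩
    have i1 : x ≤ i := Int.lt_add_one_iff.1 h.lt
    obtain ⟨g, g1, g2⟩ := hK i (h.lo.trans i1) h.hi h'.lo (h'.lt.trans_le h'.hi)
    have r1 := Shp.rg_one (h.lo.trans i1) h.hi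
    have r2 := Shp.rg_one h'.lo (h'.lt.trans_le h'.hi)
    have e1 : (w.s (i + 1)).l = Γ.src J := congrArg Sl.l e
    have e2 : (w.s (i + 1)).r = Γ.tgt J := congrArg Sl.r e
    exact (hB _ _ h' _ le_rfl h'.lt _ (C.pR hw r2 e2 (C.g J q, t))
      (II_mono le_rfl (lt_add_one _).le ((C.pR hw h' e2).mem (x := (_, t)) ht)) (nr_pR C hw h' r2 _ _ ht)).trans
      (((congrArg _ (g1.jn J e q t ht).symm).trans (g2 _ ((C.pL hw r1 e1).mem (x := (q, t)) ht))).trans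
      (hB _ _ h i i1 (lt_add_one i) _ (C.pL hw r1 e1 (q, t))
        (II_mono (by omega) le_rfl ((C.pL hw h e1).mem (x := (q, t)) ht)) (nr_pL C hw h r1 _ q ht)).symm)

/-- EXISTENCE -/
theorem exists_rz : ∃ X : TP V4, Nonempty (Rz C hw X) := by
  obtain ⟨X, B, h1, h2⟩ := exists_big C hw
  have lt := hw.lt
  have lt' : (w.l : ℝ) + 1 ≤ w.r := by exact_mod_cast lt
  have rl : w.Rg w.l (w.l + 1) := Shp.rg_one le_rfl lt
  have rr : w.Rg (w.r - 1) w.r := ⟨by omega, by omega, le_rfl, fun _ _ _ => by omega⟩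
  let P := (C.pR hw rl hw.lr).trans ((B rl).restr (isOpen_II _ _) (II_mono le_rfl (by omega)))
  obtain ⟨X1, ⟨j1⟩⟩ := exists_jn (A := C.cap w.l) (B := X) (by linarith)
    (junc (C.pC w.l) P (Diffeomorph.refl _ _ _) (isOpen_II w.l w.l))
    ⟨C.pC w.l (Classical.arbitrary _, w.l + 1 / 2),
      ((C.pC w.l).tm (_, _) (half_mem _)).trans_lt (show (w.l : ℝ) + 1 / 2 < _ by linarith)⟩
  have s1 : ∀ {x y}, w.Rg x y → II x y ⊆ Ioi ((w.l : ℝ) + 1 / 4) := fun h t ht =>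
    lt_of_le_of_lt (by have := h.lo; gcongr) ht.1
  have s2 : ∀ {x y}, w.Rg x y → II x y ⊆ Iio ((w.r : ℝ) + 3 / 4) := fun h t ht =>
    lt_of_lt_of_le ht.2 (by have := h.hi; gcongr)
  let B1 : ∀ {x y}, w.Rg x y → TIso (C.tp w x y) X1 (II x y) := fun h =>
    (B h).trans (j1.r.restr (isOpen_II _ _) (s1 h))
  let Q := (C.pL hw rr hw.rl).trans ((B1 rr).restr (isOpen_II _ _) (II_mono (by omega) le_rfl))
  obtain ⟨X2, ⟨j2⟩⟩ := exists_jn (A := X1) (B := C.cap w.r) (by linarith)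
    (junc Q (C.pC w.r) (Diffeomorph.refl _ _ _) (isOpen_II w.r w.r))
    ⟨Q (Classical.arbitrary _, w.r + 1 / 2),
      (Q.tm (_, _) (half_mem _)).trans_lt (show (w.r : ℝ) + 1 / 2 < _ by linarith)⟩
  refine ⟨X2, ⟨fun h => (B1 h).trans (j2.l.restr (isOpen_II _ _) (s2 h)),
    j1.l.trans (j2.l.restr isOpen_Iio (Iio_subset_Iio (by linarith))), j2.r,
    fun h h' a b p q hp l => congrArg (fun z => j2.l (j1.r z)) (h1 h h' a b p q hp l),
    fun h h' e q t ht => congrArg (fun z => j2.l (j1.r z)) (h2 h h' e q t ht),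
    fun h q t ht => congrArg j2.l ?_, fun h q t ht => ?_⟩⟩
  · refine Eq.trans (congrArg j1.r ?_) (j1.eq _ ((C.pC w.l).mem (x := (q, t)) ht))
    exact (h1 h rl le_rfl h.lt _ _ (II_mono le_rfl (by omega) ((C.pR hw rl hw.lr).mem (x := (q, t)) ht))
      (nr_pR C hw rl h _ q ht)).trans (junc_apply (C.pC w.l) P (Diffeomorph.refl _ _ _) _ q ht).symm
  · refine Eq.trans ?_ ((j2.eq _ (Q.mem (x := (q, t)) ht)).symm.trans
      (congrArg j2.r (junc_apply _ _ _ _ q ht)))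
    exact congrArg (fun z => j2.l (j1.r z)) (h1 h rr (by have := h.lt; omega) le_rfl _ _
      (II_mono (by omega) le_rfl ((C.pL hw rr hw.rl).mem (x := (q, t)) ht)) (nr_pL C hw rr h _ q ht))

/-- THE MANIFOLD of a word -/
def Cx.X : TP V4 := (exists_rz C hw).choose

/-- its charts -/
def Cx.rz : Rz C hw (C.X hw) := (exists_rz C hw).choose_spec.some

end Ex

end Crest.Agent.X212.Wd38
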