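import Crest.Agent.X212.Wd38.Rz
import Crest.Agent.X212.Rod53.Fill

/-!
# X212 / Wd38, part Top (helper38): overlaps, product regions, compactness, connectedness, orientation
-/

set_option autoImplicit false
set_option linter.unusedSectionVars false

open Set Filter Topology Function Metric TopologicalSpace
open scoped ContDiff Manifold
open Crest.Agent.R208.F (Ext)
open Crest.GeometryTopology.DehnSurgery

noncomputable section

namespace Crest.Agent.X212.Wd38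

open Crest.Agent.X212.Glue52 Crest.Agent.X212.Rod53 Crest.Agent.X212.Int54 Crest.Agent.X212.Orx52
  Crest.Agent.X212.M Crest.Agent.X212.Cyf70
open Crest.Agent.X212.Cyl58 hiding ld_id ld_congr ld_of_comp ld_comp
open Crest.Agent.X212.Dr59 (pm)

section Gen

variable {V V' : Type} [NormedAddCommGroup V] [NormedSpace ℝ V] [FiniteDimensional ℝ V]
  [NormedAddCommGroup V'] [NormedSpace ℝ V'] [FiniteDimensional ℝ V']
  {A A' X : TP V} {Z : TP V'} {J J' L : Set ℝ}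

theorem conn_image (k : TIso A X J) (h : IsPreconnected (A.τ ⁻¹' J)) : IsPreconnected (X.τ ⁻¹' J) :=
  k.image_preimage subset_rfl ▸ h.image _ (k.src ▸ k.φ.contMDiffOn_toFun.continuousOn)

/-- the orientation pushed through a chart -/
def push (k : TIso A X J) (o : A.P.M → Ext A.P.E) : X.P.M → Ext X.P.E := pm X.P.I A.P.I k.φ.symm o

variable {o : A.P.M → Ext A.P.E} {o' : A'.P.M → Ext A'.P.E} {c : Z.P.M → Ext Z.P.E}

theorem tpos_push (k : TIso A X J) (ho : Ori A.P.I o) : TPos k o (push k o) :=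
  pos_push k.φ (oriOn ho _) k.src.ge

theorem oriOn_push (k : TIso A X J) (ho : Ori A.P.I o) : OriOn X.P.I (X.τ ⁻¹' J) (push k o) :=
  k.image_preimage subset_rfl ▸ (oriOn ho _).push k.φ k.src.ge

theorem same_push (k : TIso A X J) (k' : TIso A' X J') (ho : Ori A.P.I o) (ho' : Ori A'.P.I o')
    (hL : IsOpen L) (h : L ⊆ J) (h' : L ⊆ J') {u : TIso Z A L} {u' : TIso Z A' L} (hu : TPos u c o)
    (hu' : TPos u' c o') (e : ∀ z, Z.τ z ∈ L → k (u z) = k' (u' z)) :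
    SameOn (push k o) (push k' o') (X.τ ⁻¹' L) :=
  (u.trans (k.restr hL h)).image_preimage subset_rfl ▸ Pos.same (hu.trans ((tpos_push k ho).restr hL h))
    (Pos.congr (hu'.trans ((tpos_push k' ho').restr hL h')) (hL.preimage Z.cont) e)
    fun _ => (u.trans (k.restr hL h)).ld

theorem exists_tpos {ι : Type} {A : ι → TP V} {J : ι → Set ℝ} (k : ∀ i, TIso (A i) X (J i))
    {o : ∀ i, (A i).P.M → Ext (A i).P.E} (ho : ∀ i, Ori (A i).P.I (o i)) (hJ : ∀ i, IsOpen (J i))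
    (cov : ∀ t, ∃ i, t ∈ J i)
    (h : ∀ i j, SameOn (push (k i) (o i)) (push (k j) (o j)) (X.τ ⁻¹' (J i ∩ J j))) :
    ∃ O, Ori X.P.I O ∧ ∀ i, TPos (k i) (o i) O := by
  have := sigmaCompact X.P.I X.P.M
  obtain ⟨O, h1, -, h2⟩ := exists_ori_cover (fun i => (hJ i).preimage X.cont) (fun x => cov (X.τ x))
    (fun i => oriOn_push (k i) (ho i)) h
  exact ⟨O, h1, fun i => (tpos_push (k i) (ho i)).right (fun _ => (k i).ld) (u := X.τ ⁻¹' J i)
    (fun _ => (k i).mem) (h2 i)⟩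

end Gen

theorem conn_time {T : Tb (𝓡 3) S3} {v : ℝ → Z2} {J : Set ℝ} (hJ : IsOpen J) (h : IsPreconnected J) :
    IsPreconnected (T.time v ⁻¹' J) := by
  refine ((T.isPreconnected_Ex.prod h).image _ ((T.ext v).contMDiffOn_toFun.continuousOn.mono
    (prod_mono subset_rfl (subset_univ _)))).subset_closure ?_
    ((T.dense_ext.open_subset_closure_inter (hJ.preimage T.continuous_time)).trans (closure_mono ?_))
  · rintro _ ⟨p, hp, rfl⟩
    exact show T.time v _ ∈ J from (T.time_ext hp.1).symm ▸ hp.2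
  · rintro _ ⟨h1, p, hp, rfl⟩
    exact ⟨p, ⟨hp.1, T.time_ext hp.1 ▸ h1⟩, rfl⟩

variable {Γ : Nm}

namespace Cx

variable (C : Cx Γ) {w w' : Shp Γ} {x y x' y' j : ℤ} {τ : Γ.ι × Z2}

theorem sides : Sides (mF C.kd Γ.cap) C.S.n fun b => cond b C.S.R C.S.L :=
  ⟨C.S.oe, fun b => by cases b; exacts [C.S.oL, C.S.oR], C.S.dj.symm,
    fun x hx => (C.S.cov x hx).elim (fun h => ⟨false, h⟩) fun h => ⟨true, h⟩, fun b p hp => by
      cases b
      exacts [C.S.nL p (by simpa [M.pm] using hp), C.S.nR p (by simpa [M.pm] using hp)]⟩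

theorem conn_cap (b : Bool) : IsPreconnected {p | M.pm b * C.S.τ (1 / 4) p ∈ Ioi (-(1 / 4))} := by
  have h1 : IsPreconnected (cond b C.S.R C.S.L) := ofSd_sd C.sides b ▸ (ofSd C.sides).wall.conn b
  have h2 : IsPreconnected (C.S.n '' (univ ×ˢ Ioo (-(1 / 4)) (1 / 4))) :=
    (isPreconnected_univ.prod isPreconnected_Ioo).image _ C.S.oe.continuous.continuousOn
  convert h1.union (C.S.n (Classical.arbitrary _, M.pm b / 8)) (C.sides.j_mem.2 (by cases b <;> norm_num [M.pm]))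
    (mem_image_of_mem _ (mk_mem_prod (mem_univ _) (by cases b <;> norm_num [M.pm]))) h2
  ext p
  by_cases hp : p ∈ range C.S.n
  · obtain ⟨p, rfl⟩ := hp
    rw [mem_union, C.sides.j_mem, C.S.oe.inj.mem_set_image, mem_ofPred_eq, C.S.τ_n]
    cases b <;> simp only [M.pm, mem_Ioi, mem_prod, mem_univ, true_and, mem_Ioo, max_def, min_def,
      if_true, Bool.false_eq_true, if_false] <;> split_ifs <;> constructor <;> intro h <;>
      first | linarith | (rcases h with h | ⟨h, h'⟩ <;> linarith) |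
        (by_contra k; push Not at k; linarith [k.1, k.2 (by linarith [k.1])])
  · have k : p ∉ C.S.n '' (univ ×ˢ Ioo (-(1 / 4)) (1 / 4)) := fun k => hp (image_subset_range _ _ k)
    rw [mem_union, or_iff_left k, mem_ofPred_eq]
    rcases C.S.cov p hp with h | h
    · rw [C.S.τ_L _ hp h]
      cases b
      · norm_num [M.pm, h]
      · simpa [M.pm] using disjoint_left.1 C.S.dj h
    · rw [C.S.τ_R _ hp h]
      cases b
      · simpa [M.pm] using disjoint_right.1 C.S.dj h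
      · norm_num [M.pm, h]

theorem conn_capL (j : ℤ) : IsPreconnected ((C.cap j).τ ⁻¹' Iio (j + 3 / 4)) := by
  refine (Set.ext fun p => ?_ : _ = (C.cap j).τ ⁻¹' _) ▸ C.conn_cap false
  symm
  change C.S.τ (1 / 4) p + (j + 1 / 2) < j + 3 / 4 ↔ -(1 / 4) < -1 * C.S.τ (1 / 4) p
  constructor <;> intro <;> linarith

theorem conn_capR (j : ℤ) : IsPreconnected ((C.cap j).τ ⁻¹' Ioi (j + 1 / 4)) := by
  refine (Set.ext fun p => ?_ : _ = (C.cap j).τ ⁻¹' _) ▸ C.conn_cap true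
  symm
  change (j : ℝ) + 1 / 4 < C.S.τ (1 / 4) p + (j + 1 / 2) ↔ -(1 / 4) < 1 * C.S.τ (1 / 4) p
  constructor <;> intro <;> linarith

/-- the orientation of the rod manifold of a range -/
abbrev ok (w : Shp Γ) (x y : ℤ) : C.XR w x y → Ext E4 := oK (C.kd (w.kn x)).toTube (w.loc x y)

/-- the orientation of the cylinder of a type -/
abbrev oc (τ : Γ.ι × Z2) : (mF C.kd τ).M × ℝ → Ext (E3 × ℝ) := pr (oY C.kd τ) oR

theorem ok_spec {k : Γ.ι} (e : w.kn x = k) : OX (C.T (w.kn x)) (w.v x y) (oS (C.kd k).toTube) (C.ok w x y) :=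
  e ▸ oK_spec _ _

theorem ori_ok : Ori (𝓡 4) (C.ok w x y) := (C.ok_spec rfl).ori

theorem tpos_pt (hw : w.OK) (h : w.Rg x y) (e : τ.1 = w.kn x) (e' : w.bw x y j = τ.2) :
    TPos (C.pt hw h j τ e e') (C.oc τ) (C.ok w x y) :=
  (C.ok_spec e.symm).tiso (Y := (mF C.kd τ).pc) (C.F τ e) _ _ _ _ (ori_oF _ _) (pos_ie _ _)

theorem tpos_pC (j : ℤ) : TPos (C.pC j) (C.oc Γ.cap) (-C.o0) :=
  (C.pS.comp ((pos_id.2 (oriOn (ori_oF _ _) univ).same).prodMap (pos_add (-(j + 1 / 2))) (fun y _ => ld_id y)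
    fun z _ => ld_add _ z) (fun p _ => C.S.oe.loc p) (fun z _ => ld_prodMap_at (ld_id z.1) (ld_add _ z.2))
    (mapsTo_univ _ _)).mono fun _ _ => ⟨trivial, trivial⟩

theorem tpos_f0 (e : w.kn x = w'.kn x') {J : Set ℝ} (hJ : IsOpen J) (h : ∀ t ∈ J, w.v x y t = w'.v x' y' t) :
    TPos (f0 (congrArg C.T e) (w.loc x y) (w'.loc x' y') hJ h) (C.ok w x y) (C.ok w' x' y') :=
  (pos_ff (d := 0) (congrArg C.T e) (C.ok_spec e) (C.ok_spec rfl)).mono fun _ hp =>
    Or.inr (Ag.of_open hJ (by simpa using h) hp)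

theorem exists_up (hw : w.OK) (h : w.Rg x y) (h1 : x ≤ x') (h2 : x' < y') (h3 : y' ≤ y) {p : C.XR w x' y'}
    (hp : C.tm p ∈ II x' y') : ∃ q : C.XR w x y, NR 0 p q :=
  ⟨_, nr_f0 (C.T_eq hw h h1 (h2.trans_le h3)) (w.loc _ _) (w.loc _ _) (isOpen_II _ _)
    (fun _ => h.v_sub hw h1 h2 h3) hp⟩

theorem exists_dn (hw : w.OK) (h : w.Rg x y) (h1 : x ≤ x') (h2 : x' < y') (h3 : y' ≤ y) {q : C.XR w x y}
    (hq : C.tm q ∈ II x' y') : ∃ p : C.XR w x' y', NR 0 q p :=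
  ⟨_, nr_f0 (C.T_eq hw h h1 (h2.trans_le h3)).symm (w.loc _ _) (w.loc _ _) (isOpen_II _ _)
    (fun _ ht => (h.v_sub hw h1 h2 h3 ht).symm) hq⟩

end Cx

/-- two ranges do not meet just in a junction -/
def Shp.Ov (w : Shp Γ) (x y x' y' : ℤ) : Prop :=
  (x' = y → ∃ τ, w.s y = .rod τ) ∧ (x = y' → ∃ τ, w.s y' = .rod τ)

theorem Shp.Ov.hull {w : Shp Γ} {x y x' y' : ℤ} (o : w.Ov x y x' y') (h : w.Rg x y) (h' : w.Rg x' y') {t : ℝ}
    (ht : t ∈ II x y) (ht' : t ∈ II x' y') : w.Rg (min x x') (max y y') := by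
  rcases le_total x x' with k | k
  · rw [min_eq_left k]; exact h.union h' (II_le ht' ht) o.1
  · rw [min_eq_right k, max_comm]; exact h'.union h (II_le ht ht') o.2

namespace Rz

variable {C : Cx Γ} {w : Shp Γ} {hw : w.OK} {X : TP V4} (R : Rz C hw X) {x y x' y' j : ℤ} {τ : Γ.ι × Z2}

theorem eq_nr (h : w.Rg x y) (h' : w.Rg x' y') (o : w.Ov x y x' y') {p : C.XR w x y} {q : C.XR w x' y'}
    (hp : C.tm p ∈ II x y) (hq : C.tm q ∈ II x' y') (l : NR 0 p q) : R.B h p = R.B h' q := by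
  have u := o.hull h h' hp ((C.mem_nr l).1 hq)
  obtain ⟨z, hz⟩ := C.exists_up hw u (min_le_left _ _) h.lt (le_max_left _ _) hp
  rw [← R.nest u h (min_le_left _ _) (le_max_left _ _) p z hp hz,
    R.nest u h' (min_le_right _ _) (le_max_right _ _) q z hq (l.symm0.trans0 hz)]

theorem nr_of_eq (h : w.Rg x y) (h' : w.Rg x' y') (o : w.Ov x y x' y') {p : C.XR w x y} {q : C.XR w x' y'}
    (hp : C.tm p ∈ II x y) (hq : C.tm q ∈ II x' y') (e : R.B h p = R.B h' q) : NR 0 p q := by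
  have t : C.tm p = C.tm q := ((R.B h).tm p hp).symm.trans (e ▸ (R.B h').tm q hq)
  have u := o.hull h h' hp (t ▸ hq)
  obtain ⟨z, hz⟩ := C.exists_up hw u (min_le_left _ _) h.lt (le_max_left _ _) hp
  obtain ⟨z', hz'⟩ := C.exists_up hw u (min_le_right _ _) h'.lt (le_max_right _ _) hq
  rw [← R.nest u h (min_le_left _ _) (le_max_left _ _) p z hp hz,
    ← R.nest u h' (min_le_right _ _) (le_max_right _ _) q z' hq hz'] at e
  obtain rfl := (R.B u).inj ((C.mem_nr hz).2 (II_mono (min_le_left _ _) (le_max_left _ _) hp))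
    ((C.mem_nr hz').2 (II_mono (min_le_right _ _) (le_max_right _ _) hq)) e
  exact hz.trans0 hz'.symm0

/-- the product region of the right part of a slot -/
def P (h1 : w.l ≤ j) (h2 : j < w.r) (e : (w.s j).r = τ) : TIso (C.cy τ) X (II j j) :=
  (C.pR hw (Shp.rg_one h1 h2) e).trans
    ((R.B (Shp.rg_one h1 h2)).restr (isOpen_II _ _) (II_mono le_rfl (lt_add_one j).le))

theorem P_eq (h : w.Rg x y) (h1 : x ≤ j) (h2 : j < y) (e : (w.s j).r = τ) (f : τ.1 = w.kn x)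
    (f' : w.bw x y j = τ.2) (q : (mF C.kd τ).M) {t : ℝ} (ht : t ∈ II j j) :
    R.P (h.lo.trans h1) (h2.trans_le h.hi) e (q, t) = R.B h (C.pt hw h j τ f f' (q, t)) :=
  have r := Shp.rg_one (h.lo.trans h1) (h2.trans_le h.hi)
  (R.nest h r h1 h2 _ _ (II_mono le_rfl (lt_add_one j).le ((C.pR hw r e).mem (x := (q, t)) ht))
    (C.nr_pt0 hw hw r h _ _ _ _ q ht)).symm

theorem cover (hw : w.OK) (t : ℝ) : t ∈ Iio ((w.l : ℝ) + 3 / 4) ∨ t ∈ Ioi ((w.r : ℝ) + 1 / 4) ∨
    ∃ j, w.l ≤ j ∧ j < w.r ∧ t ∈ II j (j + 1) := by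
  by_contra k
  simp only [not_or, mem_Iio, mem_Ioi, not_lt] at k
  exact k.2.2 (exists_II hw.lt ⟨by linarith [k.1], by linarith [k.2.1]⟩)

include R

theorem surj (z : X.P.M) : (∃ p, (C.cap w.l).τ p ∈ Iio ((w.l : ℝ) + 3 / 4) ∧ R.kL p = z) ∨
    (∃ p, (C.cap w.r).τ p ∈ Ioi ((w.r : ℝ) + 1 / 4) ∧ R.kR p = z) ∨
    ∃ j h1 h2 p, C.tm p ∈ II j (j + 1) ∧ R.B (Shp.rg_one (j := j) h1 h2) p = z := by
  rcases cover hw (X.τ z) with h | h | ⟨j, h1, h2, h⟩
  · obtain ⟨p, a, b⟩ := R.kL.surj h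
    exact .inl ⟨p, a ▸ h, b⟩
  · obtain ⟨p, a, b⟩ := R.kR.surj h
    exact .inr (.inl ⟨p, a ▸ h, b⟩)
  · obtain ⟨p, a, b⟩ := (R.B (Shp.rg_one h1 h2)).surj h
    exact .inr (.inr ⟨j, h1, h2, p, (show C.tm p = _ from a) ▸ h, b⟩)

theorem time_mem (z : X.P.M) : X.τ z ∈ Icc ((w.l : ℝ) + 1 / 4) (w.r + 3 / 4) := by
  have lt : (w.l : ℝ) < w.r := by exact_mod_cast hw.lt
  rcases R.surj z with ⟨p, h, rfl⟩ | ⟨p, h, rfl⟩ | ⟨j, h1, h2, p, h, rfl⟩
  · rw [R.kL.tm p h]
    exact ⟨(C.cap_mem _ p).1, (C.cap_mem _ p).2.trans (by linarith)⟩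
  · rw [R.kR.tm p h]
    exact ⟨le_trans (by linarith) (C.cap_mem _ p).1, (C.cap_mem _ p).2⟩
  · exact Ioo_subset_Icc_self (II_mono h1 h2 ((R.B _).mem h))

theorem cpt : CompactSpace X.P.M := X.compactSpace R.time_mem

theorem conn_II (h : w.Rg x y) : IsPreconnected (X.τ ⁻¹' II x y) :=
  conn_image (R.B h) (conn_time (isOpen_II _ _) isPreconnected_Ioo)

theorem exists_half (h1 : w.l ≤ j) (h2 : j ≤ w.r) : ∃ z, X.τ z = j + 1 / 2 := by
  rcases h2.eq_or_lt with rfl | h2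
  · exact ⟨_, (((C.pC w.r).trans (R.kR.restr (isOpen_II _ _) Ioo_subset_Ioi_self)).tm
      (Classical.arbitrary _, _) (half_mem _))⟩
  · exact ⟨_, (R.P h1 h2 rfl).tm (Classical.arbitrary _, _) (half_mem _)⟩

theorem conn_Iio (h1 : w.l ≤ j) (h2 : j ≤ w.r) : IsPreconnected (X.τ ⁻¹' Iio (j + 3 / 4)) := by
  induction j, h1 using Int.leInduction with
  | base => exact conn_image R.kL (C.conn_capL _)
  | succ j k ih =>
    obtain ⟨z, hz⟩ := R.exists_half k (by omega)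
    convert (ih (by omega)).union z (show X.τ z < _ by linarith)
      (show X.τ z ∈ _ from hz ▸ II_mono le_rfl (lt_add_one j).le (half_mem j)) (R.conn_II (Shp.rg_one k h2))
    rw [← preimage_union, II, Iio_union_Ioo (min_lt_of_left_lt (by linarith)), max_eq_right (by push_cast; linarith)]

theorem con : ConnectedSpace X.P.M := by
  obtain ⟨z, hz⟩ := R.exists_half hw.lt.le le_rfl
  have := (R.conn_Iio hw.lt.le le_rfl).union z (show X.τ z < _ by linarith) (show _ < X.τ z by linarith)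
    (conn_image R.kR (C.conn_capR _))
  rw [← preimage_union, Iio_union_Ioi_of_lt (by linarith), preimage_univ] at this
  exact connectedSpace_iff_univ.2 ⟨⟨z, trivial⟩, this⟩

/-- `O` is the orientation `o ∧ dt` -/
structure Or (O : X.P.M → Ext X.P.E) : Prop where
  ori : Ori X.P.I O
  B : ∀ {x y} (h : w.Rg x y), TPos (R.B h) (C.ok w x y) O
  kL : TPos R.kL (-C.o0) O
  kR : TPos R.kR (-C.o0) O

theorem same_BB (h : w.Rg x y) (h' : w.Rg x' y') (k : x ≤ x') :
    SameOn (push (R.B h) (C.ok w x y)) (push (R.B h') (C.ok w x' y')) (X.τ ⁻¹' (II x y ∩ II x' y')) := by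
  by_cases o : x' = y → ∃ τ, w.s y = .rod τ
  · intro z hz
    have o' : w.Ov x y x' y' := ⟨o, fun e => by have := h'.lt; omega⟩
    have u := h.union h' (II_le hz.2 hz.1) o
    have op := (isOpen_II x y).inter (isOpen_II x' y')
    have e1 := (u.kn_eq hw k (lt_max_of_lt_right h'.lt)).symm
    have e2 : ∀ t ∈ II x y ∩ II x' y', w.v x y t = w.v x' y' t := fun t ht =>
      (u.v_sub hw le_rfl h.lt (le_max_left _ _) ht.1).trans (u.v_sub hw k h'.lt (le_max_right _ _) ht.2).symm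
    exact same_push _ _ C.ori_ok C.ori_ok op inter_subset_left inter_subset_right (tpos_refl op C.ori_ok)
      (C.tpos_f0 e1 op e2) (fun p hp => R.eq_nr h h' o' hp.1 ((f0 _ _ _ op e2).mem hp).2 (nr_f0 _ _ _ op e2 hp)) z hz
  · push Not at o
    obtain ⟨rfl, o⟩ := o
    obtain ⟨J, e⟩ : ∃ J, w.s x' = .jn J := by
      cases e : w.s x'
      exacts [(o _ e).elim, ⟨_, rfl⟩]
    exact fun z hz => same_push _ _ C.ori_ok C.ori_ok (isOpen_II x' x') (II_mono k le_rfl) (II_mono le_rfl h'.lt.le)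
      (u := C.pL (τ := Γ.src J) hw h (congrArg Sl.l e))
      (u' := (cylIso (C.g J) (isOpen_II _ _)).trans (C.pR (τ := Γ.tgt J) hw h' (congrArg Sl.r e)))
      (C.tpos_pt _ _ _ _) ((tpos_cylIso _ (C.pos J)).trans (C.tpos_pt _ _ _ _))
      (fun p hp => (R.jn h h' e p.1 p.2 hp).symm) z ⟨hz.2.1, hz.1.2⟩

theorem same_LB (h : w.Rg x y) :
    SameOn (push R.kL (-C.o0)) (push (R.B h) (C.ok w x y)) (X.τ ⁻¹' (Iio (w.l + 3 / 4) ∩ II x y)) := by
  intro z hz
  obtain rfl : x = w.l := h.lo.antisymm' (II_le hz.2 (x' := x) ⟨hz.2.1, hz.1⟩)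
  exact same_push _ _ (ori_neg C.ori) C.ori_ok (isOpen_II w.l w.l) Ioo_subset_Iio_self (II_mono le_rfl h.lt.le)
    (C.tpos_pC _) (u' := C.pR hw h hw.lr) (C.tpos_pt _ _ _ _) (fun p hp => (R.cL h p.1 p.2 hp).symm) z
    ⟨hz.2.1, hz.1⟩

theorem same_RB (h : w.Rg x y) :
    SameOn (push R.kR (-C.o0)) (push (R.B h) (C.ok w x y)) (X.τ ⁻¹' (Ioi (w.r + 1 / 4) ∩ II x y)) := by
  intro z hz
  obtain rfl : y = w.r := h.hi.antisymm (II_le (y := y) ⟨hz.1, hz.2.2⟩ hz.2)
  exact same_push _ _ (ori_neg C.ori) C.ori_ok (isOpen_II w.r w.r) Ioo_subset_Ioi_self (II_mono h.lt.le le_rfl)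
    (C.tpos_pC _) (u' := C.pL hw h hw.rl) (C.tpos_pt _ _ _ _) (fun p hp => (R.cR h p.1 p.2 hp).symm) z
    ⟨hz.1, hz.2.2⟩

theorem exists_or : ∃ O, R.Or O := by
  have lt : (w.l : ℝ) + 1 ≤ w.r := by exact_mod_cast hw.lt
  have oo := ori_neg C.ori
  have dj : ∀ t : ℝ, t < w.l + 3 / 4 → w.r + 1 / 4 < t → False := fun _ _ _ => by linarith
  obtain ⟨O, h1, h2⟩ := exists_tpos (X := X) (ι := Bool ⊕ {p : ℤ × ℤ // w.Rg p.1 p.2})
    (A := Sum.elim (fun b => cond b (C.cap w.r) (C.cap w.l)) fun p => C.tp w p.1.1 p.1.2)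
    (J := Sum.elim (fun b => cond b (Ioi (w.r + 1 / 4)) (Iio (w.l + 3 / 4))) fun p => II p.1.1 p.1.2)
    (fun i => match i with | .inl false => R.kL | .inl true => R.kR | .inr p => R.B p.2)
    (o := fun i => match i with | .inl false => -C.o0 | .inl true => -C.o0 | .inr _ => C.ok w _ _)
    (fun i => match i with | .inl false => oo | .inl true => oo | .inr _ => C.ori_ok)
    (fun i => match i with | .inl false => isOpen_Iio | .inl true => isOpen_Ioi | .inr _ => isOpen_II _ _)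
    (fun t => by
      rcases cover hw t with h | h | ⟨j, h1, h2, h⟩
      exacts [⟨.inl false, h⟩, ⟨.inl true, h⟩, ⟨.inr ⟨(j, j + 1), Shp.rg_one h1 h2⟩, h⟩])
    fun i j => match i, j with
      | .inl false, .inl false => ((oriOn_push R.kL oo).mono fun _ h => h.1).same
      | .inl true, .inl true => ((oriOn_push R.kR oo).mono fun _ h => h.1).same
      | .inl false, .inl true => fun _ h => (dj _ h.1 h.2).elim
      | .inl true, .inl false => fun _ h => (dj _ h.2 h.1).elim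
      | .inl false, .inr p => R.same_LB p.2
      | .inl true, .inr p => R.same_RB p.2
      | .inr p, .inl false => fun z h => same_symm (R.same_LB p.2) z h.symm
      | .inr p, .inl true => fun z h => same_symm (R.same_RB p.2) z h.symm
      | .inr p, .inr q => (le_total p.1.1 q.1.1).elim (R.same_BB p.2 q.2)
          fun k z h => same_symm (R.same_BB q.2 p.2 k) z h.symm
  exact ⟨O, h1, fun h => h2 (.inr ⟨(_, _), h⟩), h2 (.inl false), h2 (.inl true)⟩

/-- the orientation `o ∧ dt` -/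
def O : X.P.M → Ext X.P.E := R.exists_or.choose

theorem O_spec : R.Or R.O := R.exists_or.choose_spec

theorem tpos_P (h1 : w.l ≤ j) (h2 : j < w.r) (e : (w.s j).r = τ) : TPos (R.P h1 h2 e) (C.oc τ) R.O :=
  (C.tpos_pt _ _ _ _).trans ((R.O_spec.B _).restr _ _)

end Rz

end Crest.Agent.X212.Wd38
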